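import Mathlib

set_option autoImplicit false

open MeasureTheory Set Filter Topology
open scoped NNReal ENNReal

namespace Crest.Agent.R112

/-- Composition of an absolutely continuous function with a Lipschitz one. -/
theorem ac_comp_lip {f : ℝ → ℝ} {a b : ℝ} (hf : AbsolutelyContinuousOnInterval f a b)
    {K : ℝ≥0} {φ : ℝ → ℝ} (hφ : LipschitzWith K φ) :
    AbsolutelyContinuousOnInterval (fun t => φ (f t)) a b := by
  have h := Tendsto.const_mul (K : ℝ) hf
  rw [mul_zero] at h
  refine squeeze_zero (fun t ↦ ?_) (fun t ↦ ?_) h
  · exact Finset.sum_nonneg (fun _ _ ↦ dist_nonneg)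
  · rw [Finset.mul_sum]
    exact Finset.sum_le_sum fun i _ => hφ.dist_le_mul _ _

/-- One-dimensional upgrade: `v ≥ h` continuous, `h` absolutely continuous, `v` locally Lipschitz
where `v > h`, and `v'` locally integrable. Then `v` is absolutely continuous. -/
theorem ac_upgrade {v h : ℝ → ℝ} (hv : Continuous v)
    (hh : ∀ a b, AbsolutelyContinuousOnInterval h a b) (hle : ∀ t, h t ≤ v t)
    (hloc : ∀ t, h t < v t → ∃ δ > 0, ∃ K : ℝ≥0, LipschitzOnWith K v (Icc (t - δ) (t + δ)))
    (hint : ∀ a b, IntervalIntegrable (deriv v) volume a b) :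
    ∀ a b, AbsolutelyContinuousOnInterval v a b := by
  classical
  have hhc : Continuous h := by
    rw [continuous_iff_continuousAt]
    intro t
    have := (hh (t - 1) (t + 1)).continuousOn
    rw [uIcc_of_le (by linarith)] at this
    exact this.continuousAt (Icc_mem_nhds (by linarith) (by linarith))
  set g : ℝ → ℝ := fun t => v t - h t with hgdef
  have hgc : Continuous g := hv.sub hhc
  have hg0 : ∀ t, 0 ≤ g t := fun t => sub_nonneg.2 (hle t)
  set ψ : ℝ → ℝ → ℝ := fun ε t => if ε < g t then deriv v t - deriv h t else 0 with hψdef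
  have hψeq : ∀ ε, ψ ε = Set.indicator {t | ε < g t} (fun t => deriv v t - deriv h t) := by
    intro ε
    ext t
    simp only [hψdef, Set.indicator_apply, Set.mem_ofPred_eq]
  have hopen : ∀ ε, IsOpen {t | ε < g t} := fun ε => isOpen_lt continuous_const hgc
  have hdint : ∀ a b, IntervalIntegrable (fun t => deriv v t - deriv h t) volume a b := fun a b =>
    (hint a b).sub (hh a b).intervalIntegrable_deriv
  have hψint : ∀ ε a b, IntervalIntegrable (ψ ε) volume a b := by
    intro ε a b
    rw [hψeq, intervalIntegrable_iff]
    exact ((hdint a b).def').indicator (hopen ε).measurableSet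
  -- step 1
  have step1 : ∀ ε > 0, ∀ a b, max (g b - ε) 0 - max (g a - ε) 0 = ∫ t in a..b, ψ ε t := by
    intro ε hε a b
    set G : ℝ → ℝ := fun t => max (g t - ε) 0 with hG
    have hloc2 : ∀ t0, ∃ δ > 0, ∀ t ∈ Icc (t0 - δ) (t0 + δ), G t - G t0 = ∫ s in t0..t, ψ ε s := by
      intro t0
      rcases lt_or_ge (g t0) ε with hlt | hge
      · have hU : {t | g t < ε} ∈ 𝓝 t0 := (isOpen_lt hgc continuous_const).mem_nhds hlt
        rw [Metric.mem_nhds_iff] at hU
        obtain ⟨δ, hδ, hsub⟩ := hU
        refine ⟨δ / 2, by positivity, fun t ht => ?_⟩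
        have hz : ∀ s ∈ uIcc t0 t, g s < ε := by
          intro s hs
          apply hsub
          rw [Metric.mem_ball, Real.dist_eq, abs_lt]
          rw [mem_uIcc] at hs
          rcases hs with hs | hs <;> constructor <;> linarith [hs.1, hs.2, ht.1, ht.2]
        have h1 : G t = 0 := max_eq_right (by linarith [hz t right_mem_uIcc])
        have h2 : G t0 = 0 := max_eq_right (by linarith [hz t0 left_mem_uIcc])
        rw [h1, h2, sub_zero]
        symm
        rw [intervalIntegral.integral_congr (g := fun _ => (0:ℝ))]
        · simp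
        · intro s hs
          simp only [hψdef]
          rw [if_neg (not_lt.2 (hz s hs).le)]
      · have hlt : h t0 < v t0 := by
          have : 0 < g t0 := lt_of_lt_of_le hε hge
          simp only [hgdef] at this
          linarith
        obtain ⟨δ, hδ, K, hK⟩ := hloc t0 hlt
        refine ⟨δ, hδ, fun t ht => ?_⟩
        have hsubu : uIcc t0 t ⊆ Icc (t0 - δ) (t0 + δ) := by
          intro s hs
          rw [mem_uIcc] at hs
          rcases hs with hs | hs <;> constructor <;> linarith [hs.1, hs.2, ht.1, ht.2]
        have hvac : AbsolutelyContinuousOnInterval v t0 t :=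
          (hK.mono hsubu).absolutelyContinuousOnInterval
        have hgac : AbsolutelyContinuousOnInterval g t0 t := by
          have := hvac.sub (hh t0 t)
          exact this
        have hlip : LipschitzWith 1 (fun x : ℝ => max (x - ε) 0) := by
          intro x y
          rw [edist_dist, edist_dist, ENNReal.coe_one, one_mul]
          apply ENNReal.ofReal_le_ofReal
          rw [Real.dist_eq, Real.dist_eq]
          have h7 := abs_max_sub_max_le_abs (x - ε) (y - ε) 0
          have h8 : x - ε - (y - ε) = x - y := by ring
          rw [h8] at h7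
          exact h7
        have hGac : AbsolutelyContinuousOnInterval G t0 t := by
          have h9 := ac_comp_lip (K := 1) (φ := fun x : ℝ => max (x - ε) 0) hgac hlip
          exact h9
        rw [← hGac.integral_deriv_eq_sub]
        apply intervalIntegral.integral_congr_ae
        filter_upwards [hvac.ae_differentiableAt, (hh t0 t).ae_differentiableAt] with s hs1 hs2 hs3
        have hs4 : s ∈ uIcc t0 t := uIoc_subset_uIcc hs3
        have hvd := hs1 hs4
        have hhd := hs2 hs4
        simp only [hψdef]
        rcases lt_trichotomy (g s) ε with h1 | h1 | h1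
        · rw [if_neg (not_lt.2 h1.le)]
          have : G =ᶠ[𝓝 s] fun _ => (0:ℝ) := by
            filter_upwards [(isOpen_lt hgc continuous_const).mem_nhds h1] with x hx
            exact max_eq_right (by have : g x < ε := hx; linarith)
          rw [this.deriv_eq]
          simp
        · rw [if_neg (not_lt.2 h1.le)]
          apply IsLocalMin.deriv_eq_zero
          filter_upwards with x
          have : G s = 0 := max_eq_right (by linarith)
          rw [this]
          exact le_max_right _ _
        · rw [if_pos h1]
          have : G =ᶠ[𝓝 s] fun x => (v x - h x) - ε := by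
            filter_upwards [(isOpen_lt continuous_const hgc).mem_nhds h1] with x hx
            exact max_eq_left (by have : ε < g x := hx; linarith)
          rw [this.deriv_eq, deriv_sub_const, deriv_fun_sub hvd hhd]
    -- locally constant
    set F : ℝ → ℝ := fun t => G t - ∫ s in (0:ℝ)..t, ψ ε s with hF
    have hFlc : IsLocallyConstant F := by
      rw [IsLocallyConstant.iff_eventually_eq]
      intro t0
      obtain ⟨δ, hδ, hd⟩ := hloc2 t0
      filter_upwards [Icc_mem_nhds (show t0 - δ < t0 by linarith) (show t0 < t0 + δ by linarith)] with t ht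
      have h1 := hd t ht
      have h2 : (∫ s in (0:ℝ)..t, ψ ε s) = (∫ s in (0:ℝ)..t0, ψ ε s) + ∫ s in t0..t, ψ ε s :=
        (intervalIntegral.integral_add_adjacent_intervals (hψint _ _ _) (hψint _ _ _)).symm
      simp only [hF]
      rw [h2]
      linarith
    have hFab : F b = F a := hFlc.apply_eq_of_preconnectedSpace b a
    have h2 : (∫ s in (0:ℝ)..b, ψ ε s) = (∫ s in (0:ℝ)..a, ψ ε s) + ∫ s in a..b, ψ ε s :=
      (intervalIntegral.integral_add_adjacent_intervals (hψint _ _ _) (hψint _ _ _)).symm
    simp only [hF, hG] at hFab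
    rw [h2] at hFab
    linarith
  -- step 2
  have step2 : ∀ a b, g b - g a = ∫ t in a..b, ψ 0 t := by
    intro a b
    have hlim1 : Tendsto (fun n : ℕ => max (g b - 1 / ((n:ℝ) + 1)) 0 - max (g a - 1 / ((n:ℝ) + 1)) 0)
        atTop (𝓝 (g b - g a)) := by
      have h0 : Tendsto (fun n : ℕ => 1 / ((n:ℝ) + 1)) atTop (𝓝 0) :=
        tendsto_one_div_add_atTop_nhds_zero_nat
      have : ∀ t, Tendsto (fun n : ℕ => max (g t - 1 / ((n:ℝ) + 1)) 0) atTop (𝓝 (g t)) := by
        intro t
        have h1 : Tendsto (fun n : ℕ => max (g t - 1 / ((n:ℝ) + 1)) 0) atTop (𝓝 (max (g t - 0) 0)) :=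
          (tendsto_const_nhds.sub h0).max tendsto_const_nhds
        rwa [sub_zero, max_eq_left (hg0 t)] at h1
      exact (this b).sub (this a)
    have hlim2 : Tendsto (fun n : ℕ => ∫ t in a..b, ψ (1 / ((n:ℝ) + 1)) t) atTop
        (𝓝 (∫ t in a..b, ψ 0 t)) := by
      apply intervalIntegral.tendsto_integral_filter_of_dominated_convergence
        (fun t => ‖deriv v t - deriv h t‖)
      · filter_upwards with n
        have := (hψint (1 / ((n:ℝ) + 1)) a b).def'
        exact this.aestronglyMeasurable
      · filter_upwards with n
        filter_upwards with t _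
        simp only [hψdef]
        split_ifs
        · exact le_rfl
        · simp
      · exact (hdint a b).norm
      · filter_upwards with t _
        rcases (hg0 t).eq_or_lt with h0 | h0
        · have : ∀ n : ℕ, ψ (1 / ((n:ℝ) + 1)) t = ψ 0 t := by
            intro n
            simp only [hψdef]
            rw [if_neg, if_neg]
            · rw [← h0]; exact lt_irrefl _
            · rw [← h0, not_lt]; positivity
          simp only [this]
          exact tendsto_const_nhds
        · have h1 : ∀ᶠ n : ℕ in atTop, ψ (1 / ((n:ℝ) + 1)) t = ψ 0 t := by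
            have h2 : ∀ᶠ n : ℕ in atTop, 1 / ((n:ℝ) + 1) < g t :=
              (tendsto_one_div_add_atTop_nhds_zero_nat).eventually (gt_mem_nhds h0)
            filter_upwards [h2] with n hn
            simp only [hψdef]
            rw [if_pos hn, if_pos h0]
          exact tendsto_nhds_of_eventually_eq h1
    have heq : ∀ n : ℕ, max (g b - 1 / ((n:ℝ) + 1)) 0 - max (g a - 1 / ((n:ℝ) + 1)) 0
        = ∫ t in a..b, ψ (1 / ((n:ℝ) + 1)) t := fun n => step1 _ (by positivity) a b
    simp only [heq] at hlim1
    exact tendsto_nhds_unique hlim1 hlim2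
  intro a b
  have h1 : AbsolutelyContinuousOnInterval (fun t => ∫ s in a..t, ψ 0 s) a b :=
    (hψint 0 a b).absolutelyContinuousOnInterval_intervalIntegral left_mem_uIcc
  have h2 : AbsolutelyContinuousOnInterval (fun _ : ℝ => g a) a b :=
    (LipschitzWith.const (g a)).lipschitzOnWith.absolutelyContinuousOnInterval
  have h3 := ((hh a b).fun_add (h1.fun_add h2))
  have : (fun t => h t + ((∫ s in a..t, ψ 0 s) + g a)) = v := by
    ext t
    rw [← step2 a t]
    simp only [hgdef]
    ring
  rwa [this] at h3

end Crest.Agent.R112
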