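import Crest.Agent.R112.Attached

/-!
Row 112 (S0147), module PlaneO1: slices, affine changes of variables in `ℂ` and O1 in the plane.
-/

set_option autoImplicit false

namespace Crest.Agent.R112

open MeasureTheory Set Filter Topology
open scoped NNReal ENNReal

/-- slices -/
theorem lint_slice {F : ℂ → ℝ≥0∞} (hF : Measurable F) :
    ∫⁻ z, F z = ∫⁻ y : ℝ, ∫⁻ s : ℝ, F ⟨s, y⟩ := by
  rw [← (Complex.volume_preserving_equiv_real_prod.symm).lintegral_comp_emb
    Complex.measurableEquivRealProd.symm.measurableEmbedding]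
  rw [Measure.volume_eq_prod, lintegral_prod_symm]
  · rfl
  · exact (hF.comp Complex.measurableEquivRealProd.symm.measurable).aemeasurable

/-- change of variables `x = x0 + c z` -/
theorem map_aff (x0 : ℂ) {c : ℂ} (hc : c ≠ 0) :
    Measure.map (fun z : ℂ => x0 + c * z) volume =
      ENNReal.ofReal ((‖c‖ ^ 2)⁻¹) • (volume : Measure ℂ) := by
  have h1 : Measure.map (fun z : ℂ => c * z) volume =
      ENNReal.ofReal ((‖c‖ ^ 2)⁻¹) • (volume : Measure ℂ) := by
    have hdet : LinearMap.det (LinearMap.mulLeft ℝ c) = ‖c‖ ^ 2 := by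
      have : LinearMap.det (LinearMap.mulLeft ℝ c) = Algebra.norm ℝ c := rfl
      rw [this, Algebra.norm_complex_apply, Complex.normSq_eq_norm_sq]
    have hne : LinearMap.det (LinearMap.mulLeft ℝ c) ≠ 0 := by
      rw [hdet]; exact pow_ne_zero _ (norm_ne_zero_iff.mpr hc)
    have := Measure.map_linearMap_addHaar_eq_smul_addHaar (volume : Measure ℂ) hne
    rw [hdet, abs_of_nonneg (by positivity)] at this
    exact this
  have h2 : (fun z : ℂ => x0 + c * z) = (fun w => x0 + w) ∘ (fun z => c * z) := rfl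
  rw [h2, ← Measure.map_map (measurable_const_add x0) (measurable_const_mul c), h1,
    Measure.map_smul, map_add_left_eq_self]

theorem lint_aff (x0 : ℂ) {c : ℂ} (hc : c ≠ 0) (F : ℂ → ℝ≥0∞) :
    ENNReal.ofReal (‖c‖ ^ 2) * ∫⁻ z, F (x0 + c * z) = ∫⁻ x, F x := by
  have hemb : MeasurableEmbedding (fun z : ℂ => x0 + c * z) := by
    have h2 : (fun z : ℂ => x0 + c * z) = (fun w => x0 + w) ∘ (fun z => c * z) := rfl
    rw [h2]
    exact (MeasurableEquiv.addLeft x0).measurableEmbedding.comp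
      (MeasurableEquiv.mulLeft₀ c hc).measurableEmbedding
  have h := hemb.lintegral_map (μ := volume) F
  rw [← h, map_aff x0 hc, lintegral_smul_measure, smul_eq_mul, ← mul_assoc,
    ← ENNReal.ofReal_mul (by positivity)]
  have : ‖c‖ ^ 2 ≠ 0 := pow_ne_zero _ (norm_ne_zero_iff.mpr hc)
  rw [mul_inv_cancel₀ this]
  simp

theorem lint_rot {e : ℂ} (he : ‖e‖ = 1) (F : ℂ → ℝ≥0∞) :
    ∫⁻ z, F (e * z) = ∫⁻ x, F x := by
  have hc : e ≠ 0 := by rintro rfl; simp at he
  have := lint_aff 0 hc F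
  simpa [he] using this

/-- O1 in the plane, one direction -/
theorem ae_fderiv_apply_eq_of_eqOn {h k : ℂ → ℝ} {K K' : ℝ≥0} (hh : LipschitzWith K h)
    (hk : LipschitzWith K' k) (v : ℂ) :
    ∀ᵐ z, h z = k z → fderiv ℝ h z v = fderiv ℝ k z v := by
  set S : Set ℂ := {z | ¬ (h z = k z ∧ DifferentiableAt ℝ h z ∧ DifferentiableAt ℝ k z ∧
    fderiv ℝ h z v ≠ fderiv ℝ k z v)} with hSdef
  have hS : MeasurableSet S := by
    have m1 : MeasurableSet {z | h z = k z} :=
      (isClosed_eq hh.continuous hk.continuous).measurableSet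
    have m2 : MeasurableSet {z | DifferentiableAt ℝ h z} := measurableSet_of_differentiableAt ℝ h
    have m3 : MeasurableSet {z | DifferentiableAt ℝ k z} := measurableSet_of_differentiableAt ℝ k
    have m4 : MeasurableSet {z | fderiv ℝ h z v = fderiv ℝ k z v} :=
      measurableSet_eq_fun (measurable_fderiv_apply_const ℝ h v)
        (measurable_fderiv_apply_const ℝ k v)
    have : S = ({z | h z = k z} ∩ ({z | DifferentiableAt ℝ h z} ∩
      ({z | DifferentiableAt ℝ k z} ∩ {z | fderiv ℝ h z v = fderiv ℝ k z v}ᶜ)))ᶜ := by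
      ext z; simp [hSdef]
    rw [this]
    exact (m1.inter (m2.inter (m3.inter m4.compl))).compl
  have hmem : ∀ᵐ z, z ∈ S := by
    let L : ℝ →L[ℝ] ℂ := ContinuousLinearMap.smulRight (1 : ℝ →L[ℝ] ℝ) v
    refine ae_mem_of_ae_add_linearMap_mem L.toLinearMap volume volume hS ?_
    intro p
    have hlip : LipschitzWith ‖v‖₊ (fun t : ℝ => p + t • v) := by
      refine LipschitzWith.of_dist_le_mul fun a b => ?_
      rw [dist_add_left, dist_eq_norm, ← sub_smul, norm_smul, mul_comm, Real.dist_eq]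
      rfl
    have h1 : LipschitzWith (K * ‖v‖₊) (fun t : ℝ => h (p + t • v)) := hh.comp hlip
    have k1 : LipschitzWith (K' * ‖v‖₊) (fun t : ℝ => k (p + t • v)) := hk.comp hlip
    have hO := ae_deriv_eq_of_eqOn h1.ae_differentiableAt_real k1.ae_differentiableAt_real
    filter_upwards [hO] with t ht
    have hLt : p + L.toLinearMap t = p + t • v := by simp [L]
    rw [hLt]
    rintro ⟨e1, e2, e3, e4⟩
    apply e4
    have hl : HasDerivAt (fun t : ℝ => p + t • v) v t := by
      have := ((hasDerivAt_id t).smul_const v).const_add p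
      simpa using this
    have d1 : HasDerivAt (fun t : ℝ => h (p + t • v)) (fderiv ℝ h (p + t • v) v) t :=
      e2.hasFDerivAt.comp_hasDerivAt t hl
    have d2 : HasDerivAt (fun t : ℝ => k (p + t • v)) (fderiv ℝ k (p + t • v) v) t :=
      e3.hasFDerivAt.comp_hasDerivAt t hl
    rw [← d1.deriv, ← d2.deriv]
    exact ht e1
  filter_upwards [hmem, hh.ae_differentiableAt, hk.ae_differentiableAt] with z hz hz1 hz2 hz3
  by_contra hne
  exact hz ⟨hz3, hz1, hz2, hne⟩

theorem clm_ext {L M : ℂ →L[ℝ] ℝ} (h1 : L 1 = M 1) (h2 : L Complex.I = M Complex.I) : L = M := by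
  ext z
  have : z = z.re • (1 : ℂ) + z.im • Complex.I := by
    simp
  rw [this, map_add, map_add, map_smul, map_smul, map_smul, map_smul, h1, h2]

/-- O1 in the plane -/
theorem ae_fderiv_eq_of_eqOn {h k : ℂ → ℝ} {K K' : ℝ≥0} (hh : LipschitzWith K h)
    (hk : LipschitzWith K' k) :
    ∀ᵐ z, h z = k z → fderiv ℝ h z = fderiv ℝ k z := by
  filter_upwards [ae_fderiv_apply_eq_of_eqOn hh hk 1, ae_fderiv_apply_eq_of_eqOn hh hk Complex.I]
    with z h1 h2 h3
  exact clm_ext (h1 h3) (h2 h3)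

end Crest.Agent.R112
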