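import Crest.Agent.R112.Basic
import Crest.Agent.R112.PlaneO1

/-! R112: the maximal function `Mz` of a nice function, basic facts; shift estimates. -/

set_option autoImplicit false

namespace Crest.Agent.R112

open MeasureTheory Set Filter Topology Metric
open scoped ENNReal NNReal

/-- centred maximal function of a nice function (the radius `0` gives `|f z|`) -/
noncomputable def Mz (f : ℂ → ℝ) (z : ℂ) : ℝ :=
  sSup ((fun r : ℝ => A (fun w => |f w|) r z) '' Set.Ici 0)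

/-- centred maximal function of an integrable function -/
noncomputable def Mc (F : ℂ → ℝ) (z : ℂ) : ℝ≥0∞ :=
  ⨆ (r : ℝ) (_ : 0 < r), ENNReal.ofReal (A (fun w => |F w|) r z)

theorem A_abs_nonneg (F : ℂ → ℝ) (r : ℝ) (z : ℂ) : 0 ≤ A (fun w => |F w|) r z :=
  A_nonneg (fun _ => abs_nonneg _) r z

theorem Mz_bdd {f : ℂ → ℝ} (hf : Nice f) (z : ℂ) :
    BddAbove ((fun r : ℝ => A (fun w => |f w|) r z) '' Set.Ici 0) := by
  obtain ⟨K, _, hK⟩ := hf.exists_bound
  refine ⟨K, ?_⟩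
  rintro _ ⟨r, _, rfl⟩
  have h := abs_A_le (g := fun w => |f w|) hf.continuous.abs (K := K)
    (fun x => by rw [abs_abs]; exact hK x) r z
  exact (abs_le.1 h).2

theorem A_abs_le_Mz {f : ℂ → ℝ} (hf : Nice f) {r : ℝ} (hr : 0 ≤ r) (z : ℂ) :
    A (fun w => |f w|) r z ≤ Mz f z :=
  le_csSup (Mz_bdd hf z) ⟨r, hr, rfl⟩

theorem abs_le_Mz {f : ℂ → ℝ} (hf : Nice f) (z : ℂ) : |f z| ≤ Mz f z := by
  have h := A_abs_le_Mz hf le_rfl z
  rwa [A_zero] at h

theorem Mz_nonneg {f : ℂ → ℝ} (hf : Nice f) (z : ℂ) : 0 ≤ Mz f z :=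
  (abs_nonneg _).trans (abs_le_Mz hf z)

theorem Mz_le {f : ℂ → ℝ} {z : ℂ} {K : ℝ} (h : ∀ r, 0 ≤ r → A (fun w => |f w|) r z ≤ K) :
    Mz f z ≤ K := by
  apply csSup_le ((Set.nonempty_Ici).image _)
  rintro _ ⟨r, hr, rfl⟩
  exact h r hr

theorem abs_abs_lip {f : ℂ → ℝ} {K : ℝ≥0} (hK : LipschitzWith K f) (x y : ℂ) :
    abs (|f x| - |f y|) ≤ K * ‖x - y‖ := by
  have h1 := abs_abs_sub_abs_le_abs_sub (f x) (f y)
  have h2 := hK.dist_le_mul x y
  rw [Real.dist_eq, dist_eq_norm] at h2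
  linarith

theorem A_abs_sub_le {f : ℂ → ℝ} (hf : Nice f) {K : ℝ≥0} (hK : LipschitzWith K f)
    (r r' : ℝ) (z z' : ℂ) :
    |A (fun w => |f w|) r z - A (fun w => |f w|) r' z'| ≤ K * (‖z - z'‖ + |r - r'|) := by
  have hc : Continuous f := hf.continuous
  have h1 : A (fun w => |f w|) r z - A (fun w => |f w|) r' z'
      = (1 / Real.pi) * ∫ ξ in ball (0 : ℂ) 1, (|f (z + r * ξ)| - |f (z' + r' * ξ)|) := by
    unfold A
    rw [integral_sub, mul_sub]
    · exact integrableOn_disc (F := fun ξ => |f (z + r * ξ)|) (by fun_prop)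
    · exact integrableOn_disc (F := fun ξ => |f (z' + r' * ξ)|) (by fun_prop)
  rw [h1, abs_mul, abs_of_pos (by positivity : (0:ℝ) < 1 / Real.pi)]
  have h2 : ‖∫ ξ in ball (0 : ℂ) 1, (|f (z + r * ξ)| - |f (z' + r' * ξ)|)‖
      ≤ (K * (‖z - z'‖ + |r - r'|)) * (volume : Measure ℂ).real (ball (0 : ℂ) 1) := by
    apply norm_setIntegral_le_of_norm_le_const
    · rw [volume_unitBall]; exact ENNReal.ofReal_lt_top
    · intro ξ hξ
      rw [Real.norm_eq_abs]
      refine (abs_abs_lip hK _ _).trans ?_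
      gcongr
      have : z + r * ξ - (z' + r' * ξ) = (z - z') + ((r - r' : ℝ) : ℂ) * ξ := by
        push_cast; ring
      rw [this]
      refine (norm_add_le _ _).trans ?_
      gcongr
      rw [norm_mul, Complex.norm_real, Real.norm_eq_abs]
      have h3 : ‖ξ‖ ≤ 1 := by
        rw [mem_ball, dist_zero_right] at hξ
        exact hξ.le
      exact mul_le_of_le_one_right (abs_nonneg _) h3
  rw [volume_real_unitBall, Real.norm_eq_abs] at h2
  have hpi := Real.pi_pos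
  calc 1 / Real.pi * |∫ ξ in ball (0 : ℂ) 1, (|f (z + r * ξ)| - |f (z' + r' * ξ)|)|
      ≤ 1 / Real.pi * ((K * (‖z - z'‖ + |r - r'|)) * Real.pi) := by gcongr
    _ = K * (‖z - z'‖ + |r - r'|) := by field_simp

theorem lipschitz_Mz {f : ℂ → ℝ} (hf : Nice f) {K : ℝ≥0} (hK : LipschitzWith K f) :
    LipschitzWith K (Mz f) := by
  have key : ∀ z z', Mz f z ≤ Mz f z' + K * ‖z - z'‖ := by
    intro z z'
    apply Mz_le
    intro r hr
    have h1 := (abs_le.1 (A_abs_sub_le hf hK r r z z')).2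
    have h2 := A_abs_le_Mz hf hr z'
    simp only [sub_self, abs_zero, add_zero] at h1
    linarith
  apply LipschitzWith.of_dist_le_mul
  intro z z'
  rw [Real.dist_eq, dist_eq_norm, abs_le]
  have h1 := key z z'
  have h2 := key z' z
  rw [norm_sub_rev] at h2
  constructor <;> linarith

theorem continuous_Mz {f : ℂ → ℝ} (hf : Nice f) : Continuous (Mz f) := by
  obtain ⟨K, hK⟩ := hf.lipschitz
  exact (lipschitz_Mz hf hK).continuous

theorem Nice.integrable {f : ℂ → ℝ} (hf : Nice f) : Integrable f :=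
  hf.continuous.integrable_of_hasCompactSupport hf.2

theorem Nice.sub {f g : ℂ → ℝ} (hf : Nice f) (hg : Nice g) : Nice (fun z => f z - g z) :=
  ⟨hf.1.sub hg.1, hf.2.sub hg.2⟩

/-- `L¹` bound of disc averages -/
theorem A_abs_int_le {F : ℂ → ℝ} (hF : Integrable F) {r : ℝ} (hr : 0 < r) (z : ℂ) :
    A (fun w => |F w|) r z ≤ (1 / (Real.pi * r ^ 2)) * ∫ w, |F w| := by
  rw [A_eq hr]
  apply mul_le_mul_of_nonneg_left _ (by positivity)
  exact setIntegral_le_integral hF.abs (Eventually.of_forall fun _ => abs_nonneg _)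

theorem A_abs_diff {F G : ℂ → ℝ} (hF : Integrable F) (hG : Integrable G) {r : ℝ} (hr : 0 < r)
    (z : ℂ) : |A (fun w => |F w|) r z - A (fun w => |G w|) r z| ≤
      A (fun w => |F w - G w|) r z := by
  rw [A_eq hr, A_eq hr, A_eq hr, ← mul_sub, abs_mul, abs_of_pos (by positivity)]
  gcongr
  rw [← integral_sub hF.abs.integrableOn hG.abs.integrableOn]
  refine (abs_integral_le_integral_abs).trans ?_
  apply integral_mono
  · exact (hF.abs.sub hG.abs).abs.integrableOn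
  · exact (hF.sub hG).abs.integrableOn
  · intro w
    exact abs_abs_sub_abs_le_abs_sub (F w) (G w)

/-- the maximal function tends to zero along horizontal lines -/
theorem Mz_tendsto {f : ℂ → ℝ} (hf : Nice f) (y : ℝ) :
    Tendsto (fun s : ℝ => Mz f ⟨s, y⟩) atTop (𝓝 0) := by
  obtain ⟨R, hR0, hR⟩ : ∃ R : ℝ, 0 < R ∧ ∀ x, R ≤ ‖x‖ → f x = 0 := by
    obtain ⟨R, hR⟩ := hf.2.isCompact.isBounded.subset_ball 0
    refine ⟨max R 1, by positivity, fun x hx => ?_⟩
    by_contra h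
    have h2 := hR (subset_tsupport f h)
    rw [mem_ball, dist_zero_right] at h2
    linarith [le_max_left R 1]
  set I := ∫ w, |f w| with hI
  have hI0 : 0 ≤ I := integral_nonneg fun _ => abs_nonneg _
  have hbound : ∀ s : ℝ, R < s → Mz f ⟨s, y⟩ ≤ (1 / Real.pi) * I * ((s - R) ^ 2)⁻¹ := by
    intro s hs
    have hpi := Real.pi_pos
    have hsR : 0 < s - R := by linarith
    apply Mz_le
    intro r hr
    rcases le_or_gt r (s - R) with h | h
    · have hz : A (fun w => |f w|) r ⟨s, y⟩ = 0 := by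
        unfold A
        rw [setIntegral_congr_fun (g := fun _ => (0:ℝ)) measurableSet_ball]
        · simp
        · intro ξ hξ
          simp only
          rw [hR, abs_zero]
          rw [mem_ball, dist_zero_right] at hξ
          have h1 : s ≤ ‖(⟨s, y⟩ : ℂ)‖ := by
            have := Complex.abs_re_le_norm (⟨s, y⟩ : ℂ)
            simp only at this
            exact (le_abs_self s).trans this
          have h2 : ‖(r : ℂ) * ξ‖ ≤ r := by
            rw [norm_mul, Complex.norm_real, Real.norm_eq_abs, abs_of_nonneg hr]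
            exact mul_le_of_le_one_right hr hξ.le
          have h3 := norm_sub_le ((⟨s, y⟩ : ℂ) + (r : ℂ) * ξ) ((r : ℂ) * ξ)
          rw [add_sub_cancel_right] at h3
          linarith
      rw [hz]
      positivity
    · have hr0 : 0 < r := by linarith
      refine (A_abs_int_le hf.integrable hr0 _).trans ?_
      rw [← hI]
      have h4 : (s - R) ^ 2 ≤ r ^ 2 := by
        apply pow_le_pow_left₀ hsR.le h.le
      have h5 : (r ^ 2)⁻¹ ≤ ((s - R) ^ 2)⁻¹ := inv_anti₀ (by positivity) h4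
      calc 1 / (Real.pi * r ^ 2) * I = (1 / Real.pi) * I * (r ^ 2)⁻¹ := by field_simp
        _ ≤ _ := by gcongr
  have hlim : Tendsto (fun s : ℝ => (1 / Real.pi) * I * ((s - R) ^ 2)⁻¹) atTop (𝓝 0) := by
    have h1 : Tendsto (fun s : ℝ => (s - R) ^ 2) atTop atTop := by
      apply (tendsto_pow_atTop (two_ne_zero)).comp
      exact tendsto_atTop_add_const_right _ _ tendsto_id
    have h2 := (tendsto_inv_atTop_zero.comp h1).const_mul ((1 / Real.pi) * I)
    rw [mul_zero] at h2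
    exact h2
  apply squeeze_zero' (Eventually.of_forall fun s => Mz_nonneg hf _) _ hlim
  filter_upwards [eventually_gt_atTop R] with s hs
  exact hbound s hs

/-- sup along a line is at most the variation -/
theorem Mz_le_eVar {f : ℂ → ℝ} (hf : Nice f) (y s : ℝ) :
    ENNReal.ofReal (Mz f ⟨s, y⟩) ≤ eVariationOn (fun s : ℝ => Mz f ⟨s, y⟩) univ := by
  have h1 : ∀ t : ℝ, edist (Mz f ⟨s, y⟩) (Mz f ⟨t, y⟩)
      ≤ eVariationOn (fun s : ℝ => Mz f ⟨s, y⟩) univ := by
    intro t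
    exact eVariationOn.edist_le (fun s : ℝ => Mz f ⟨s, y⟩) (mem_univ s) (mem_univ t)
  have h2 : Tendsto (fun t : ℝ => edist (Mz f ⟨s, y⟩) (Mz f ⟨t, y⟩)) atTop
      (𝓝 (edist (Mz f ⟨s, y⟩) 0)) :=
    tendsto_const_nhds.edist (Mz_tendsto hf y)
  have h3 := le_of_tendsto' h2 h1
  rw [edist_zero_right, Real.enorm_eq_ofReal (Mz_nonneg hf _)] at h3
  exact h3

/-- shift estimate for a nice function -/
theorem A_abs_shift {φ : ℂ → ℝ} (hφ : Nice φ) {r : ℝ} (hr : 0 < r) (z z' : ℂ) :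
    |A (fun w => |φ w|) r z - A (fun w => |φ w|) r z'| ≤
      ‖z - z'‖ * ((1 / (Real.pi * r ^ 2)) * ∫ w, ‖fderiv ℝ φ w‖) := by
  have hpi := Real.pi_pos
  have hc := hφ.continuous
  have hdc := hφ.continuous_fderiv
  set J := ∫ w, ‖fderiv ℝ φ w‖ with hJ
  have hJ0 : 0 ≤ J := integral_nonneg fun _ => norm_nonneg _
  have hJl : ∫⁻ w, ‖fderiv ℝ φ w‖ₑ = ENNReal.ofReal J := by
    rw [hJ, ← ofReal_integral_norm_eq_lintegral_enorm hφ.integrable_fderiv]
  -- pointwise bound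
  have hpt : ∀ ξ : ℂ, ‖φ (z + r * ξ) - φ (z' + r * ξ)‖ₑ ≤
      ∫⁻ t in Icc (0:ℝ) 1, ‖z - z'‖ₑ * ‖fderiv ℝ φ (z' + t * (z - z') + r * ξ)‖ₑ := by
    intro ξ
    have hder : ∀ t : ℝ, HasDerivAt (fun t : ℝ => φ (z' + t * (z - z') + r * ξ))
        (fderiv ℝ φ (z' + t * (z - z') + r * ξ) (z - z')) t := by
      intro t
      have h1 : HasDerivAt (fun t : ℝ => z' + (t : ℂ) * (z - z') + r * ξ) (z - z') t := by
        have h0 : HasDerivAt (fun t : ℝ => (t : ℂ)) 1 t := Complex.ofRealCLM.hasDerivAt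
        have := ((h0.mul_const (z - z')).const_add z').add_const (r * ξ)
        simpa using this
      exact ((hφ.differentiable _).hasFDerivAt).comp_hasDerivAt t h1
    have hcont : Continuous (fun t : ℝ => fderiv ℝ φ (z' + t * (z - z') + r * ξ) (z - z')) := by
      fun_prop
    have h2 : φ (z + r * ξ) - φ (z' + r * ξ)
        = ∫ t in (0:ℝ)..1, fderiv ℝ φ (z' + t * (z - z') + r * ξ) (z - z') := by
      rw [intervalIntegral.integral_eq_sub_of_hasDerivAt (fun t _ => hder t)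
        (hcont.intervalIntegrable _ _)]
      simp
    rw [h2, intervalIntegral.integral_of_le zero_le_one]
    refine (enorm_integral_le_lintegral_enorm _).trans ?_
    rw [restrict_Ioc_eq_restrict_Icc]
    apply lintegral_mono
    intro t
    show ‖(fderiv ℝ φ (z' + t * (z - z') + r * ξ)) (z - z')‖ₑ ≤
      ‖z - z'‖ₑ * ‖fderiv ℝ φ (z' + t * (z - z') + r * ξ)‖ₑ
    have h3 := (fderiv ℝ φ (z' + t * (z - z') + r * ξ)).le_opNorm (z - z')
    rw [← ofReal_norm, ← ofReal_norm, ← ofReal_norm, ← ENNReal.ofReal_mul (norm_nonneg _)]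
    apply ENNReal.ofReal_le_ofReal
    linarith
  have hball : ∀ t : ℝ, ∫⁻ ξ in ball (0:ℂ) 1, ‖fderiv ℝ φ (z' + t * (z - z') + r * ξ)‖ₑ
      ≤ ENNReal.ofReal ((r ^ 2)⁻¹ * J) := by
    intro t
    have hrc : (r : ℂ) ≠ 0 := by exact_mod_cast hr.ne'
    have h1 := lint_aff (z' + t * (z - z')) hrc (fun w => ‖fderiv ℝ φ w‖ₑ)
    rw [hJl, Complex.norm_real, Real.norm_eq_abs, sq_abs] at h1
    have h2 : ∫⁻ ξ, ‖fderiv ℝ φ (z' + t * (z - z') + r * ξ)‖ₑ = ENNReal.ofReal ((r ^ 2)⁻¹ * J) := by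
      have hne : ENNReal.ofReal (r ^ 2) ≠ 0 := by
        rw [Ne, ENNReal.ofReal_eq_zero, not_le]; positivity
      rw [ENNReal.ofReal_mul (by positivity), ENNReal.ofReal_inv_of_pos (by positivity), ← h1,
        ← mul_assoc, ENNReal.inv_mul_cancel hne ENNReal.ofReal_ne_top, one_mul]
    rw [← h2]
    exact setLIntegral_le_lintegral _ _
  have hmain : ∫⁻ ξ in ball (0:ℂ) 1, ‖φ (z + r * ξ) - φ (z' + r * ξ)‖ₑ
      ≤ ENNReal.ofReal (‖z - z'‖ * ((r ^ 2)⁻¹ * J)) := by
    calc ∫⁻ ξ in ball (0:ℂ) 1, ‖φ (z + r * ξ) - φ (z' + r * ξ)‖ₑ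
        ≤ ∫⁻ ξ in ball (0:ℂ) 1, ∫⁻ t in Icc (0:ℝ) 1,
            ‖z - z'‖ₑ * ‖fderiv ℝ φ (z' + t * (z - z') + r * ξ)‖ₑ := lintegral_mono hpt
      _ = ∫⁻ t in Icc (0:ℝ) 1, ∫⁻ ξ in ball (0:ℂ) 1,
            ‖z - z'‖ₑ * ‖fderiv ℝ φ (z' + t * (z - z') + r * ξ)‖ₑ := by
          apply lintegral_lintegral_swap
          apply Measurable.aemeasurable
          apply Measurable.const_mul
          apply Continuous.measurable
          have : Continuous (fun p : ℂ × ℝ => fderiv ℝ φ (z' + p.2 * (z - z') + r * p.1)) := by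
            fun_prop
          exact this.enorm
      _ ≤ ∫⁻ t in Icc (0:ℝ) 1, ENNReal.ofReal (‖z - z'‖ * ((r ^ 2)⁻¹ * J)) := by
          apply lintegral_mono
          intro t
          simp only
          rw [lintegral_const_mul' _ _ enorm_ne_top, ENNReal.ofReal_mul (norm_nonneg _), ofReal_norm]
          gcongr
          exact hball t
      _ = ENNReal.ofReal (‖z - z'‖ * ((r ^ 2)⁻¹ * J)) := by simp
  have h1 : A (fun w => |φ w|) r z - A (fun w => |φ w|) r z'
      = (1 / Real.pi) * ∫ ξ in ball (0 : ℂ) 1, (|φ (z + r * ξ)| - |φ (z' + r * ξ)|) := by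
    unfold A
    rw [integral_sub, mul_sub]
    · exact integrableOn_disc (F := fun ξ => |φ (z + r * ξ)|) (by fun_prop)
    · exact integrableOn_disc (F := fun ξ => |φ (z' + r * ξ)|) (by fun_prop)
  rw [h1, abs_mul, abs_of_pos (by positivity : (0:ℝ) < 1 / Real.pi)]
  have h2 : |∫ ξ in ball (0 : ℂ) 1, (|φ (z + r * ξ)| - |φ (z' + r * ξ)|)|
      ≤ ‖z - z'‖ * ((r ^ 2)⁻¹ * J) := by
    rw [← Real.norm_eq_abs, ← ENNReal.ofReal_le_ofReal_iff (by positivity), ofReal_norm]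
    refine le_trans (enorm_integral_le_lintegral_enorm _) (le_trans ?_ hmain)
    apply lintegral_mono
    intro ξ
    show ‖|φ (z + r * ξ)| - |φ (z' + r * ξ)|‖ₑ ≤ ‖φ (z + r * ξ) - φ (z' + r * ξ)‖ₑ
    rw [← ofReal_norm, ← ofReal_norm]
    apply ENNReal.ofReal_le_ofReal
    rw [Real.norm_eq_abs, Real.norm_eq_abs]
    exact abs_abs_sub_abs_le_abs_sub _ _
  calc 1 / Real.pi * |∫ ξ in ball (0 : ℂ) 1, (|φ (z + r * ξ)| - |φ (z' + r * ξ)|)|
      ≤ 1 / Real.pi * (‖z - z'‖ * ((r ^ 2)⁻¹ * J)) := by gcongr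
    _ = ‖z - z'‖ * ((1 / (Real.pi * r ^ 2)) * J) := by field_simp

end Crest.Agent.R112
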