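import Crest.Agent.R112.WeakB
import Crest.Prelude.Def_MaximalSobolev

/-!
# R112 (S0147), module Weak: weak gradient of a function on the Euclidean plane which is absolutely
continuous on almost every line parallel to the axes, with integrable line variation.
-/

set_option autoImplicit false

namespace Crest.Agent.R112

open MeasureTheory Set Filter Topology
open scoped ENNReal NNReal RealInnerProductSpace ContDiff

/-- the Euclidean plane -/
abbrev E2 := EuclideanSpace ℝ (Fin 2)

/-- `(y, s) ↦ !₂[y, s]`, as a continuous linear equivalence -/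
noncomputable def iota1 : (ℝ × ℝ) ≃L[ℝ] E2 :=
  (ContinuousLinearEquiv.finTwoArrow ℝ ℝ).symm.trans (PiLp.continuousLinearEquiv 2 ℝ (fun _ : Fin 2 => ℝ)).symm

/-- `(y, s) ↦ !₂[s, y]`, as a continuous linear equivalence -/
noncomputable def iota0 : (ℝ × ℝ) ≃L[ℝ] E2 :=
  (ContinuousLinearEquiv.prodComm ℝ ℝ ℝ).trans iota1

theorem iota1_apply (p : ℝ × ℝ) : iota1 p = !₂[p.1, p.2] := rfl

theorem iota0_apply (p : ℝ × ℝ) : iota0 p = !₂[p.2, p.1] := rfl

theorem iota1_mp : MeasurePreserving iota1 (volume : Measure (ℝ × ℝ)) volume := by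
  have h1 := (volume_preserving_finTwoArrow ℝ).symm
  have h2 := PiLp.volume_preserving_toLp (Fin 2)
  exact h2.comp h1

theorem iota0_mp : MeasurePreserving iota0 (volume : Measure (ℝ × ℝ)) volume := by
  have h : MeasurePreserving (Prod.swap : ℝ × ℝ → ℝ × ℝ) (volume : Measure (ℝ × ℝ)) volume := by
    have := Measure.measurePreserving_swap (μ := (volume : Measure ℝ)) (ν := (volume : Measure ℝ))
    exact this
  exact iota1_mp.comp h

/-- one direction -/
theorem weak_dir (L : (ℝ × ℝ) ≃L[ℝ] E2) (hL : MeasurePreserving L (volume : Measure (ℝ × ℝ)) volume)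
    (u : E2 → ℝ) (hu : Measurable u) (K : ℝ)
    (hl : ∀ᵐ y : ℝ, GoodLine fun s => u (L (y, s)))
    (hvar : ∫⁻ y, eVariationOn (fun s => u (L (y, s))) univ ≤ ENNReal.ofReal K) :
    LocallyIntegrable u ∧ ∃ D : E2 → ℝ, Measurable D ∧ ∫⁻ x, ENNReal.ofReal |D x| ≤ ENNReal.ofReal K ∧
      ∀ φ : E2 → ℝ, ContDiff ℝ ∞ φ → HasCompactSupport φ →
        ∫ x, u x * fderiv ℝ φ x (L (0, 1)) = -∫ x, D x * φ x := by
  set W : ℝ × ℝ → ℝ := fun p => u (L p) with hW
  have hWm : Measurable W := hu.comp L.continuous.measurable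
  have hvar' : ∫⁻ y, eVariationOn (fun s => W (y, s)) univ ≠ ⊤ := ne_top_of_le_ne_top
    ENNReal.ofReal_ne_top hvar
  have hemb : MeasurableEmbedding L := L.toHomeomorph.measurableEmbedding
  obtain ⟨D, hD, hDd⟩ := exists_line_deriv W hWm hl
  constructor
  · rw [locallyIntegrable_iff]
    intro k hk
    have hk' : IsCompact (L ⁻¹' k) := L.toHomeomorph.isCompact_preimage.mpr hk
    have := integrableOn_of_isCompact W hWm hl hvar' _ hk'
    exact (hL.integrableOn_comp_preimage hemb).mp this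
  refine ⟨fun x => D (L.symm x), hD.comp L.symm.continuous.measurable, ?_, ?_⟩
  · rw [← hL.lintegral_comp_emb hemb]
    simp only [ContinuousLinearEquiv.symm_apply_apply]
    exact (lintegral_line_deriv_le W D hD hDd).trans hvar
  · intro φ hφ hφc
    have e1 : ∫ x, u x * fderiv ℝ φ x (L (0, 1)) =
        ∫ p, W p * fderiv ℝ φ (L p) (L (0, 1)) :=
      (hL.integral_comp hemb (fun x => u x * fderiv ℝ φ x (L (0, 1)))).symm
    have e2 : ∫ x, D (L.symm x) * φ x = ∫ p, D p * φ (L p) := by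
      rw [← hL.integral_comp hemb (fun x => D (L.symm x) * φ x)]
      simp only [ContinuousLinearEquiv.symm_apply_apply]
    rw [e1, e2]
    have hc1 : Continuous φ := hφ.continuous
    have hc2 : Continuous (fun x => fderiv ℝ φ x (L (0, 1))) :=
      (hφ.continuous_fderiv (by simp)).clm_apply continuous_const
    have hcs2 : HasCompactSupport (fun x => fderiv ℝ φ x (L (0, 1))) := hφc.fderiv_apply (𝕜 := ℝ) _
    apply integral_mul_deriv_snd W D hWm hD hl hvar' hDd (fun p => φ (L p))
      (fun p => fderiv ℝ φ (L p) (L (0, 1))) (hc1.comp L.continuous)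
      (hφc.comp_homeomorph L.toHomeomorph) (hc2.comp L.continuous)
      (hcs2.comp_homeomorph L.toHomeomorph)
    intro y s
    have h1 : HasDerivAt (fun s : ℝ => L (y, s)) (L (0, 1)) s := by
      have h2 : HasDerivAt (fun s : ℝ => ((y, s) : ℝ × ℝ)) ((0, 1) : ℝ × ℝ) s :=
        (hasDerivAt_const s y).prodMk (hasDerivAt_id s)
      exact (L : (ℝ × ℝ) →L[ℝ] E2).hasFDerivAt.comp_hasDerivAt s h2
    have h3 : HasFDerivAt φ (fderiv ℝ φ (L (y, s))) (L (y, s)) :=
      (hφ.differentiable (by simp) _).hasFDerivAt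
    exact h3.comp_hasDerivAt s h1

theorem weak_of_lines (u : E2 → ℝ) (hu : Measurable u) (K : ℝ) (hK : 0 ≤ K)
    (hl0 : ∀ᵐ y : ℝ, GoodLine fun s => u !₂[s, y])
    (hl1 : ∀ᵐ y : ℝ, GoodLine fun s => u !₂[y, s])
    (hv0 : ∫⁻ y, eVariationOn (fun s => u !₂[s, y]) univ ≤ ENNReal.ofReal K)
    (hv1 : ∫⁻ y, eVariationOn (fun s => u !₂[y, s]) univ ≤ ENNReal.ofReal K) :
    LocallyIntegrable u ∧ ∃ G : E2 → E2, Crest.AnalysisR.IsWeakGradient u G ∧ Integrable G ∧
      ∫ x, ‖G x‖ ≤ 2 * K := by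
  obtain ⟨hloc, D0, hD0, hD0i, h0⟩ := weak_dir iota0 iota0_mp u hu K hl0 hv0
  obtain ⟨-, D1, hD1, hD1i, h1⟩ := weak_dir iota1 iota1_mp u hu K hl1 hv1
  refine ⟨hloc, fun x => !₂[D0 x, D1 x], ?_⟩
  have hint : ∀ D : E2 → ℝ, Measurable D → ∫⁻ x, ENNReal.ofReal |D x| ≤ ENNReal.ofReal K →
      Integrable D ∧ ∫ x, |D x| ≤ K := by
    intro D hD hDi
    constructor
    · refine ⟨hD.aestronglyMeasurable, ?_⟩
      rw [hasFiniteIntegral_iff_norm]
      exact lt_of_le_of_lt hDi ENNReal.ofReal_lt_top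
    · rw [integral_eq_lintegral_of_nonneg_ae (Eventually.of_forall fun _ => abs_nonneg _)
        hD.abs.aestronglyMeasurable]
      exact ENNReal.toReal_le_of_le_ofReal hK hDi
  obtain ⟨i0, j0⟩ := hint D0 hD0 hD0i
  obtain ⟨i1, j1⟩ := hint D1 hD1 hD1i
  have hnorm : ∀ x, ‖(!₂[D0 x, D1 x] : E2)‖ ≤ |D0 x| + |D1 x| := by
    intro x
    rw [EuclideanSpace.norm_eq]
    simp only [Fin.sum_univ_two, Real.norm_eq_abs]
    apply Real.sqrt_le_iff.mpr
    constructor
    · positivity
    · simp only [Matrix.cons_val_zero, Matrix.cons_val_one, Matrix.cons_val_fin_one]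
      nlinarith [abs_nonneg (D0 x), abs_nonneg (D1 x), mul_nonneg (abs_nonneg (D0 x)) (abs_nonneg (D1 x))]
  have hGm : Measurable (fun x => (!₂[D0 x, D1 x] : E2)) := by
    have : Measurable (fun x => iota1 (D0 x, D1 x)) :=
      iota1.continuous.measurable.comp (hD0.prodMk hD1)
    exact this
  have hGi : Integrable (fun x => (!₂[D0 x, D1 x] : E2)) := by
    refine (i0.abs.add i1.abs).mono' hGm.aestronglyMeasurable ?_
    exact Eventually.of_forall fun x => hnorm x
  refine ⟨⟨hloc, hGi.locallyIntegrable, ?_⟩, hGi, ?_⟩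
  · intro φ hφ hφc v
    have hc1 : Continuous φ := hφ.continuous
    have a0 := h0 φ hφ hφc
    have a1 := h1 φ hφ hφc
    have hv : v = v 0 • iota0 (0, 1) + v 1 • iota1 (0, 1) := by
      rw [iota0_apply, iota1_apply]
      ext i
      fin_cases i <;> simp
    have hfd : ∀ w : E2, Integrable (fun x => u x * fderiv ℝ φ x w) := by
      intro w
      have hc2 : Continuous (fun x => fderiv ℝ φ x w) :=
        (hφ.continuous_fderiv (by simp)).clm_apply continuous_const
      have hcs2 : HasCompactSupport (fun x => fderiv ℝ φ x w) := hφc.fderiv_apply (𝕜 := ℝ) _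
      have := hloc.integrable_smul_right_of_hasCompactSupport hc2 hcs2
      simpa [smul_eq_mul] using this
    have hDi : ∀ D : E2 → ℝ, Integrable D → Integrable (fun x => D x * φ x) := by
      intro D hD
      have := hD.locallyIntegrable.integrable_smul_right_of_hasCompactSupport hc1 hφc
      simpa [smul_eq_mul] using this
    have e1 : ∀ x, u x * fderiv ℝ φ x v = v 0 * (u x * fderiv ℝ φ x (iota0 (0, 1))) +
        v 1 * (u x * fderiv ℝ φ x (iota1 (0, 1))) := by
      intro x
      conv_lhs => rw [hv]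
      rw [map_add, map_smul, map_smul, smul_eq_mul, smul_eq_mul]
      ring
    have e2 : ∀ x, ⟪(!₂[D0 x, D1 x] : E2), v⟫ * φ x = v 0 * (D0 x * φ x) + v 1 * (D1 x * φ x) := by
      intro x
      rw [PiLp.inner_apply]
      simp only [Fin.sum_univ_two]
      simp
      ring
    simp_rw [e1, e2]
    rw [integral_add ((hfd _).const_mul _) ((hfd _).const_mul _), integral_const_mul,
      integral_const_mul, a0, a1, integral_add ((hDi _ i0).const_mul _) ((hDi _ i1).const_mul _),
      integral_const_mul, integral_const_mul]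
    ring
  · calc ∫ x, ‖(!₂[D0 x, D1 x] : E2)‖ ≤ ∫ x, (|D0 x| + |D1 x|) :=
        integral_mono hGi.norm (i0.abs.add i1.abs) hnorm
      _ = (∫ x, |D0 x|) + ∫ x, |D1 x| := integral_add i0.abs i1.abs
      _ ≤ 2 * K := by linarith

end Crest.Agent.R112
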