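import Crest.Agent.R112.Cmf
import Crest.Agent.R112.Lines0
import Crest.Agent.R112.Weak

/-!
# R112 (S0147), module Final: the weak gradient of the maximal function of a `W^{1,1}` function,
from the statement about horizontal lines in `ℂ`.
-/

set_option autoImplicit false

namespace Crest.Agent.R112

open MeasureTheory Set Metric Filter Topology
open scoped ENNReal NNReal RealInnerProductSpace

open Crest.AnalysisR (centredMaximalFunction IsWeakGradient)

/-- what is proved on horizontal lines -/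
def LinesProp (C : ℝ≥0) : Prop := ∀ (F : ℂ → ℝ) (G : ℂ → (ℂ →L[ℝ] ℝ)), Integrable F → Integrable G →
  (∀ ε > 0, ∃ φ : ℂ → ℝ, Nice φ ∧ ∫ z, |φ z - F z| ≤ ε ∧ ∫ z, ‖fderiv ℝ φ z - G z‖ ≤ ε) →
  (∀ᵐ y : ℝ, (∀ s : ℝ, Mc F ⟨s, y⟩ < ⊤) ∧ GoodLine (fun s : ℝ => (Mc F ⟨s, y⟩).toReal)) ∧
  ∫⁻ y : ℝ, eVariationOn (fun s : ℝ => (Mc F ⟨s, y⟩).toReal) univ ≤ C * ∫⁻ z, ‖G z‖ₑ

theorem Mc_eq_Me {F : ℂ → ℝ} (hF : LocallyIntegrable F) (z : ℂ) : Mc F z = Me F z := by
  unfold Mc Me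
  congr 1
  ext r
  congr 1
  ext hr
  exact (avg_eq_ofReal F hF hr z).symm

theorem cmf_iso' (κ : ℂ ≃ₗᵢ[ℝ] Density.E2) (f : Density.E2 → ℝ) (z : ℂ) :
    centredMaximalFunction f (κ z) = Me (fun w => f (κ w)) z := by
  have hmp : MeasurePreserving (κ : ℂ → Density.E2) := κ.measurePreserving
  have hme : MeasurableEmbedding (κ : ℂ → Density.E2) := κ.toHomeomorph.measurableEmbedding
  unfold centredMaximalFunction Me avg
  congr 1
  ext r
  congr 1
  ext hr
  have h1 : ball z r = (κ : ℂ → Density.E2) ⁻¹' ball (κ z) r := by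
    ext w
    simp [mem_ball]
  rw [h1, hmp.setLIntegral_comp_preimage_emb hme (fun w => ‖f w‖ₑ), hmp.measure_preimage_emb hme]

/-- the lines theorem for an arbitrary isometry `κ : ℂ ≃ E2` -/
theorem lines_iso {C : ℝ≥0} (hC : LinesProp C) (κ : ℂ ≃ₗᵢ[ℝ] Density.E2) {f : Density.E2 → ℝ}
    {g : Density.E2 → Density.E2} (hf : Integrable f) (hw : IsWeakGradient f g)
    (hg : Integrable g) :
    (∀ᵐ y : ℝ, (∀ s : ℝ, centredMaximalFunction f (κ ⟨s, y⟩) < ⊤) ∧
      GoodLine (fun s : ℝ => (centredMaximalFunction f (κ ⟨s, y⟩)).toReal)) ∧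
    ∫⁻ y : ℝ, eVariationOn (fun s : ℝ => (centredMaximalFunction f (κ ⟨s, y⟩)).toReal) univ ≤
      C * ∫⁻ x, ‖g x‖ₑ := by
  have hmp : MeasurePreserving (κ : ℂ → Density.E2) := κ.measurePreserving
  have hme : MeasurableEmbedding (κ : ℂ → Density.E2) := κ.toHomeomorph.measurableEmbedding
  set F : ℂ → ℝ := fun z => f (κ z) with hFdef
  set G : ℂ → (ℂ →L[ℝ] ℝ) := fun z => (innerSL ℝ (g (κ z))).comp (κ : ℂ →L[ℝ] Density.E2) with hGdef
  have hnorm : ∀ L : Density.E2 →L[ℝ] ℝ, ‖L.comp (κ : ℂ →L[ℝ] Density.E2)‖ = ‖L‖ := fun L =>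
    ContinuousLinearMap.opNorm_comp_linearIsometryEquiv _ _
  have hF : Integrable F := (hmp.integrable_comp_emb hme).mpr hf
  have hG : Integrable G := by
    have h1 : Integrable (fun z => g (κ z)) := (hmp.integrable_comp_emb hme).mpr hg
    have h2 : Integrable (fun z => innerSL ℝ (g (κ z))) :=
      (innerSL ℝ : Density.E2 →L[ℝ] _).integrable_comp h1
    exact (((ContinuousLinearMap.compL ℝ ℂ Density.E2 ℝ).flip
      (κ : ℂ →L[ℝ] Density.E2)).integrable_comp h2)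
  have happ : ∀ ε > 0, ∃ φ : ℂ → ℝ, Nice φ ∧ ∫ z, |φ z - F z| ≤ ε ∧
      ∫ z, ‖fderiv ℝ φ z - G z‖ ≤ ε := by
    intro ε hε
    obtain ⟨φ, hφs, hφc, h1, h2⟩ := Density.exists_nice_E2 hf hw hg hε
    refine ⟨fun z => φ (κ z), ⟨(hφs.of_le (by simp)).comp
      κ.toContinuousLinearEquiv.contDiff, hφc.comp_homeomorph κ.toHomeomorph⟩, ?_, ?_⟩
    · have := hmp.integral_comp hme (fun x => |φ x - f x|)
      rw [hFdef, this]
      exact h1
    · refine le_trans (le_of_eq ?_) h2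
      rw [← hmp.integral_comp hme (fun x => ‖fderiv ℝ φ x - innerSL ℝ (g x)‖)]
      refine integral_congr_ae (Eventually.of_forall fun z => ?_)
      have hd : fderiv ℝ (fun z => φ (κ z)) z =
          (fderiv ℝ φ (κ z)).comp (κ : ℂ →L[ℝ] Density.E2) :=
        (((hφs.differentiable (by simp) (κ z)).hasFDerivAt).comp z
          (κ.toContinuousLinearEquiv : ℂ →L[ℝ] Density.E2).hasFDerivAt).fderiv
      simp only [hd, hGdef, ← ContinuousLinearMap.sub_comp]
      exact hnorm _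
  obtain ⟨h1, h2⟩ := hC F G hF hG happ
  have hcmf : ∀ z, centredMaximalFunction f (κ z) = Mc F z := fun z => by
    rw [cmf_iso', Mc_eq_Me hF.locallyIntegrable]
  have hGn : ∫⁻ z, ‖G z‖ₑ = ∫⁻ x, ‖g x‖ₑ := by
    rw [← hmp.lintegral_comp_emb hme (fun x => ‖g x‖ₑ)]
    apply lintegral_congr
    intro z
    rw [← ofReal_norm, ← ofReal_norm, hGdef]
    simp only
    rw [hnorm, innerSL_apply_norm]
  simp_rw [hcmf]
  rw [← hGn]
  exact ⟨h1, h2⟩

/-- the isometry `⟨s, y⟩ ↦ !₂[s, y]` -/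
theorem iso_apply (s y : ℝ) : Density.iso (⟨s, y⟩ : ℂ) = !₂[s, y] := by
  ext i
  fin_cases i <;> simp

/-- the reflection `⟨s, y⟩ ↦ ⟨y, s⟩` -/
noncomputable def swapC : ℂ ≃ₗᵢ[ℝ] ℂ :=
  Complex.conjLIE.trans (rotation ⟨Complex.I, by simp [Submonoid.unitSphere]⟩)

theorem swapC_apply (s y : ℝ) : swapC (⟨s, y⟩ : ℂ) = ⟨y, s⟩ := by
  have h : swapC (⟨s, y⟩ : ℂ) = Complex.I * (starRingEnd ℂ) ⟨s, y⟩ := rfl
  rw [h]
  apply Complex.ext <;> simp

/-- the isometry `⟨s, y⟩ ↦ !₂[y, s]` -/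
noncomputable def iso1 : ℂ ≃ₗᵢ[ℝ] Density.E2 := swapC.trans Density.iso

theorem iso1_apply (s y : ℝ) : iso1 (⟨s, y⟩ : ℂ) = !₂[y, s] := by
  unfold iso1
  rw [LinearIsometryEquiv.trans_apply, swapC_apply, iso_apply]

theorem final {C : ℝ≥0} (hC : LinesProp C) {f : Density.E2 → ℝ}
    {g : Density.E2 → Density.E2} (hf : Integrable f) (hw : IsWeakGradient f g)
    (hg : Integrable g) :
    (∀ᵐ x, centredMaximalFunction f x < ⊤) ∧
    LocallyIntegrable (fun x => (centredMaximalFunction f x).toReal) ∧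
    ∃ G : Density.E2 → Density.E2,
      IsWeakGradient (fun x => (centredMaximalFunction f x).toReal) G ∧
      Integrable G ∧ ∫ x, ‖G x‖ ≤ (2 * C : ℝ) * ∫ x, ‖g x‖ := by
  have hm := measurable_cmf f
  obtain ⟨a1, a2⟩ := lines_iso hC Density.iso hf hw hg
  obtain ⟨b1, b2⟩ := lines_iso hC iso1 hf hw hg
  simp_rw [iso_apply] at a1 a2
  simp_rw [iso1_apply] at b1 b2
  have hK : (C : ℝ≥0∞) * ∫⁻ x, ‖g x‖ₑ = ENNReal.ofReal (C * ∫ x, ‖g x‖) := by
    rw [ENNReal.ofReal_mul C.coe_nonneg, ENNReal.ofReal_coe_nnreal,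
      ofReal_integral_norm_eq_lintegral_enorm hg]
  rw [hK] at a2 b2
  have hfin : ∀ᵐ x, centredMaximalFunction f x < ⊤ := by
    have hms : MeasurableSet {x | centredMaximalFunction f x < ⊤} := measurableSet_lt hm measurable_const
    rw [← iota0_mp.map_eq, ae_map_iff iota0.continuous.measurable.aemeasurable hms]
    have hms' : MeasurableSet {p : ℝ × ℝ | centredMaximalFunction f (iota0 p) < ⊤} :=
      iota0.continuous.measurable hms
    rw [Measure.volume_eq_prod, Measure.ae_prod_iff_ae_ae hms']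
    filter_upwards [a1] with y hy
    exact Eventually.of_forall fun s => hy.1 s
  have hmain := weak_of_lines (fun x => (centredMaximalFunction f x).toReal) hm.ennreal_toReal
    (C * ∫ x, ‖g x‖) (mul_nonneg C.coe_nonneg (integral_nonneg fun _ => norm_nonneg _))
    (a1.mono fun y hy => hy.2) (b1.mono fun y hy => hy.2) a2 b2
  obtain ⟨h1, G, h2, h3, h4⟩ := hmain
  exact ⟨hfin, h1, G, h2, h3, by linarith⟩

end Crest.Agent.R112
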