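import Crest.Agent.R112.KCore

set_option autoImplicit false

namespace Crest.Agent.R112

open MeasureTheory Set Real intervalIntegral

variable {g : ℂ → ℝ}

/-- value form of the optimality on the circle -/
theorem opt_circle (hg : ContDiff ℝ 1 g) {x : ℂ} {r V : ℝ} (hr0 : 0 < r)
    (hmax : IsLocalMax (fun r => A g r x) r) (hV : A g r x = V) :
    ∫ θ in (-π)..π, (g (pt x r θ) - V) = 0 := by
  have hgc := hg.continuous
  have hpi := Real.pi_pos
  have h1 := opt_circle' hg hr0 hmax
  rw [A_eq hr0] at hV
  rw [intervalIntegral.integral_sub (Continuous.intervalIntegrable (by fun_prop) _ _)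
    (Continuous.intervalIntegrable (by fun_prop) _ _), intervalIntegral.integral_const, smul_eq_mul]
  have h2 : ∫ z in Metric.ball x r, g z = V * (π * r ^ 2) := by
    rw [← hV]; field_simp
  rw [h2] at h1
  have h3 : r ^ 2 * ((∫ θ in (-π)..π, g (pt x r θ)) - (π - -π) * V) = 0 := by linarith
  rcases mul_eq_zero.1 h3 with h | h
  · exact absurd h (by positivity)
  · exact h

/-- first order optimality in the radius -/
theorem opt_radial (hg : ContDiff ℝ 1 g) {x : ℂ} {r : ℝ} (hr0 : 0 < r)
    (hmax : IsLocalMax (fun r => A g r x) r) :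
    ∫ z in Metric.ball x r, fderiv ℝ g z (z - x) = 0 := by
  have hgc := hg.continuous
  have hfc := cont_fd hg
  have h1 := opt_circle' hg hr0 hmax
  have hc : Continuous (fun z => fderiv ℝ g z (z - x)) := hfc.clm_apply (by fun_prop)
  rw [polar_ball hr0.le hc]
  rw [polar_ball hr0.le hgc] at h1
  have hray : ∀ θ, ∫ s in (0:ℝ)..r, s * fderiv ℝ g (pt x s θ) (pt x s θ - x)
      = r ^ 2 * g (pt x r θ) - 2 * ∫ s in (0:ℝ)..r, s * g (pt x s θ) := by
    intro θ
    have e1 : ∀ s, s * fderiv ℝ g (pt x s θ) (pt x s θ - x)
        = s ^ 2 * fderiv ℝ g (pt x s θ) (dir θ) := by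
      intro s
      have : pt x s θ - x = s • dir θ := by simp [pt]
      rw [this, map_smul, smul_eq_mul]; ring
    simp_rw [e1]
    have hd : Continuous fun s => fderiv ℝ g (pt x s θ) (dir θ) :=
      (hfc.comp (by fun_prop)).clm_apply continuous_const
    have e2 := intervalIntegral.integral_eq_sub_of_hasDerivAt
      (f := fun s => s ^ 2 * g (pt x s θ))
      (f' := fun s => 2 * (s * g (pt x s θ)) + s ^ 2 * fderiv ℝ g (pt x s θ) (dir θ))
      (a := 0) (b := r)
      (fun s _ => by
        have a1 : HasDerivAt (fun s => g (pt x s θ)) (fderiv ℝ g (pt x s θ) (dir θ)) s :=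
          ((hg.differentiable one_ne_zero _).hasFDerivAt).comp_hasDerivAt s (hasDerivAt_pt_s x θ s)
        refine ((hasDerivAt_pow 2 s).mul a1).congr_deriv ?_
        simp; ring)
      (Continuous.intervalIntegrable (by fun_prop) _ _)
    rw [intervalIntegral.integral_add (Continuous.intervalIntegrable (by fun_prop) _ _)
      (Continuous.intervalIntegrable (by fun_prop) _ _), intervalIntegral.integral_const_mul] at e2
    simp only [ne_eq, OfNat.ofNat_ne_zero, not_false_eq_true, zero_pow, zero_mul, sub_zero] at e2
    linarith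
  simp_rw [hray]
  rw [intervalIntegral.integral_sub (Continuous.intervalIntegrable (by fun_prop) _ _)
    (Continuous.intervalIntegrable (by fun_prop) _ _), intervalIntegral.integral_const_mul,
    intervalIntegral.integral_const_mul]
  linarith

theorem mass_subset (hg : ContDiff ℝ 1 g) {x y : ℂ} {ρ ρ' : ℝ} (h : ρ + dist x y ≤ ρ') :
    mass g x ρ ≤ mass g y ρ' := by
  apply setIntegral_mono_set
  · exact integrableOn_ball' (cont_nfd hg) y ρ'
  · exact Filter.Eventually.of_forall fun z => norm_nonneg _
  · exact (Metric.ball_subset_ball' h).eventuallyLE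

theorem exists_radius (hg : ContDiff ℝ 1 g) (x : ℂ) {ρ₁ ρ₂ m : ℝ} (h1 : 0 ≤ ρ₁) (h12 : ρ₁ ≤ ρ₂)
    (hm1 : mass g x ρ₁ ≤ m) (hm2 : m ≤ mass g x ρ₂) :
    ∃ ρ ∈ Icc ρ₁ ρ₂, mass g x ρ = m := by
  have hc : ContinuousOn (mass g x) (Icc ρ₁ ρ₂) :=
    (int_ball_cont (cont_nfd hg) x).mono fun t ht => h1.trans ht.1
  have := intermediate_value_Icc h12 hc ⟨hm1, hm2⟩
  obtain ⟨ρ, hρ, e⟩ := this
  exact ⟨ρ, hρ, e⟩

/-- comparison of a shifted ball of the same mass with the centred ball -/
theorem shift_compare (hg : ContDiff ℝ 1 g) {x : ℂ} {b ρ ρ₀ V : ℝ} (hb : |b| ≤ 1 / 16)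
    (hρ₀ : 1 ≤ ρ₀) (hd : |ρ - ρ₀| ≤ |b|) (hm : mass g (x + b) ρ = mass g x ρ₀) :
    ∃ E, |E| ≤ 2 * b * (beta g (x + b) ρ - beta g x ρ₀) ∧
      (∫ z in Metric.ball (x + b) ρ, (g z - V)) - (∫ z in Metric.ball x ρ₀, (g z - V))
        = (∫ θ in (-π)..π, (g (pt x ρ₀ θ) - V) * (((Sx b ρ θ) ^ 2 - ρ₀ ^ 2) / 2)) + E := by
  have hgc := hg.continuous
  have hfc := cont_fd hg
  have hnc := cont_nfd hg
  have hre := Complex.continuous_re
  have hpi := Real.pi_pos
  have hd' := abs_le.1 hd
  have hbρ : |b| < ρ := by linarith [hd'.1]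
  have hSc := continuous_Sx b ρ
  set E : ℝ := ∫ θ in (-π)..π, ∫ s in ρ₀..(Sx b ρ θ), s * (g (pt x s θ) - g (pt x ρ₀ θ)) with hE
  refine ⟨E, ?_, ?_⟩
  · -- error bound
    set Λ : ℂ → ℝ := fun z => 2 * b * z.re + (-2 * b * x.re - b ^ 2 + ρ ^ 2 - ρ₀ ^ 2) with hΛ
    have hΛc : Continuous Λ := by rw [hΛ]; fun_prop
    set f : ℂ → ℝ := fun z => ‖fderiv ℝ g z‖ * Λ z with hf
    have hfc' : Continuous f := by rw [hf]; fun_prop
    have e1 : (∫ z in Metric.ball (x + b) ρ, f z) - (∫ z in Metric.ball x ρ₀, f z)
        = 2 * b * (beta g (x + b) ρ - beta g x ρ₀) := by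
      rw [hf, hΛ]
      simp only
      rw [affine_moment hg, affine_moment hg, hm]; ring
    have e2 : (∫ z in Metric.ball (x + b) ρ, f z) - (∫ z in Metric.ball x ρ₀, f z)
        = ∫ θ in (-π)..π, ∫ s in ρ₀..(Sx b ρ θ), s * f (pt x s θ) := by
      rw [polar_set Metric.isOpen_ball.measurableSet hSc (fun θ => (Sx_pos hbρ θ).le)
        (fun θ s hs => Sx_mem hbρ x θ s hs) hfc', polar_ball (by linarith) hfc',
        ← intervalIntegral.integral_sub]
      · apply intervalIntegral.integral_congr
        intro θ _
        simp only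
        rw [intervalIntegral.integral_interval_sub_left]
        · exact Continuous.intervalIntegrable (by fun_prop) _ _
        · exact Continuous.intervalIntegrable (by fun_prop) _ _
      · exact Continuous.intervalIntegrable (by fun_prop) _ _
      · exact Continuous.intervalIntegrable (by fun_prop) _ _
    rw [← e1, e2, hE]
    apply (intervalIntegral.abs_integral_le_integral_abs (by linarith)).trans
    apply intervalIntegral.integral_mono_on (by linarith)
    · apply Continuous.intervalIntegrable
      apply Continuous.abs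
      have : Continuous (Function.uncurry fun θ s : ℝ => s * (g (pt x s θ) - g (pt x ρ₀ θ))) := by
        fun_prop
      have h2 := intervalIntegral.continuous_parametric_primitive_of_continuous (μ := volume)
        (a₀ := ρ₀) this
      exact h2.comp (continuous_id.prodMk hSc)
    · apply Continuous.intervalIntegrable
      have : Continuous (Function.uncurry fun θ s : ℝ => s * f (pt x s θ)) := by
        fun_prop
      have h2 := intervalIntegral.continuous_parametric_primitive_of_continuous (μ := volume)
        (a₀ := ρ₀) this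
      exact h2.comp (continuous_id.prodMk hSc)
    · intro θ _
      have hs := ray_signs (b := b) (c := cos θ) (ρ := ρ) (ρ₀ := ρ₀) (S := Sx b ρ θ)
        (abs_cos_le_one θ) hb hρ₀ (Sx_sq hbρ θ) (Sx_dist hbρ θ) hd
      have hLe : ∀ t, Λ (pt x t θ) = 2 * b * (t * cos θ) - b ^ 2 + ρ ^ 2 - ρ₀ ^ 2 := by
        intro t; rw [hΛ]; simp only [pt_re]; ring
      have key := ray_error (f := fun t => g (pt x t θ))
        (f' := fun t => fderiv ℝ g (pt x t θ) (dir θ))
        (n := fun t => ‖fderiv ℝ g (pt x t θ)‖) (Λ := fun t => Λ (pt x t θ))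
        (fun t => ((hg.differentiable one_ne_zero _).hasFDerivAt).comp_hasDerivAt t
          (hasDerivAt_pt_s x θ t))
        ((hfc.comp (by fun_prop)).clm_apply continuous_const)
        (by fun_prop) (by fun_prop)
        (fun t => by
          have := (fderiv ℝ g (pt x t θ)).le_opNorm (dir θ)
          rw [norm_dir, mul_one] at this
          exact this)
        (ρ₀ := ρ₀) (S := Sx b ρ θ)
        (fun t h1 h2 => by rw [hLe]; exact hs.1 t h1 h2)
        (fun t h1 h2 => by rw [hLe]; exact hs.2 t h1 h2)
        (Sx_pos hbρ θ).le (by linarith)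
      exact key
  · have hh : Continuous fun z => g z - V := by fun_prop
    rw [polar_set Metric.isOpen_ball.measurableSet hSc (fun θ => (Sx_pos hbρ θ).le)
      (fun θ s hs => Sx_mem hbρ x θ s hs) hh, polar_ball (by linarith) hh,
      ← intervalIntegral.integral_sub, hE, ← intervalIntegral.integral_add]
    · apply intervalIntegral.integral_congr
      intro θ _
      simp only
      rw [intervalIntegral.integral_interval_sub_left]
      · have e3 : ∀ s, s * (g (pt x s θ) - V)
            = s * (g (pt x ρ₀ θ) - V) + s * (g (pt x s θ) - g (pt x ρ₀ θ)) := by intro s; ring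
        simp_rw [e3]
        rw [intervalIntegral.integral_add (Continuous.intervalIntegrable (by fun_prop) _ _)
          (Continuous.intervalIntegrable (by fun_prop) _ _), intervalIntegral.integral_mul_const,
          integral_id]
        ring
      · exact Continuous.intervalIntegrable (by fun_prop) _ _
      · exact Continuous.intervalIntegrable (by fun_prop) _ _
    · exact Continuous.intervalIntegrable (by fun_prop) _ _
    · apply Continuous.intervalIntegrable
      have : Continuous (Function.uncurry fun θ s : ℝ => s * (g (pt x s θ) - g (pt x ρ₀ θ))) := by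
        fun_prop
      have h2 := intervalIntegral.continuous_parametric_primitive_of_continuous (μ := volume)
        (a₀ := ρ₀) this
      exact h2.comp (continuous_id.prodMk hSc)
    · apply Continuous.intervalIntegrable
      have : Continuous (Function.uncurry fun θ s : ℝ => s * (g (pt x s θ) - V)) := by
        fun_prop
      have h2 := intervalIntegral.continuous_parametric_primitive_of_continuous (μ := volume)
        (a₀ := (0:ℝ)) this
      exact h2.comp (continuous_id.prodMk hSc)
    · exact Continuous.intervalIntegrable (by fun_prop) _ _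

end Crest.Agent.R112
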