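import Crest.Agent.R112.Defs

/-! R112: basic facts about disc averages `A`, the local maximal function `U` and `bb`. -/

set_option autoImplicit false

namespace Crest.Agent.R112

open MeasureTheory Metric Set Filter Topology Pointwise

/-! ### `bb` -/

theorem bb_nonneg (L : ℂ →L[ℝ] ℝ) : 0 ≤ bb L := le_max_left _ _

theorem le_bb (L : ℂ →L[ℝ] ℝ) : 9 / 10 * ‖L‖ - L 1 ≤ bb L := le_max_right _ _

theorem abs_apply_le (L : ℂ →L[ℝ] ℝ) {ξ : ℂ} (hξ : ‖ξ‖ ≤ 1) : |L ξ| ≤ ‖L‖ := by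
  have h1 := L.le_opNorm ξ
  rw [Real.norm_eq_abs] at h1
  exact le_trans h1 (mul_le_of_le_one_right (norm_nonneg _) hξ)

theorem abs_apply_one_le (L : ℂ →L[ℝ] ℝ) : |L 1| ≤ ‖L‖ := abs_apply_le L (by simp)

theorem bb_le (L : ℂ →L[ℝ] ℝ) : bb L ≤ 2 * ‖L‖ := by
  unfold bb
  have := (abs_le.mp (abs_apply_one_le L)).1
  have h0 := norm_nonneg L
  exact max_le (by positivity) (by linarith)

theorem bb_zero : bb 0 = 0 := by simp [bb]

theorem bb_add (L M : ℂ →L[ℝ] ℝ) : bb (L + M) ≤ bb L + bb M := by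
  unfold bb
  apply max_le (add_nonneg (le_max_left _ _) (le_max_left _ _))
  have h1 := norm_add_le L M
  have h3 := le_max_right 0 (9 / 10 * ‖L‖ - L 1)
  have h4 := le_max_right 0 (9 / 10 * ‖M‖ - M 1)
  have h2 : (L + M) 1 = L 1 + M 1 := rfl
  rw [h2]
  linarith

theorem bb_smul {t : ℝ} (ht : 0 ≤ t) (L : ℂ →L[ℝ] ℝ) : bb (t • L) = t * bb L := by
  unfold bb
  rw [norm_smul, Real.norm_eq_abs, abs_of_nonneg ht, mul_max_of_nonneg _ _ ht, mul_zero]
  congr 1
  simp only [FunLike.coe_smul, Pi.smul_apply, smul_eq_mul]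
  ring

theorem continuous_bb : Continuous bb := by
  unfold bb
  fun_prop

/-- (V2) -/
theorem neg_apply_le (L : ℂ →L[ℝ] ℝ) {ξ : ℂ} {c : ℝ} (hξ : ‖ξ‖ ≤ 1) (hc : 0 ≤ c) :
    -(L (1 + c * ξ)) ≤ bb L - (9 / 10 - c) * ‖L‖ := by
  have h1 := (abs_le.mp (abs_apply_le L hξ)).1
  have h2 := le_bb L
  have h3 : L ((c : ℂ) * ξ) = c * L ξ := by
    rw [← smul_eq_mul, Complex.coe_smul, map_smul, smul_eq_mul]
  rw [map_add, h3]
  nlinarith

theorem neg_apply_le' (L : ℂ →L[ℝ] ℝ) {ξ : ℂ} {c : ℝ} (hξ : ‖ξ‖ ≤ 1) (hc : 0 ≤ c)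
    (hc' : c ≤ 9 / 10) : -(L (1 + c * ξ)) ≤ bb L := by
  have h1 := neg_apply_le L hξ hc
  have : 0 ≤ (9 / 10 - c) * ‖L‖ := mul_nonneg (by linarith) (norm_nonneg _)
  linarith

/-! ### the unit disc -/

theorem volume_unitBall : volume (ball (0 : ℂ) 1) = ENNReal.ofReal Real.pi := by
  rw [Complex.volume_ball]
  simp only [ENNReal.ofReal_one, one_pow, one_mul]
  rw [← NNReal.coe_real_pi, ENNReal.ofReal_coe_nnreal]

theorem volume_real_unitBall : (volume : Measure ℂ).real (ball (0 : ℂ) 1) = Real.pi := by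
  rw [Measure.real, volume_unitBall, ENNReal.toReal_ofReal Real.pi_pos.le]

/-! ### nice functions -/

theorem Nice.continuous {g : ℂ → ℝ} (hg : Nice g) : Continuous g := hg.1.continuous

theorem Nice.differentiable {g : ℂ → ℝ} (hg : Nice g) : Differentiable ℝ g :=
  hg.1.differentiable (by norm_num)

theorem Nice.continuous_fderiv {g : ℂ → ℝ} (hg : Nice g) : Continuous (fderiv ℝ g) :=
  hg.1.continuous_fderiv (by norm_num)

theorem Nice.hasCompactSupport_fderiv {g : ℂ → ℝ} (hg : Nice g) :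
    HasCompactSupport (fderiv ℝ g) := hg.2.fderiv ℝ

theorem Nice.exists_bound {g : ℂ → ℝ} (hg : Nice g) : ∃ K, 0 ≤ K ∧ ∀ x, |g x| ≤ K := by
  obtain ⟨K, hK⟩ := hg.2.exists_bound_of_continuous hg.continuous
  exact ⟨K, le_trans (norm_nonneg _) (hK 0), fun x => hK x⟩

theorem Nice.exists_bound_fderiv {g : ℂ → ℝ} (hg : Nice g) :
    ∃ K, 0 ≤ K ∧ ∀ x, ‖fderiv ℝ g x‖ ≤ K := by
  obtain ⟨K, hK⟩ := hg.hasCompactSupport_fderiv.exists_bound_of_continuous hg.continuous_fderiv
  exact ⟨K, le_trans (norm_nonneg _) (hK 0), hK⟩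

theorem Nice.continuous_bb_fderiv {g : ℂ → ℝ} (hg : Nice g) :
    Continuous (fun z => bb (fderiv ℝ g z)) := continuous_bb.comp hg.continuous_fderiv

theorem Nice.integrable_fderiv {g : ℂ → ℝ} (hg : Nice g) : Integrable (fderiv ℝ g) :=
  hg.continuous_fderiv.integrable_of_hasCompactSupport hg.hasCompactSupport_fderiv

theorem Nice.integrable_bb {g : ℂ → ℝ} (hg : Nice g) :
    Integrable (fun z => bb (fderiv ℝ g z)) := by
  apply hg.continuous_bb_fderiv.integrable_of_hasCompactSupport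
  exact hg.hasCompactSupport_fderiv.comp_left bb_zero

theorem BB_nonneg (g : ℂ → ℝ) : 0 ≤ BB g :=
  setIntegral_nonneg measurableSet_ball fun _ _ => bb_nonneg _

/-! ### disc averages -/

theorem integrableOn_disc {E : Type*} [NormedAddCommGroup E] {F : ℂ → E} (hF : Continuous F) :
    IntegrableOn F (ball (0 : ℂ) 1) :=
  (hF.continuousOn.integrableOn_compact (isCompact_closedBall (0 : ℂ) 1)).mono_set
    ball_subset_closedBall

/-- average over the unit disc -/
theorem disc_const (c : ℝ) : (1 / Real.pi) * ∫ _ξ in ball (0 : ℂ) 1, c = c := by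
  rw [setIntegral_const, volume_real_unitBall, smul_eq_mul]
  field_simp

theorem A_zero (g : ℂ → ℝ) (x : ℂ) : A g 0 x = g x := by
  unfold A
  simp only [Complex.ofReal_zero, zero_mul, add_zero]
  exact disc_const (g x)

theorem A_le_of_le {g : ℂ → ℝ} (hg : Continuous g) {r K : ℝ} {x : ℂ}
    (h : ∀ ξ ∈ ball (0 : ℂ) 1, g (x + r * ξ) ≤ K) : A g r x ≤ K := by
  unfold A
  rw [← disc_const K]
  apply mul_le_mul_of_nonneg_left _ (by positivity)
  apply setIntegral_mono_on (integrableOn_disc (by fun_prop)) (integrableOn_disc (by fun_prop))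
    measurableSet_ball h

theorem le_A_of_le {g : ℂ → ℝ} (hg : Continuous g) {r K : ℝ} {x : ℂ}
    (h : ∀ ξ ∈ ball (0 : ℂ) 1, K ≤ g (x + r * ξ)) : K ≤ A g r x := by
  unfold A
  rw [← disc_const K]
  apply mul_le_mul_of_nonneg_left _ (by positivity)
  apply setIntegral_mono_on (integrableOn_disc (by fun_prop)) (integrableOn_disc (by fun_prop))
    measurableSet_ball h

theorem abs_A_le {g : ℂ → ℝ} (hg : Continuous g) {K : ℝ} (hK : ∀ x, |g x| ≤ K) (r : ℝ) (x : ℂ) :
    |A g r x| ≤ K :=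
  abs_le.mpr ⟨le_A_of_le hg fun _ _ => (abs_le.mp (hK _)).1,
    A_le_of_le hg fun _ _ => (abs_le.mp (hK _)).2⟩

theorem A_nonneg {g : ℂ → ℝ} (h : ∀ x, 0 ≤ g x) (r : ℝ) (x : ℂ) : 0 ≤ A g r x :=
  mul_nonneg (by positivity) (setIntegral_nonneg measurableSet_ball fun _ _ => h _)

/-- joint continuity of `(r, x) ↦ A g r x` -/
theorem continuous_A {g : ℂ → ℝ} (hg : Nice g) : Continuous (fun p : ℝ × ℂ => A g p.1 p.2) := by
  unfold A
  apply Continuous.mul continuous_const
  obtain ⟨K, hK0, hK⟩ := hg.exists_bound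
  apply continuous_of_dominated (bound := fun _ => K)
  · intro p
    exact (integrableOn_disc (by have := hg.continuous; fun_prop)).aestronglyMeasurable
  · intro p
    exact Eventually.of_forall fun ξ => hK _
  · exact integrableOn_disc continuous_const
  · refine Eventually.of_forall fun _ => ?_
    have := hg.continuous
    fun_prop

theorem continuous_A_right {g : ℂ → ℝ} (hg : Nice g) (r : ℝ) : Continuous (A g r) :=
  (continuous_A hg).comp (Continuous.prodMk continuous_const continuous_id)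

theorem continuous_A_left {g : ℂ → ℝ} (hg : Nice g) (x : ℂ) : Continuous (fun r => A g r x) :=
  (continuous_A hg).comp (Continuous.prodMk continuous_id continuous_const)

/-- derivative along affine paths in `(x, r)` -/
theorem hasDerivAt_A_path {g : ℂ → ℝ} (hg : Nice g) (x h : ℂ) (r ρ t : ℝ) :
    HasDerivAt (fun t : ℝ => A g (r + t * ρ) (x + t * h))
      ((1 / Real.pi) * ∫ ξ in ball (0 : ℂ) 1,
        fderiv ℝ g (x + t * h + ((r + t * ρ : ℝ) : ℂ) * ξ) (h + ρ * ξ)) t := by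
  unfold A
  apply HasDerivAt.const_mul
  obtain ⟨K, hK0, hK⟩ := hg.exists_bound_fderiv
  have hc := hg.continuous
  have hc' := hg.continuous_fderiv
  refine (hasDerivAt_integral_of_dominated_loc_of_deriv_le (F := fun (t : ℝ) (ξ : ℂ) =>
    g (x + t * h + ((r + t * ρ : ℝ) : ℂ) * ξ)) (F' := fun (t : ℝ) (ξ : ℂ) =>
    fderiv ℝ g (x + t * h + ((r + t * ρ : ℝ) : ℂ) * ξ) (h + ρ * ξ))
    (bound := fun _ => K * (‖h‖ + |ρ|)) (s := univ) univ_mem ?_ ?_ ?_ ?_ ?_ ?_).2
  · exact Eventually.of_forall fun t => (integrableOn_disc (by fun_prop)).aestronglyMeasurable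
  · exact integrableOn_disc (by fun_prop)
  · exact (integrableOn_disc (by fun_prop)).aestronglyMeasurable
  · refine (ae_restrict_iff' measurableSet_ball).mpr (Eventually.of_forall fun ξ hξ t _ => ?_)
    have hξ1 : ‖ξ‖ ≤ 1 := by
      have := mem_ball_zero_iff.mp hξ
      exact this.le
    refine le_trans (ContinuousLinearMap.le_opNorm _ _) ?_
    apply mul_le_mul (hK _) _ (norm_nonneg _) hK0
    refine le_trans (norm_add_le _ _) ?_
    gcongr
    rw [norm_mul, Complex.norm_real, Real.norm_eq_abs]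
    exact mul_le_of_le_one_right (abs_nonneg _) hξ1
  · exact integrableOn_disc continuous_const
  · refine Eventually.of_forall fun ξ t _ => ?_
    have h1 : HasDerivAt (fun t : ℝ => x + (t : ℂ) * h + ((r + t * ρ : ℝ) : ℂ) * ξ)
        (h + ρ * ξ) t := by
      have a1 : HasDerivAt (fun t : ℝ => (t : ℂ)) 1 t := Complex.ofRealCLM.hasDerivAt
      have a2 : HasDerivAt (fun t : ℝ => ((r + t * ρ : ℝ) : ℂ)) ρ t := by
        have := (((hasDerivAt_id t).mul_const ρ).const_add r).ofReal_comp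
        simpa using this
      have := ((a1.mul_const h).const_add x).add (a2.mul_const ξ)
      rw [one_mul] at this
      exact this
    exact (hg.differentiable _).hasFDerivAt.comp_hasDerivAt t h1

theorem hasFDerivAt_A {g : ℂ → ℝ} (hg : Nice g) (r : ℝ) (x : ℂ) :
    HasFDerivAt (A g r) ((1 / Real.pi) • ∫ ξ in ball (0 : ℂ) 1, fderiv ℝ g (x + r * ξ)) x := by
  have hc := hg.continuous
  have hc' := hg.continuous_fderiv
  obtain ⟨K, hK0, hK⟩ := hg.exists_bound_fderiv
  have key : HasFDerivAt (fun x => ∫ ξ in ball (0 : ℂ) 1, g (x + r * ξ))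
      (∫ ξ in ball (0 : ℂ) 1, fderiv ℝ g (x + r * ξ)) x := by
    refine hasFDerivAt_integral_of_dominated_of_fderiv_le (F := fun (x : ℂ) (ξ : ℂ) =>
      g (x + r * ξ)) (F' := fun (x : ℂ) (ξ : ℂ) => fderiv ℝ g (x + r * ξ))
      (bound := fun _ => K) (s := univ) univ_mem ?_ ?_ ?_ ?_ ?_ ?_
    · exact Eventually.of_forall fun t => (integrableOn_disc (by fun_prop)).aestronglyMeasurable
    · exact integrableOn_disc (by fun_prop)
    · exact (integrableOn_disc (by fun_prop)).aestronglyMeasurable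
    · exact Eventually.of_forall fun ξ y _ => hK _
    · exact integrableOn_disc continuous_const
    · refine Eventually.of_forall fun ξ y _ => ?_
      have h1 := (hg.differentiable (y + r * ξ)).hasFDerivAt
      exact h1.comp y ((hasFDerivAt_id y).add_const _)
  exact key.const_mul (1 / Real.pi)

theorem fderiv_A {g : ℂ → ℝ} (hg : Nice g) (r : ℝ) (x : ℂ) :
    fderiv ℝ (A g r) x = (1 / Real.pi) • ∫ ξ in ball (0 : ℂ) 1, fderiv ℝ g (x + r * ξ) :=
  (hasFDerivAt_A hg r x).fderiv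

theorem fderiv_A_apply {g : ℂ → ℝ} (hg : Nice g) (r : ℝ) (x v : ℂ) :
    fderiv ℝ (A g r) x v = (1 / Real.pi) * ∫ ξ in ball (0 : ℂ) 1, fderiv ℝ g (x + r * ξ) v := by
  have hc' := hg.continuous_fderiv
  have hi : IntegrableOn (fun ξ : ℂ => fderiv ℝ g (x + r * ξ)) (ball 0 1) :=
    integrableOn_disc (by fun_prop)
  rw [fderiv_A hg, FunLike.coe_smul, Pi.smul_apply, smul_eq_mul,
    ContinuousLinearMap.integral_apply hi]

theorem continuous_disc_avg {E : Type*} [NormedAddCommGroup E] [NormedSpace ℝ E]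
    {F : ℂ → E} (hF : Continuous F) (hb : ∃ K, ∀ x, ‖F x‖ ≤ K) :
    Continuous (fun p : ℝ × ℂ => ∫ ξ in ball (0 : ℂ) 1, F (p.2 + p.1 * ξ)) := by
  obtain ⟨K, hK⟩ := hb
  apply continuous_of_dominated (bound := fun _ => K)
  · intro p
    exact (integrableOn_disc (by fun_prop)).aestronglyMeasurable
  · intro p
    exact Eventually.of_forall fun ξ => hK _
  · exact integrableOn_disc continuous_const
  · exact Eventually.of_forall fun _ => by fun_prop

theorem Nice.A {g : ℂ → ℝ} (hg : Nice g) (r : ℝ) : Nice (A g r) := by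
  constructor
  · rw [contDiff_one_iff_fderiv]
    refine ⟨fun x => (hasFDerivAt_A hg r x).differentiableAt, ?_⟩
    have : fderiv ℝ (R112.A g r) = fun x => (1 / Real.pi) • ∫ ξ in ball (0 : ℂ) 1,
        fderiv ℝ g (x + r * ξ) := funext fun x => fderiv_A hg r x
    rw [this]
    obtain ⟨K, hK0, hK⟩ := hg.exists_bound_fderiv
    have h1 : Continuous (fun x : ℂ => ∫ ξ in ball (0 : ℂ) 1, fderiv ℝ g (x + r * ξ)) :=
      (continuous_disc_avg hg.continuous_fderiv ⟨K, hK⟩).comp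
        (Continuous.prodMk (continuous_const (y := r)) continuous_id)
    exact h1.const_smul (1 / Real.pi)
  · apply HasCompactSupport.intro (K := cthickening |r| (tsupport g)) hg.2.cthickening
    intro x hx
    unfold R112.A
    rw [setIntegral_congr_fun (g := fun _ => (0 : ℝ)) measurableSet_ball]
    · simp
    · intro ξ hξ
      apply image_eq_zero_of_notMem_tsupport
      intro h
      apply hx
      apply mem_cthickening_of_dist_le x (x + r * ξ) _ _ h
      rw [dist_eq_norm]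
      have hξ1 : ‖ξ‖ ≤ 1 := (mem_ball_zero_iff.mp hξ).le
      have : x - (x + r * ξ) = -(r * ξ) := by ring
      rw [this, norm_neg, norm_mul, Complex.norm_real, Real.norm_eq_abs]
      exact mul_le_of_le_one_right (abs_nonneg _) hξ1

/-- Jensen's inequality for `bb`. -/
theorem bb_avg_le {F : ℂ → (ℂ →L[ℝ] ℝ)} (hF : Continuous F) :
    bb ((1 / Real.pi) • ∫ ξ in ball (0 : ℂ) 1, F ξ) ≤
      (1 / Real.pi) * ∫ ξ in ball (0 : ℂ) 1, bb (F ξ) := by
  have hpi := Real.pi_pos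
  have hi := integrableOn_disc hF
  have hbc : Continuous fun ξ => bb (F ξ) := continuous_bb.comp hF
  have h1 : ((1 / Real.pi) • ∫ ξ in ball (0 : ℂ) 1, F ξ) 1 =
      (1 / Real.pi) * ∫ ξ in ball (0 : ℂ) 1, F ξ 1 := by
    rw [FunLike.coe_smul, Pi.smul_apply, smul_eq_mul,
      ContinuousLinearMap.integral_apply hi]
  have h2 : ‖(1 / Real.pi) • ∫ ξ in ball (0 : ℂ) 1, F ξ‖ ≤
      (1 / Real.pi) * ∫ ξ in ball (0 : ℂ) 1, ‖F ξ‖ := by
    rw [norm_smul, Real.norm_eq_abs, abs_of_pos (by positivity)]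
    gcongr
    exact norm_integral_le_integral_norm _
  have h3 : ∫ ξ in ball (0 : ℂ) 1, (9 / 10 * ‖F ξ‖ - F ξ 1) ≤ ∫ ξ in ball (0 : ℂ) 1, bb (F ξ) :=
    setIntegral_mono_on (integrableOn_disc (by fun_prop)) (integrableOn_disc hbc)
      measurableSet_ball fun ξ _ => le_bb _
  rw [integral_sub (integrableOn_disc (by fun_prop)) (integrableOn_disc (by fun_prop)),
    integral_const_mul] at h3
  apply max_le
  · exact mul_nonneg (by positivity)
      (setIntegral_nonneg measurableSet_ball fun _ _ => bb_nonneg _)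
  · rw [h1]
    have h4 := mul_le_mul_of_nonneg_left h3 (show 0 ≤ 1 / Real.pi by positivity)
    linarith

theorem bb_fderiv_A_le {g : ℂ → ℝ} (hg : Nice g) (r : ℝ) (x : ℂ) :
    bb (fderiv ℝ (A g r) x) ≤
      (1 / Real.pi) * ∫ ξ in ball (0 : ℂ) 1, bb (fderiv ℝ g (x + r * ξ)) := by
  have hc' := hg.continuous_fderiv
  rw [fderiv_A hg]
  exact bb_avg_le (by fun_prop)

/-- change of variables in a disc average -/
theorem disc_avg_eq {E : Type*} [NormedAddCommGroup E] [NormedSpace ℝ E] (F : ℂ → E) {r : ℝ}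
    (hr : 0 < r) (x : ℂ) :
    ∫ ξ in ball (0 : ℂ) 1, F (x + r * ξ) = (r ^ 2)⁻¹ • ∫ z in ball x r, F z := by
  have h1 := Measure.setIntegral_comp_smul_of_pos (volume : Measure ℂ) (fun z => F (x + z))
    (ball 0 1) hr
  simp only [Complex.real_smul] at h1
  rw [h1, Complex.finrank_real_complex]
  congr 1
  have h2 : (r • ball (0 : ℂ) 1) = ball 0 r := by
    rw [_root_.smul_ball hr.ne', smul_zero, Real.norm_eq_abs, abs_of_pos hr, mul_one]
  rw [h2]
  have h3 : (ball (0 : ℂ) r) = (fun z => x + z) ⁻¹' ball x r := by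
    ext z
    simp [mem_ball, dist_eq_norm]
  rw [h3]
  exact (measurePreserving_add_left volume x).setIntegral_preimage_emb
    (measurableEmbedding_addLeft x) F (ball x r)

theorem A_eq {g : ℂ → ℝ} {r : ℝ} (hr : 0 < r) (x : ℂ) :
    A g r x = (1 / (Real.pi * r ^ 2)) * ∫ z in ball x r, g z := by
  unfold A
  rw [disc_avg_eq g hr, smul_eq_mul]
  field_simp

/-- `bb` integrals over subsets of the ball of radius `40` -/
theorem setIntegral_bb_le {g : ℂ → ℝ} (hg : Nice g) {s : Set ℂ} (hs : s ⊆ ball 0 40) :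
    ∫ z in s, bb (fderiv ℝ g z) ≤ BB g :=
  setIntegral_mono_set hg.integrable_bb.integrableOn (Eventually.of_forall fun _ => bb_nonneg _)
    (LE.le.eventuallyLE hs)

/-- disc averages of `bb` -/
theorem disc_bb_le {g : ℂ → ℝ} (hg : Nice g) {r : ℝ} (hr : 0 < r) {x : ℂ}
    (hx : ball x r ⊆ ball 0 40) :
    (1 / Real.pi) * ∫ ξ in ball (0 : ℂ) 1, bb (fderiv ℝ g (x + r * ξ)) ≤
      1 / (Real.pi * r ^ 2) * BB g := by
  rw [disc_avg_eq (fun z => bb (fderiv ℝ g z)) hr, smul_eq_mul, ← mul_assoc]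
  have : 1 / Real.pi * (r ^ 2)⁻¹ = 1 / (Real.pi * r ^ 2) := by field_simp
  rw [this]
  exact mul_le_mul_of_nonneg_left (setIntegral_bb_le hg hx) (by positivity)

/-- scaling, rotation and translation -/
theorem A_comp {f : ℂ → ℝ} {e x₀ : ℂ} (he : ‖e‖ = 1) {t : ℝ} (r : ℝ) (z : ℂ) :
    A (fun z => f (x₀ + t * e * z)) r z = A f (t * r) (x₀ + t * e * z) := by
  unfold A
  congr 1
  let L : ℂ ≃ₗᵢ[ℝ] ℂ := rotation ⟨e, by simp [Submonoid.unitSphere, he]⟩
  have hL : ∀ z, L z = e * z := fun z => rfl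
  have hmp : MeasurePreserving L volume volume := L.measurePreserving
  have h1 : (ball (0 : ℂ) 1) = L ⁻¹' (ball (0 : ℂ) 1) := by
    ext z
    simp
  conv_lhs => rw [h1]
  rw [← hmp.setIntegral_preimage_emb L.toHomeomorph.measurableEmbedding
    (fun ξ => f (x₀ + t * e * z + (t * r : ℝ) * ξ)) (ball 0 1)]
  apply setIntegral_congr_fun (L.continuous.isOpen_preimage _ isOpen_ball).measurableSet
  intro ξ _
  simp only [hL]
  congr 1
  push_cast
  ring

/-! ### the local maximal function -/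

theorem bddAbove_U {g : ℂ → ℝ} (hg : Nice g) (τ : ℝ) (x : ℂ) :
    BddAbove ((fun u : ℝ => A g (τ * u) x) '' Icc 1 4) := by
  obtain ⟨K, _, hK⟩ := hg.exists_bound
  refine ⟨K, ?_⟩
  rintro _ ⟨u, _, rfl⟩
  exact (abs_le.mp (abs_A_le hg.continuous hK _ _)).2

theorem A_le_U {g : ℂ → ℝ} (hg : Nice g) {τ u : ℝ} (hu : u ∈ Icc (1 : ℝ) 4) (x : ℂ) :
    A g (τ * u) x ≤ U g τ x := le_csSup (bddAbove_U hg τ x) ⟨u, hu, rfl⟩

theorem A_le_U' {g : ℂ → ℝ} (hg : Nice g) {τ r : ℝ} (hτ : 0 < τ) (h1 : τ ≤ r) (h2 : r ≤ 4 * τ)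
    (x : ℂ) : A g r x ≤ U g τ x := by
  have h : r = τ * (r / τ) := by field_simp
  rw [h]
  apply A_le_U hg
  constructor
  · rwa [le_div_iff₀ hτ, one_mul]
  · rwa [div_le_iff₀ hτ]

theorem U_attained {g : ℂ → ℝ} (hg : Nice g) (τ : ℝ) (x : ℂ) :
    ∃ u ∈ Icc (1 : ℝ) 4, U g τ x = A g (τ * u) x := by
  have hcont : ContinuousOn (fun u : ℝ => A g (τ * u) x) (Icc 1 4) :=
    ((continuous_A_left hg x).comp (continuous_const.mul continuous_id)).continuousOn
  obtain ⟨u, hu, h1⟩ := isCompact_Icc.exists_sSup_image_eq ⟨1, by norm_num⟩ hcont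
  exact ⟨u, hu, h1⟩

theorem U_le {g : ℂ → ℝ} {τ K : ℝ} {x : ℂ} (h : ∀ u ∈ Icc (1 : ℝ) 4, A g (τ * u) x ≤ K) :
    U g τ x ≤ K := by
  apply csSup_le ((nonempty_Icc.mpr (by norm_num)).image _)
  rintro _ ⟨u, hu, rfl⟩
  exact h u hu

theorem continuous_U {g : ℂ → ℝ} (hg : Nice g) : Continuous (fun p : ℝ × ℂ => U g p.1 p.2) := by
  have h0 : Continuous (fun q : (ℝ × ℂ) × ℝ => (q.1.1 * q.2, q.1.2)) := by fun_prop
  have h : Continuous (fun q : (ℝ × ℂ) × ℝ => A g (q.1.1 * q.2) q.1.2) :=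
    (continuous_A hg).comp h0
  exact isCompact_Icc.continuous_sSup (f := fun (p : ℝ × ℂ) (u : ℝ) => A g (p.1 * u) p.2) h

theorem continuous_U_right {g : ℂ → ℝ} (hg : Nice g) (τ : ℝ) : Continuous (U g τ) :=
  (continuous_U hg).comp (Continuous.prodMk continuous_const continuous_id)

theorem abs_U_le {g : ℂ → ℝ} (hg : Nice g) {K : ℝ} (hK : ∀ x, |g x| ≤ K) (τ : ℝ) (x : ℂ) :
    |U g τ x| ≤ K := by
  obtain ⟨u, _, h⟩ := U_attained hg τ x
  rw [h]
  exact abs_A_le hg.continuous hK _ _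

theorem Nice.lipschitz {g : ℂ → ℝ} (hg : Nice g) : ∃ K : NNReal, LipschitzWith K g := by
  obtain ⟨K, hK0, hK⟩ := hg.exists_bound_fderiv
  refine ⟨⟨K, hK0⟩, ?_⟩
  exact lipschitzWith_of_nnnorm_fderiv_le hg.differentiable fun x => hK x

theorem abs_A_sub_le {g : ℂ → ℝ} (hg : Nice g) {K : NNReal} (hK : LipschitzWith K g)
    (r : ℝ) (x y : ℂ) : |A g r x - A g r y| ≤ K * ‖x - y‖ := by
  have hc := hg.continuous
  unfold A
  rw [← mul_sub, ← integral_sub (integrableOn_disc (by fun_prop)) (integrableOn_disc (by fun_prop)),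
    abs_mul, abs_of_pos (by positivity : 0 < 1 / Real.pi), ← disc_const (K * ‖x - y‖)]
  apply mul_le_mul_of_nonneg_left _ (by positivity)
  rw [← Real.norm_eq_abs]
  refine le_trans (norm_integral_le_integral_norm _) ?_
  apply setIntegral_mono_on (integrableOn_disc (by fun_prop)) (integrableOn_disc (by fun_prop))
    measurableSet_ball
  intro ξ _
  have := hK.dist_le_mul (x + r * ξ) (y + r * ξ)
  rw [Real.dist_eq, dist_eq_norm] at this
  simpa using this

theorem lipschitz_A {g : ℂ → ℝ} (hg : Nice g) {K : NNReal} (hK : LipschitzWith K g)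
    (r : ℝ) : LipschitzWith K (A g r) := by
  apply LipschitzWith.of_dist_le_mul
  intro x y
  rw [Real.dist_eq, dist_eq_norm]
  exact abs_A_sub_le hg hK r x y

theorem lipschitz_U {g : ℂ → ℝ} (hg : Nice g) {K : NNReal} (hK : LipschitzWith K g)
    (τ : ℝ) : LipschitzWith K (U g τ) := by
  apply LipschitzWith.of_le_add_mul
  intro x y
  apply U_le
  intro u hu
  have h1 := (abs_le.mp (abs_A_sub_le hg hK (τ * u) x y)).2
  have h2 := A_le_U hg (τ := τ) hu y
  rw [dist_eq_norm]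
  linarith

theorem U_comp {f : ℂ → ℝ} {e x₀ : ℂ} (he : ‖e‖ = 1) {t : ℝ} (τ : ℝ) (z : ℂ) :
    U (fun z => f (x₀ + t * e * z)) τ z = U f (t * τ) (x₀ + t * e * z) := by
  unfold U
  congr 1
  apply image_congr
  intro u _
  rw [A_comp he (t := t) (τ * u) z, mul_assoc t τ u]

end Crest.Agent.R112
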