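import Mathlib

/-! R112: definitions (the plane is `ℂ`, the distinguished direction is `1`). -/

set_option autoImplicit false

namespace Crest.Agent.R112

open MeasureTheory

/-- average of `g` over the disc of radius `|r|` about `x` (for every real `r`; `A g 0 x = g x`) -/
noncomputable def A (g : ℂ → ℝ) (r : ℝ) (x : ℂ) : ℝ :=
  (1 / Real.pi) * ∫ ξ in Metric.ball (0 : ℂ) 1, g (x + r * ξ)

/-- `U g τ x = max_{τ ≤ r ≤ 4 τ} A g r x` -/
noncomputable def U (g : ℂ → ℝ) (τ : ℝ) (x : ℂ) : ℝ :=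
  sSup ((fun u : ℝ => A g (τ * u) x) '' Set.Icc 1 4)

/-- `b(L) = max(0, 0.9 |L| - L 1)` -/
noncomputable def bb (L : ℂ →L[ℝ] ℝ) : ℝ := max 0 (9 / 10 * ‖L‖ - L 1)

/-- `∫_{ball 0 40} b(Dg)` -/
noncomputable def BB (g : ℂ → ℝ) : ℝ := ∫ z in Metric.ball (0 : ℂ) 40, bb (fderiv ℝ g z)

/-- peak functional -/
noncomputable def Pk (h : ℝ → ℝ) (lo hi s : ℝ) : ℝ :=
  max 0 (h s - max (sInf ((fun t => h (s - t)) '' Set.Icc lo hi))
    (sInf ((fun t => h (s + t)) '' Set.Icc lo hi)))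

/-- `C^1` with compact support -/
def Nice (g : ℂ → ℝ) : Prop := ContDiff ℝ 1 g ∧ HasCompactSupport g

end Crest.Agent.R112
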