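import Mathlib
import Crest.Agent.R112.Defs

/-!
# Row 112 (S0147): one-dimensional lemma (O4), the peaks formula.
-/

open MeasureTheory Set Filter Topology
open scoped ENNReal NNReal

namespace Crest.Agent.R112

/-- minimum of `h` over the window `[x+a, x+b]`. -/
noncomputable def wmin (h : ℝ → ℝ) (a b x : ℝ) : ℝ :=
  sInf ((fun u => h (x + u)) '' Icc a b)

lemma Pk_eq (h : ℝ → ℝ) (lo hi s : ℝ) :
    Pk h lo hi s = max 0 (h s - max (wmin h (-hi) (-lo) s) (wmin h lo hi s)) := by
  have h1 : (fun t => h (s - t)) '' Icc lo hi = (fun u => h (s + u)) '' Icc (-hi) (-lo) := by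
    ext y
    constructor
    · rintro ⟨t, ht, rfl⟩
      exact ⟨-t, ⟨by linarith [ht.2], by linarith [ht.1]⟩, by simp [sub_eq_add_neg]⟩
    · rintro ⟨t, ht, rfl⟩
      exact ⟨-t, ⟨by linarith [ht.2], by linarith [ht.1]⟩, by simp [sub_eq_add_neg]⟩
  unfold Pk wmin
  rw [h1]

lemma wmin_continuous {h : ℝ → ℝ} (hh : Continuous h) (a b : ℝ) :
    Continuous (wmin h a b) := by
  unfold wmin
  refine IsCompact.continuous_sInf (f := fun x u => h (x + u)) isCompact_Icc ?_
  exact hh.comp (continuous_fst.add continuous_snd)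

lemma wmin_le {h : ℝ → ℝ} (hh : Continuous h) {a b x u : ℝ} (hu : u ∈ Icc a b) :
    wmin h a b x ≤ h (x + u) := by
  refine csInf_le ?_ ⟨u, hu, rfl⟩
  exact (isCompact_Icc.image (hh.comp (continuous_const.add continuous_id))).bddBelow

lemma exists_wmin_eq {h : ℝ → ℝ} (hh : Continuous h) {a b : ℝ} (hab : a ≤ b) (x : ℝ) :
    ∃ u ∈ Icc a b, h (x + u) = wmin h a b x := by
  have h1 : (Icc a b).Nonempty := nonempty_Icc.2 hab
  obtain ⟨u, hu, h2⟩ := isCompact_Icc.exists_sInf_image_eq h1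
    (f := fun u => h (x + u)) (hh.comp (continuous_const.add continuous_id)).continuousOn
  exact ⟨u, hu, h2.symm⟩

lemma le_wmin_iff {h : ℝ → ℝ} (hh : Continuous h) {a b : ℝ} (hab : a ≤ b) {x c : ℝ} :
    c ≤ wmin h a b x ↔ ∀ u ∈ Icc a b, c ≤ h (x + u) := by
  constructor
  · intro h1 u hu
    exact h1.trans (wmin_le hh hu)
  · intro h1
    obtain ⟨u, hu, h2⟩ := exists_wmin_eq hh hab x
    rw [← h2]
    exact h1 u hu

lemma wmin_le_iff {h : ℝ → ℝ} (hh : Continuous h) {a b : ℝ} (hab : a ≤ b) {x c : ℝ} :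
    wmin h a b x ≤ c ↔ ∃ u ∈ Icc a b, h (x + u) ≤ c := by
  constructor
  · intro h1
    obtain ⟨u, hu, h2⟩ := exists_wmin_eq hh hab x
    exact ⟨u, hu, by rw [h2]; exact h1⟩
  · rintro ⟨u, hu, h2⟩
    exact (wmin_le hh hu).trans h2

lemma Pk_nonneg (h : ℝ → ℝ) (lo hi s : ℝ) : 0 ≤ Pk h lo hi s := le_max_left _ _

lemma Pk_continuous {h : ℝ → ℝ} (hh : Continuous h) (lo hi : ℝ) :
    Continuous (Pk h lo hi) := by
  have h1 : Pk h lo hi = fun s => max 0 (h s - max (wmin h (-hi) (-lo) s) (wmin h lo hi s)) :=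
    funext (Pk_eq h lo hi)
  rw [h1]
  exact continuous_const.max (hh.sub ((wmin_continuous hh _ _).max (wmin_continuous hh _ _)))

/-- Area bound on a set where `h` is antitone. -/
lemma lintegral_neg_deriv_le {h : ℝ → ℝ} {E : Set ℝ} (hE : MeasurableSet E)
    (hd : ∀ x ∈ E, DifferentiableAt ℝ h x) (ha : AntitoneOn h E) {c₁ c₂ : ℝ}
    (h₁ : ∀ x ∈ E, c₁ ≤ h x) (h₂ : ∀ x ∈ E, h x ≤ c₂) :
    ∫⁻ x in E, ENNReal.ofReal (-(deriv h x)) ≤ ENNReal.ofReal (c₂ - c₁) := by
  rw [lintegral_deriv_eq_volume_image_of_antitoneOn hE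
    (fun x hx => (hd x hx).hasDerivAt.hasDerivWithinAt) ha]
  calc volume (h '' E) ≤ volume (Icc c₁ c₂) := by
        apply measure_mono
        rintro _ ⟨x, hx, rfl⟩
        exact ⟨h₁ x hx, h₂ x hx⟩
    _ = ENNReal.ofReal (c₂ - c₁) := Real.volume_Icc

/-- Area bound on a set where `h` is monotone. -/
lemma lintegral_deriv_le {h : ℝ → ℝ} {E : Set ℝ} (hE : MeasurableSet E)
    (hd : ∀ x ∈ E, DifferentiableAt ℝ h x) (ha : MonotoneOn h E) {c₁ c₂ : ℝ}
    (h₁ : ∀ x ∈ E, c₁ ≤ h x) (h₂ : ∀ x ∈ E, h x ≤ c₂) :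
    ∫⁻ x in E, ENNReal.ofReal (deriv h x) ≤ ENNReal.ofReal (c₂ - c₁) := by
  rw [lintegral_deriv_eq_volume_image_of_monotoneOn hE
    (fun x hx => (hd x hx).hasDerivAt.hasDerivWithinAt) ha]
  calc volume (h '' E) ≤ volume (Icc c₁ c₂) := by
        apply measure_mono
        rintro _ ⟨x, hx, rfl⟩
        exact ⟨h₁ x hx, h₂ x hx⟩
    _ = ENNReal.ofReal (c₂ - c₁) := Real.volume_Icc

/-- the points of `[α,β]` where `h` is differentiable, `h ≥ h x` on `[x-d,x]`
and `h ≤ h x` somewhere in `[x-2d,x-d]`. -/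
def Aset (h : ℝ → ℝ) (α β d : ℝ) : Set ℝ :=
  {x | x ∈ Icc α β ∧ DifferentiableAt ℝ h x ∧ h x ≤ wmin h (-d) 0 x ∧
    wmin h (-(2 * d)) (-d) x ≤ h x}

/-- the points of `[α,β]` where `h` is differentiable and `h ≥ h x` on `[x-L,x]`. -/
def Lset (h : ℝ → ℝ) (α β L : ℝ) : Set ℝ :=
  {x | x ∈ Icc α β ∧ DifferentiableAt ℝ h x ∧ h x ≤ wmin h (-L) 0 x}

lemma measurableSet_Aset {h : ℝ → ℝ} (hh : Continuous h) (α β d : ℝ) :
    MeasurableSet (Aset h α β d) := by
  unfold Aset
  refine measurableSet_Icc.inter ((measurableSet_of_differentiableAt ℝ h).inter ?_)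
  exact (measurableSet_le hh.measurable (wmin_continuous hh _ _).measurable).inter
    (measurableSet_le (wmin_continuous hh _ _).measurable hh.measurable)

lemma measurableSet_Lset {h : ℝ → ℝ} (hh : Continuous h) (α β L : ℝ) :
    MeasurableSet (Lset h α β L) := by
  unfold Lset
  refine measurableSet_Icc.inter ((measurableSet_of_differentiableAt ℝ h).inter ?_)
  exact measurableSet_le hh.measurable (wmin_continuous hh _ _).measurable

lemma Aset_slice {h : ℝ → ℝ} (hh : Continuous h) {α β d : ℝ} (hd : 0 < d) (s : ℝ) :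
    ∫⁻ x in Aset h α β d ∩ Icc (s + d / 4) (s + 3 * d / 4), ENNReal.ofReal (-(deriv h x))
      ≤ ENNReal.ofReal (Pk h (d / 4) (2 * d) s) := by
  set E := Aset h α β d ∩ Icc (s + d / 4) (s + 3 * d / 4) with hEdef
  have hE : MeasurableSet E := (measurableSet_Aset hh α β d).inter measurableSet_Icc
  have hle : ∀ x ∈ Aset h α β d, ∀ y, x - d ≤ y → y ≤ x → h x ≤ h y := by
    intro x hx y h1 h2
    have := (le_wmin_iff hh (by linarith)).1 hx.2.2.1 (y - x) ⟨by linarith, by linarith⟩
    simpa using this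
  refine (lintegral_neg_deriv_le (c₁ := max (wmin h (-(2 * d)) (-(d / 4)) s)
    (wmin h (d / 4) (2 * d) s)) (c₂ := h s) hE (fun x hx => hx.1.2.1) ?_ ?_ ?_).trans ?_
  · rintro x ⟨hx, hx1, hx2⟩ y ⟨hy, hy1, hy2⟩ hxy
    exact hle y hy x (by linarith) hxy
  · rintro x ⟨hx, hx1, hx2⟩
    apply max_le
    · obtain ⟨u, hu, h1⟩ := (wmin_le_iff hh (by linarith)).1 hx.2.2.2
      refine (wmin_le_iff hh (by linarith)).2 ⟨x + u - s, ⟨?_, ?_⟩, ?_⟩
      · linarith [hu.1]
      · linarith [hu.2]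
      · have : s + (x + u - s) = x + u := by ring
        rw [this]; exact h1
    · refine (wmin_le_iff hh (by linarith)).2 ⟨x - s, ⟨?_, ?_⟩, ?_⟩
      · linarith
      · linarith
      · have : s + (x - s) = x := by ring
        rw [this]
  · rintro x ⟨hx, hx1, hx2⟩
    exact hle x hx s (by linarith) (by linarith)
  · apply ENNReal.ofReal_le_ofReal
    rw [Pk_eq]
    exact le_max_right _ _

lemma Aset_bound {h : ℝ → ℝ} (hh : Continuous h) {α β d : ℝ} (hd : 0 < d) (hd1 : d ≤ 1) :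
    ∫⁻ x in Aset h α β d, ENNReal.ofReal (-(deriv h x))
      ≤ ENNReal.ofReal (2 / d) *
        ∫⁻ s in Icc (α - 1) (β + 1), ENNReal.ofReal (Pk h (d / 4) (2 * d) s) := by
  have hA := measurableSet_Aset hh α β d
  set φ : ℝ → ℝ≥0∞ := fun x => ENNReal.ofReal (-(deriv h x)) with hφ
  have hφm : Measurable φ := (measurable_deriv h).neg.ennreal_ofReal
  -- double integral
  have key : ∀ x, (Aset h α β d).indicator φ x
      = ENNReal.ofReal (2 / d) * ∫⁻ s, (Aset h α β d).indicator φ x *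
        (Icc (s + d / 4) (s + 3 * d / 4)).indicator (fun _ => (1 : ℝ≥0∞)) x := by
    intro x
    have h1 : (fun s : ℝ => (Icc (s + d / 4) (s + 3 * d / 4)).indicator
        (fun _ => (1 : ℝ≥0∞)) x) = (Icc (x - 3 * d / 4) (x - d / 4)).indicator (fun _ => 1) := by
      funext s
      by_cases hs : s ∈ Icc (x - 3 * d / 4) (x - d / 4)
      · rw [indicator_of_mem hs, indicator_of_mem]
        exact ⟨by linarith [hs.2], by linarith [hs.1]⟩
      · rw [indicator_of_notMem hs, indicator_of_notMem]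
        rintro ⟨h2, h3⟩
        exact hs ⟨by linarith, by linarith⟩
    rw [lintegral_const_mul', h1, lintegral_indicator measurableSet_Icc, setLIntegral_const,
      Real.volume_Icc]
    · have h2 : x - d / 4 - (x - 3 * d / 4) = d / 2 := by ring
      rw [h2, one_mul, mul_left_comm, ← ENNReal.ofReal_mul (by positivity)]
      have h3 : 2 / d * (d / 2) = 1 := by field_simp
      rw [h3]; simp
    · by_cases hx : x ∈ Aset h α β d
      · rw [indicator_of_mem hx]; exact ENNReal.ofReal_ne_top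
      · rw [indicator_of_notMem hx]; simp
  rw [← lintegral_indicator hA]
  have hmeas : Measurable (fun p : ℝ × ℝ => (Aset h α β d).indicator φ p.1 *
        (Icc (p.2 + d / 4) (p.2 + 3 * d / 4)).indicator (fun _ => (1 : ℝ≥0∞)) p.1) := by
    refine ((hφm.indicator hA).comp measurable_fst).mul ?_
    have h2 : (fun p : ℝ × ℝ => (Icc (p.2 + d / 4) (p.2 + 3 * d / 4)).indicator
        (fun _ => (1 : ℝ≥0∞)) p.1) =
        {p : ℝ × ℝ | p.2 + d / 4 ≤ p.1 ∧ p.1 ≤ p.2 + 3 * d / 4}.indicator (fun _ => 1) := by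
      funext p
      rfl
    rw [h2]
    refine measurable_const.indicator ?_
    exact (measurableSet_le (measurable_snd.add_const _) measurable_fst).inter
      (measurableSet_le measurable_fst (measurable_snd.add_const _))
  calc ∫⁻ x, (Aset h α β d).indicator φ x
      = ∫⁻ x, ENNReal.ofReal (2 / d) * ∫⁻ s, (Aset h α β d).indicator φ x *
        (Icc (s + d / 4) (s + 3 * d / 4)).indicator (fun _ => (1 : ℝ≥0∞)) x :=
        lintegral_congr key
    _ = ENNReal.ofReal (2 / d) * ∫⁻ x, ∫⁻ s, (Aset h α β d).indicator φ x *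
        (Icc (s + d / 4) (s + 3 * d / 4)).indicator (fun _ => (1 : ℝ≥0∞)) x := by
        rw [lintegral_const_mul' _ _ ENNReal.ofReal_ne_top]
    _ = ENNReal.ofReal (2 / d) * ∫⁻ s, ∫⁻ x, (Aset h α β d).indicator φ x *
        (Icc (s + d / 4) (s + 3 * d / 4)).indicator (fun _ => (1 : ℝ≥0∞)) x := by
        rw [lintegral_lintegral_swap hmeas.aemeasurable]
    _ ≤ ENNReal.ofReal (2 / d) *
        ∫⁻ s in Icc (α - 1) (β + 1), ENNReal.ofReal (Pk h (d / 4) (2 * d) s) := by
        refine mul_le_mul' le_rfl ?_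
        rw [← lintegral_indicator measurableSet_Icc]
        apply lintegral_mono
        intro s
        have h3 : (fun x => (Aset h α β d).indicator φ x *
            (Icc (s + d / 4) (s + 3 * d / 4)).indicator (fun _ => (1 : ℝ≥0∞)) x) =
            (Aset h α β d ∩ Icc (s + d / 4) (s + 3 * d / 4)).indicator φ := by
          funext x
          by_cases h4 : x ∈ Aset h α β d <;>
            by_cases h5 : x ∈ Icc (s + d / 4) (s + 3 * d / 4) <;>
            simp [indicator, mem_inter_iff, h4, h5]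
        simp only
        rw [h3, lintegral_indicator (hA.inter measurableSet_Icc)]
        by_cases hs : s ∈ Icc (α - 1) (β + 1)
        · rw [indicator_of_mem hs]
          exact Aset_slice hh hd s
        · have h6 : Aset h α β d ∩ Icc (s + d / 4) (s + 3 * d / 4) = ∅ := by
            ext x
            simp only [mem_inter_iff, mem_empty_iff_false, iff_false, not_and]
            rintro hx ⟨hx1, hx2⟩
            have := hx.1
            exact hs ⟨by linarith [this.1], by linarith [this.2]⟩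
          rw [h6]; simp

lemma lintegral_biUnion_finset_le {ι : Type*} (s : Finset ι) (t : ι → Set ℝ)
    (f : ℝ → ℝ≥0∞) :
    ∫⁻ x in ⋃ i ∈ s, t i, f x ≤ ∑ i ∈ s, ∫⁻ x in t i, f x := by
  classical
  induction s using Finset.induction_on with
  | empty => simp
  | insert a s ha ih =>
    rw [Finset.set_biUnion_insert, Finset.sum_insert ha]
    exact (lintegral_union_le _ _ _).trans (add_le_add le_rfl ih)

/-- Long part. -/
lemma Lset_cell {h : ℝ → ℝ} (hh : Continuous h) {α β L D : ℝ} (hL : 0 < L) (hL1 : L ≤ 1)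
    (hD : ∀ x q, α - 1 ≤ x → q ≤ β → L / 4 ≤ q - x → q - x ≤ L → h x - h q ≤ D) {a : ℝ}
    (ha : α ≤ a) :
    ∫⁻ x in Lset h α β L ∩ Icc a (a + L / 2), ENNReal.ofReal (-(deriv h x))
      ≤ ENNReal.ofReal D := by
  have hE : MeasurableSet (Lset h α β L ∩ Icc a (a + L / 2)) :=
    (measurableSet_Lset hh α β L).inter measurableSet_Icc
  have hle : ∀ x ∈ Lset h α β L, ∀ y, x - L ≤ y → y ≤ x → h x ≤ h y := by
    intro x hx y h1 h2
    have := (le_wmin_iff hh (by linarith)).1 hx.2.2 (y - x) ⟨by linarith, by linarith⟩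
    simpa using this
  refine (lintegral_neg_deriv_le (c₁ := h (a - L / 4) - D) (c₂ := h (a - L / 4)) hE
    (fun x hx => hx.1.2.1) ?_ ?_ ?_).trans ?_
  · rintro x ⟨hx, hx1, hx2⟩ y ⟨hy, hy1, hy2⟩ hxy
    exact hle y hy x (by linarith) hxy
  · rintro x ⟨hx, hx1, hx2⟩
    have := hD (a - L / 4) x (by linarith) hx.1.2 (by linarith) (by linarith)
    linarith
  · rintro x ⟨hx, hx1, hx2⟩
    exact hle x hx _ (by linarith) (by linarith)
  · apply ENNReal.ofReal_le_ofReal
    linarith

lemma Lset_bound {h : ℝ → ℝ} (hh : Continuous h) {α β L D : ℝ} (hL : 0 < L) (hL1 : L ≤ 1)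
    (hab : α ≤ β) (hD0 : 0 ≤ D)
    (hD : ∀ x q, α - 1 ≤ x → q ≤ β → L / 4 ≤ q - x → q - x ≤ L → h x - h q ≤ D) :
    ∫⁻ x in Lset h α β L, ENNReal.ofReal (-(deriv h x))
      ≤ ENNReal.ofReal ((2 * (β - α) / L + 1) * D) := by
  set n : ℕ := ⌊2 * (β - α) / L⌋₊ + 1 with hn
  have hnn : 0 ≤ 2 * (β - α) / L := div_nonneg (by linarith) hL.le
  have hcover : Lset h α β L ⊆ ⋃ i ∈ Finset.range n,
      (Lset h α β L ∩ Icc (α + i * (L / 2)) (α + i * (L / 2) + L / 2)) := by
    intro x hx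
    have hx1 := hx.1
    set k : ℕ := ⌊(x - α) / (L / 2)⌋₊ with hk
    have h0 : 0 ≤ (x - α) / (L / 2) := div_nonneg (by linarith [hx1.1]) (by linarith)
    have h1 : (k : ℝ) ≤ (x - α) / (L / 2) := Nat.floor_le h0
    have h2 : (x - α) / (L / 2) < k + 1 := Nat.lt_floor_add_one _
    rw [le_div_iff₀ (by linarith)] at h1
    rw [div_lt_iff₀ (by linarith)] at h2
    have h3 : k < n := by
      rw [hn, Nat.lt_succ_iff]
      apply Nat.floor_le_floor
      have : 2 * (β - α) / L = (β - α) / (L / 2) := by field_simp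
      rw [this]
      gcongr
      exact hx1.2
    simp only [mem_iUnion, Finset.mem_range]
    exact ⟨k, h3, hx, by linarith, by linarith⟩
  calc ∫⁻ x in Lset h α β L, ENNReal.ofReal (-(deriv h x))
      ≤ ∫⁻ x in ⋃ i ∈ Finset.range n,
      (Lset h α β L ∩ Icc (α + i * (L / 2)) (α + i * (L / 2) + L / 2)),
        ENNReal.ofReal (-(deriv h x)) := lintegral_mono_set hcover
    _ ≤ ∑ i ∈ Finset.range n, ∫⁻ x in (Lset h α β L ∩
      Icc (α + i * (L / 2)) (α + i * (L / 2) + L / 2)), ENNReal.ofReal (-(deriv h x)) :=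
        lintegral_biUnion_finset_le _ _ _
    _ ≤ ∑ i ∈ Finset.range n, ENNReal.ofReal D := by
        apply Finset.sum_le_sum
        intro i _
        apply Lset_cell hh hL hL1 hD
        have : 0 ≤ (i : ℝ) * (L / 2) := by positivity
        linarith
    _ = ENNReal.ofReal (n * D) := by
        rw [Finset.sum_const, Finset.card_range, nsmul_eq_mul,
          ENNReal.ofReal_mul (by positivity), ENNReal.ofReal_natCast]
    _ ≤ ENNReal.ofReal ((2 * (β - α) / L + 1) * D) := by
        apply ENNReal.ofReal_le_ofReal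
        gcongr
        rw [hn]; push_cast
        gcongr
        exact Nat.floor_le hnn

/-- **(O4) Peaks formula**. -/
theorem peaks_formula {h : ℝ → ℝ} (hh : Continuous h) {α β L D : ℝ} (hL : 0 < L) (hL1 : L ≤ 1)
    (hab : α ≤ β) (hD0 : 0 ≤ D)
    (hD : ∀ x q, α - 1 ≤ x → q ≤ β → L / 4 ≤ q - x → q - x ≤ L → h x - h q ≤ D) :
    ∫⁻ x in Icc α β, ENNReal.ofReal (-(deriv h x))
      ≤ ENNReal.ofReal ((2 * (β - α) / L + 1) * D) +
        ∑' m : ℕ, ENNReal.ofReal (2 / (L / 2 ^ m)) *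
          ∫⁻ s in Icc (α - 1) (β + 1),
            ENNReal.ofReal (Pk h ((L / 2 ^ m) / 4) (2 * (L / 2 ^ m)) s) := by
  set φ : ℝ → ℝ≥0∞ := fun x => ENNReal.ofReal (-(deriv h x)) with hφ
  have hcover : ∀ x, (Icc α β).indicator φ x ≤
      (Lset h α β L ∪ ⋃ m : ℕ, Aset h α β (L / 2 ^ m)).indicator φ x := by
    intro x
    by_cases hx : x ∈ Icc α β
    swap
    · rw [indicator_of_notMem hx]; exact zero_le
    rw [indicator_of_mem hx]
    by_cases hneg : deriv h x < 0
    swap
    · have : φ x = 0 := by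
        simp only [hφ]
        rw [ENNReal.ofReal_eq_zero]
        linarith [not_lt.1 hneg]
      rw [this]; exact zero_le
    have hdiff : DifferentiableAt ℝ h x := by
      by_contra hcon
      rw [deriv_zero_of_not_differentiableAt hcon] at hneg
      exact lt_irrefl _ hneg
    -- h ≥ h x on a left neighbourhood
    have hev : ∃ δ > 0, ∀ y ∈ Icc (x - δ) x, h x ≤ h y := by
      have h1 := hdiff.hasDerivAt
      have h2 : ∀ᶠ y in 𝓝[<] x, h x < h y := by
        have h3 := (hasDerivAt_iff_tendsto_slope.1 h1).mono_left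
          (nhdsWithin_mono x (fun y (hy : y < x) => ne_of_lt hy))
        have h4 : ∀ᶠ y in 𝓝[<] x, slope h x y < 0 := h3.eventually (gt_mem_nhds hneg)
        filter_upwards [h4, self_mem_nhdsWithin] with y hy1 hy2
        have hy2' : y < x := hy2
        rw [slope_def_field] at hy1
        by_contra hcon
        have h5 : h y - h x ≤ 0 := by linarith [not_lt.1 hcon]
        have h6 : 0 ≤ (h y - h x) / (y - x) :=
          div_nonneg_of_nonpos h5 (by linarith)
        linarith
      rw [Filter.Eventually, mem_nhdsLT_iff_exists_Ioo_subset] at h2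
      obtain ⟨l, hl, h3⟩ := h2
      have hl' : l < x := hl
      refine ⟨(x - l) / 2, by linarith, ?_⟩
      intro y hy
      rcases eq_or_lt_of_le hy.2 with h4 | h4
      · rw [h4]
      · exact (h3 ⟨by linarith [hy.1], h4⟩ : h x < h y).le
    obtain ⟨δ, hδ, hP⟩ := hev
    by_cases hlong : h x ≤ wmin h (-L) 0 x
    · rw [indicator_of_mem (mem_union_left _ (show x ∈ Lset h α β L from ⟨hx, hdiff, hlong⟩))]
    have hex : ∃ n : ℕ, h x ≤ wmin h (-(L / 2 ^ n)) 0 x := by
      have h1 : Tendsto (fun n : ℕ => L / 2 ^ n) atTop (𝓝 0) := by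
        have := tendsto_pow_atTop_nhds_zero_of_lt_one (r := (1 / 2 : ℝ)) (by norm_num)
          (by norm_num)
        have h2 := this.const_mul L
        simp only [mul_zero] at h2
        refine h2.congr (fun n => ?_)
        rw [one_div, inv_pow, div_eq_mul_inv]
      obtain ⟨n, hn⟩ := (h1.eventually (gt_mem_nhds hδ)).exists
      refine ⟨n, (le_wmin_iff hh ?_).2 ?_⟩
      · have : 0 < L / 2 ^ n := by positivity
        linarith
      · intro u hu
        exact hP (x + u) ⟨by linarith [hu.1], by linarith [hu.2]⟩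
    classical
    set n := Nat.find hex with hn
    have hn1 := Nat.find_spec hex
    rw [← hn] at hn1
    have hn0 : n ≠ 0 := by
      intro h0
      rw [h0] at hn1
      simp at hn1
      exact hlong hn1
    obtain ⟨k, hk⟩ := Nat.exists_eq_succ_of_ne_zero hn0
    have hnk : ¬ h x ≤ wmin h (-(L / 2 ^ k)) 0 x := Nat.find_min hex (by omega)
    have hpos : 0 < L / 2 ^ n := by positivity
    have hpk : L / 2 ^ k = 2 * (L / 2 ^ n) := by
      rw [hk, pow_succ]; field_simp
    have hmem : x ∈ Aset h α β (L / 2 ^ n) := by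
      refine ⟨hx, hdiff, hn1, ?_⟩
      rw [not_le] at hnk
      obtain ⟨u, hu, h1⟩ := (wmin_le_iff hh (by rw [hpk]; linarith)).1 hnk.le
      obtain ⟨v, hv, h2⟩ := exists_wmin_eq hh (a := -(L / 2 ^ k)) (b := 0)
        (by rw [hpk]; linarith) x
      refine (wmin_le_iff hh (by linarith)).2 ⟨v, ⟨?_, ?_⟩, ?_⟩
      · rw [← hpk]; exact hv.1
      · by_contra hcon
        have h3 := (le_wmin_iff hh (by linarith)).1 hn1 v ⟨by linarith, hv.2⟩
        rw [h2] at h3
        linarith
      · rw [h2]; exact hnk.le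
    rw [indicator_of_mem]
    exact Or.inr (mem_iUnion.2 ⟨n, hmem⟩)
  have hLm := measurableSet_Lset hh α β L
  have hAm : ∀ m : ℕ, MeasurableSet (Aset h α β (L / 2 ^ m)) := fun m =>
    measurableSet_Aset hh α β _
  calc ∫⁻ x in Icc α β, φ x
      = ∫⁻ x, (Icc α β).indicator φ x := (lintegral_indicator measurableSet_Icc _).symm
    _ ≤ ∫⁻ x, (Lset h α β L ∪ ⋃ m : ℕ, Aset h α β (L / 2 ^ m)).indicator φ x :=
        lintegral_mono hcover
    _ = ∫⁻ x in Lset h α β L ∪ ⋃ m : ℕ, Aset h α β (L / 2 ^ m), φ x :=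
        lintegral_indicator (hLm.union (MeasurableSet.iUnion hAm)) _
    _ ≤ (∫⁻ x in Lset h α β L, φ x) + ∫⁻ x in ⋃ m : ℕ, Aset h α β (L / 2 ^ m), φ x :=
        lintegral_union_le _ _ _
    _ ≤ (∫⁻ x in Lset h α β L, φ x) + ∑' m : ℕ, ∫⁻ x in Aset h α β (L / 2 ^ m), φ x := by
        gcongr
        exact lintegral_iUnion_le _ _
    _ ≤ _ := by
        apply add_le_add
        · exact Lset_bound hh hL hL1 hab hD0 hD
        · apply ENNReal.tsum_le_tsum
          intro m
          have h1 : (1 : ℝ) ≤ 2 ^ m := one_le_pow₀ (by norm_num)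
          exact Aset_bound hh (by positivity) ((div_le_self hL.le h1).trans hL1)

end Crest.Agent.R112
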