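import Mathlib
import Crest.Agent.R112.Basic
import Crest.Agent.R112.OneDim

/-!
# Row 112 (S0147): estimates at a single peak (LSD, VB0, INT, CUT)
-/

set_option autoImplicit false

namespace Crest.Agent.R112

open MeasureTheory Metric Set Filter Topology

/-- the measure `|∇g|`. -/
noncomputable def mu (g : ℂ → ℝ) (s : Set ℂ) : ℝ := ∫ z in s, ‖fderiv ℝ g z‖

theorem Nice.integrable_norm {g : ℂ → ℝ} (hg : Nice g) :
    Integrable (fun z => ‖fderiv ℝ g z‖) := hg.integrable_fderiv.norm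

theorem mu_nonneg (g : ℂ → ℝ) (s : Set ℂ) : 0 ≤ mu g s :=
  integral_nonneg fun _ => norm_nonneg _

theorem mu_mono {g : ℂ → ℝ} (hg : Nice g) {s t : Set ℂ} (h : s ⊆ t) : mu g s ≤ mu g t :=
  setIntegral_mono_set hg.integrable_norm.integrableOn (Eventually.of_forall fun _ => norm_nonneg _)
    (LE.le.eventuallyLE h)

theorem mu_sdiff {g : ℂ → ℝ} (hg : Nice g) {s t : Set ℂ} (ht : MeasurableSet t) (h : t ⊆ s) :
    mu g (s \ t) = mu g s - mu g t :=
  setIntegral_sdiff ht hg.integrable_norm.integrableOn h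

/-! ### linear functionals -/

theorem sq_add_sq_le_norm (L : ℂ →L[ℝ] ℝ) : (L 1) ^ 2 + (L Complex.I) ^ 2 ≤ ‖L‖ ^ 2 := by
  set z : ℂ := ⟨L 1, L Complex.I⟩ with hz
  have h1 : L z = (L 1) ^ 2 + (L Complex.I) ^ 2 := by
    have : z = (L 1) • (1 : ℂ) + (L Complex.I) • Complex.I := by
      apply Complex.ext <;> simp [hz]
    rw [this, map_add, map_smul, map_smul, smul_eq_mul, smul_eq_mul]
    ring
  have h2 : ‖z‖ ^ 2 = (L 1) ^ 2 + (L Complex.I) ^ 2 := by
    rw [← Complex.normSq_eq_norm_sq, Complex.normSq_apply]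
    simp only [hz]; ring
  have h3 := L.le_opNorm z
  rw [h1, Real.norm_eq_abs, ← h2, abs_of_nonneg (by positivity)] at h3
  have h4 := norm_nonneg z
  have h5 := norm_nonneg L
  rw [← h2]
  rcases h4.eq_or_lt with h6 | h6
  · rw [← h6]; nlinarith
  · have h7 : ‖z‖ ≤ ‖L‖ := by
      have : ‖z‖ * ‖z‖ ≤ ‖L‖ * ‖z‖ := by nlinarith
      exact le_of_mul_le_mul_right this h6
    nlinarith

theorem apply_eq (L : ℂ →L[ℝ] ℝ) (ξ : ℂ) : L ξ = ξ.re * L 1 + ξ.im * L Complex.I := by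
  have : ξ = ξ.re • (1 : ℂ) + ξ.im • Complex.I := by
    apply Complex.ext <;> simp
  conv_lhs => rw [this]
  rw [map_add, map_smul, map_smul, smul_eq_mul, smul_eq_mul]

/-- (V3) -/
theorem apply_le_of_re_le (L : ℂ →L[ℝ] ℝ) {ξ : ℂ} (hξ : ‖ξ‖ ≤ 1) (hre : ξ.re ≤ -(65 / 100)) :
    L ξ ≤ -(5 / 100) * ‖L‖ + 11 * bb L := by
  have h0 := norm_nonneg L
  have hb := le_bb L
  have hb0 := bb_nonneg L
  by_cases h : L 1 < 8 / 10 * ‖L‖
  · have h1 := (abs_le.mp (abs_apply_le L hξ)).2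
    linarith
  · push Not at h
    have h2 := sq_add_sq_le_norm L
    have h3 : ξ.re ^ 2 + ξ.im ^ 2 ≤ 1 := by
      have : ‖ξ‖ ^ 2 ≤ 1 := by nlinarith [norm_nonneg ξ]
      rw [← Complex.normSq_eq_norm_sq, Complex.normSq_apply] at this
      nlinarith
    rw [apply_eq L ξ]
    have h4 : |L Complex.I| ≤ 6 / 10 * ‖L‖ := by
      apply abs_le_of_sq_le_sq _ (by positivity)
      nlinarith
    have h5 : |ξ.im| ≤ 76 / 100 := by
      apply abs_le_of_sq_le_sq _ (by norm_num)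
      nlinarith
    have h6 : ξ.im * L Complex.I ≤ 76 / 100 * (6 / 10 * ‖L‖) := by
      calc ξ.im * L Complex.I ≤ |ξ.im * L Complex.I| := le_abs_self _
        _ = |ξ.im| * |L Complex.I| := abs_mul _ _
        _ ≤ 76 / 100 * (6 / 10 * ‖L‖) := by
            apply mul_le_mul h5 h4 (abs_nonneg _) (by norm_num)
    have h7 : ξ.re * L 1 ≤ -(65 / 100) * (8 / 10 * ‖L‖) := by
      have : 0 ≤ L 1 := by linarith [mul_nonneg (by norm_num : (0 : ℝ) ≤ 8 / 10) h0]
      nlinarith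
    linarith

/-! ### peaks -/

/-- A peak of `U g τ` at `x` in the horizontal direction, at scale `d`, of height `Δ`. -/
structure Peak (g : ℂ → ℝ) (τ d : ℝ) (x : ℂ) (Δ a b r : ℝ) : Prop where
  hg : Nice g
  hd : 0 < d
  hd' : d ≤ 1 / 64
  hτ : 1 ≤ τ
  hτ' : τ ≤ 2
  hx : ‖x‖ ≤ 18
  hΔ : 0 < Δ
  ha1 : d / 8 ≤ a
  ha2 : a ≤ 3 * d
  hb1 : d / 8 ≤ b
  hb2 : b ≤ 3 * d
  hp : U g τ (x - a) ≤ U g τ x - Δ
  hq : U g τ (x + b) ≤ U g τ x - Δ
  hr1 : τ ≤ r
  hr2 : r ≤ 4 * τ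
  hr : A g r x = U g τ x

theorem Pk_pos_iff {h : ℝ → ℝ} (hh : Continuous h) {lo hi s : ℝ} (hlh : lo ≤ hi)
    (hpos : 0 < Pk h lo hi s) :
    ∃ a ∈ Icc lo hi, ∃ b ∈ Icc lo hi, h (s - a) ≤ h s - Pk h lo hi s ∧
      h (s + b) ≤ h s - Pk h lo hi s := by
  have h1 := Pk_eq h lo hi s
  have h2 : Pk h lo hi s = h s - max (wmin h (-hi) (-lo) s) (wmin h lo hi s) := by
    rw [h1] at hpos ⊢
    rcases lt_max_iff.1 hpos with h3 | h3
    · exact absurd h3 (lt_irrefl _)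
    · exact max_eq_right h3.le
  obtain ⟨u, hu, h3⟩ := exists_wmin_eq hh (a := -hi) (b := -lo) (by linarith) s
  obtain ⟨v, hv, h4⟩ := exists_wmin_eq hh hlh s
  refine ⟨-u, ⟨by linarith [hu.2], by linarith [hu.1]⟩, v, hv, ?_, ?_⟩
  · rw [sub_neg_eq_add, h3, h2]
    have := le_max_left (wmin h (-hi) (-lo) s) (wmin h lo hi s)
    linarith
  · rw [h4, h2]
    have := le_max_right (wmin h (-hi) (-lo) s) (wmin h lo hi s)
    linarith

theorem exists_peak {g : ℂ → ℝ} (hg : Nice g) {τ d : ℝ} (hd : 0 < d) (hd' : d ≤ 1 / 64)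
    (hτ : 1 ≤ τ) (hτ' : τ ≤ 2) {s y : ℝ} (hs : s ∈ Icc (-3 : ℝ) 17) (hy : y ∈ Icc (-1 : ℝ) 1)
    (hpos : 0 < Pk (fun s => U g τ (⟨s, y⟩ : ℂ)) (d / 8) (3 * d) s) :
    ∃ a b r, Peak g τ d ⟨s, y⟩ (Pk (fun s => U g τ (⟨s, y⟩ : ℂ)) (d / 8) (3 * d) s) a b r := by
  have hcont : Continuous (fun s : ℝ => U g τ (⟨s, y⟩ : ℂ)) := by
    have h1 : Continuous (fun s : ℝ => (⟨s, y⟩ : ℂ)) := by
      have : (fun s : ℝ => (⟨s, y⟩ : ℂ)) = fun s : ℝ => (s : ℂ) + y * Complex.I := by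
        funext s; apply Complex.ext <;> simp
      rw [this]; fun_prop
    exact (continuous_U_right hg τ).comp h1
  obtain ⟨a, ha, b, hb, h1, h2⟩ := Pk_pos_iff hcont (by linarith) hpos
  obtain ⟨u, hu, h3⟩ := U_attained hg τ (⟨s, y⟩ : ℂ)
  have e1 : ((⟨s - a, y⟩ : ℂ)) = (⟨s, y⟩ : ℂ) - (a : ℂ) := by
    apply Complex.ext <;> simp
  have e2 : ((⟨s + b, y⟩ : ℂ)) = (⟨s, y⟩ : ℂ) + (b : ℂ) := by
    apply Complex.ext <;> simp
  simp only [e1, e2] at h1 h2
  refine ⟨a, b, τ * u, hg, hd, hd', hτ, hτ', ?_, hpos, ha.1, ha.2, hb.1, hb.2, h1, h2, ?_, ?_,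
    h3.symm⟩
  · have h4 : ‖(⟨s, y⟩ : ℂ)‖ ≤ |s| + |y| := Complex.norm_le_abs_re_add_abs_im _
    have h5 : |s| ≤ 17 := abs_le.2 ⟨by linarith [hs.1], hs.2⟩
    have h6 : |y| ≤ 1 := abs_le.2 ⟨by linarith [hy.1], hy.2⟩
    linarith
  · nlinarith [hu.1]
  · nlinarith [hu.2]

/-! ### mean value along a path -/

theorem path_mvt {g : ℂ → ℝ} (hg : Nice g) {x : ℂ} {r c b Δ : ℝ} (hc : 0 ≤ c) (hb : 0 < b)
    (hr : 0 < r) (h : A g (r + b * c) (x + b) ≤ A g r x - Δ) :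
    ∃ t ∈ Ioo 0 b, (9 / 10 - c) * mu g (ball (x + t) (r + t * c)) +
      Real.pi * (r + t * c) ^ 2 * (Δ / b) ≤
        ∫ z in ball (x + t) (r + t * c), bb (fderiv ℝ g z) := by
  set f : ℝ → ℝ := fun t => A g (r + t * c) (x + t * 1) with hf
  have hder : ∀ t : ℝ, HasDerivAt f ((1 / Real.pi) * ∫ ξ in ball (0 : ℂ) 1,
      fderiv ℝ g (x + t * 1 + ((r + t * c : ℝ) : ℂ) * ξ) (1 + c * ξ)) t := fun t =>
    hasDerivAt_A_path hg x 1 r c t
  obtain ⟨t, ht, h1⟩ := exists_hasDerivAt_eq_slope f _ hb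
    (fun t _ => (hder t).continuousAt.continuousWithinAt) (fun t _ => hder t)
  refine ⟨t, ht, ?_⟩
  have hf0 : f 0 = A g r x := by simp [hf]
  have hfb : f b = A g (r + b * c) (x + b) := by simp [hf]
  have h2 : (f b - f 0) / (b - 0) ≤ -(Δ / b) := by
    rw [sub_zero, ← neg_div]
    gcongr
    rw [hf0, hfb]; linarith
  rw [← h1] at h2
  have hρ : 0 < r + t * c := by
    have := mul_nonneg ht.1.le hc
    linarith
  have hcf := hg.continuous_fderiv
  have hcb := hg.continuous_bb_fderiv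
  have h3 : ∫ ξ in ball (0 : ℂ) 1, ((9 / 10 - c) * ‖fderiv ℝ g (x + t + ((r + t * c : ℝ) : ℂ) * ξ)‖
      - bb (fderiv ℝ g (x + t + ((r + t * c : ℝ) : ℂ) * ξ))) ≤ ∫ ξ in ball (0 : ℂ) 1,
      fderiv ℝ g (x + t * 1 + ((r + t * c : ℝ) : ℂ) * ξ) (1 + c * ξ) := by
    apply setIntegral_mono_on
    · apply integrableOn_disc
      have : Continuous fun ξ : ℂ => bb (fderiv ℝ g (x + t + ((r + t * c : ℝ) : ℂ) * ξ)) :=
        hcb.comp (by fun_prop)
      fun_prop
    · apply integrableOn_disc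
      fun_prop
    · exact measurableSet_ball
    · intro ξ hξ
      have hξ1 : ‖ξ‖ ≤ 1 := (mem_ball_zero_iff.mp hξ).le
      have := neg_apply_le (fderiv ℝ g (x + t + ((r + t * c : ℝ) : ℂ) * ξ)) hξ1 hc
      rw [mul_one]
      linarith
  have h4 := disc_avg_eq (fun z => (9 / 10 - c) * ‖fderiv ℝ g z‖ - bb (fderiv ℝ g z)) hρ (x + t)
  rw [h4, smul_eq_mul, integral_sub, integral_const_mul] at h3
  · have h5 := mul_le_mul_of_nonneg_left h3 (show 0 ≤ 1 / Real.pi by positivity)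
    have h6 := h5.trans h2
    have hpi := Real.pi_pos
    have h7 : 1 / Real.pi * (((r + t * c) ^ 2)⁻¹ * ((9 / 10 - c) *
        (∫ z in ball (x + t) (r + t * c), ‖fderiv ℝ g z‖) -
        ∫ z in ball (x + t) (r + t * c), bb (fderiv ℝ g z))) * (Real.pi * (r + t * c) ^ 2) =
        (9 / 10 - c) * (∫ z in ball (x + t) (r + t * c), ‖fderiv ℝ g z‖) -
        ∫ z in ball (x + t) (r + t * c), bb (fderiv ℝ g z) := by
      field_simp
    have h8 := mul_le_mul_of_nonneg_right h6 (show 0 ≤ Real.pi * (r + t * c) ^ 2 by positivity)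
    rw [h7] at h8
    unfold mu
    linarith
  · exact (hg.integrable_norm.const_mul _).integrableOn
  · exact hg.integrable_bb.integrableOn

theorem ball_sub_forty {x : ℂ} (hx : ‖x‖ ≤ 18) {t ρ : ℝ} (ht : |t| ≤ 1) (hρ : ρ ≤ 20) :
    ball (x + t) ρ ⊆ ball (0 : ℂ) 40 := by
  intro z hz
  rw [mem_ball, dist_eq_norm] at hz
  rw [mem_ball_zero_iff]
  have h1 : ‖z‖ ≤ ‖z - (x + t)‖ + ‖x + (t : ℂ)‖ := by
    calc ‖z‖ = ‖(z - (x + t)) + (x + t)‖ := by ring_nf
      _ ≤ _ := norm_add_le _ _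
  have h2 : ‖x + (t : ℂ)‖ ≤ ‖x‖ + |t| := by
    refine (norm_add_le _ _).trans ?_
    rw [Complex.norm_real, Real.norm_eq_abs]
  linarith

theorem setIntegral_sub_le {k K : ℂ → ℝ} (hk : Integrable k) (hK : Integrable K)
    (hkK : ∀ z, |k z| ≤ K z) {S₁ S₂ C D : Set ℂ} (h₁ : MeasurableSet S₁) (h₂ : MeasurableSet S₂)
    (hC : MeasurableSet C) (hD : MeasurableSet D) (hC₁ : C ⊆ S₁) (hC₂ : C ⊆ S₂) (h₁D : S₁ ⊆ D)
    (h₂D : S₂ ⊆ D) : (∫ z in S₁, k z) - ∫ z in S₂, k z ≤ ∫ z in D \ C, K z := by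
  rw [← integral_indicator h₁, ← integral_indicator h₂, ← integral_indicator (hD.diff hC),
    ← integral_sub (hk.indicator h₁) (hk.indicator h₂)]
  apply integral_mono ((hk.indicator h₁).sub (hk.indicator h₂)) (hK.indicator (hD.diff hC))
  intro z
  rw [Pi.sub_apply]
  have h0 := abs_le.1 (hkK z)
  have h00 : 0 ≤ K z := (abs_nonneg _).trans (hkK z)
  by_cases hc : z ∈ C
  · rw [indicator_of_mem (hC₁ hc), indicator_of_mem (hC₂ hc),
      indicator_of_notMem (fun h => h.2 hc)]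
    simp
  · by_cases hz : z ∈ D
    · rw [indicator_of_mem (show z ∈ D \ C from ⟨hz, hc⟩)]
      by_cases hz1 : z ∈ S₁ <;> by_cases hz2 : z ∈ S₂ <;>
        simp only [indicator, hz1, hz2, if_true, if_false] <;> linarith [h0.1, h0.2]
    · rw [indicator_of_notMem (fun h => hz (h₁D h)), indicator_of_notMem (fun h => hz (h₂D h)),
        indicator_of_notMem (fun h => hz h.1)]
      simp

theorem hasDerivAt_A_line {g : ℂ → ℝ} (hg : Nice g) (x : ℂ) {r : ℝ} (hr : 0 < r) (t : ℝ) :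
    HasDerivAt (fun t : ℝ => A g r (x + t))
      (1 / (Real.pi * r ^ 2) * ∫ z in ball (x + t) r, fderiv ℝ g z 1) t := by
  have h1 := hasDerivAt_A_path hg x 1 r 0 t
  have h2 := disc_avg_eq (fun z => fderiv ℝ g z 1) hr (x + t)
  simp only [mul_zero, add_zero, Complex.ofReal_zero, zero_mul, mul_one] at h1
  rw [h2, smul_eq_mul, ← mul_assoc] at h1
  have h3 : 1 / Real.pi * (r ^ 2)⁻¹ = 1 / (Real.pi * r ^ 2) := by field_simp
  rw [h3] at h1
  exact h1

/-- the part of the disc not covered by the shifted larger disc lies on the left -/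
theorem uncovered {x ξ : ℂ} {t r : ℝ} (ht : 0 < t) (htb : t ≤ 3 / 64) (hr : 1 ≤ r)
    (hξ1 : ‖ξ‖ ≤ 1) (hm : x + r * ξ ∉ ball (x + (t : ℂ)) (r + t * (7 / 10))) :
    ξ.re ≤ -(65 / 100) := by
  have hm' : ¬ ‖(r : ℂ) * ξ - t‖ < r + t * (7 / 10) := by
    intro hcon
    apply hm
    rw [mem_ball, dist_eq_norm]
    have : x + r * ξ - (x + (t : ℂ)) = (r : ℂ) * ξ - t := by ring
    rw [this]; exact hcon
  push Not at hm'
  have e1 : ‖(r : ℂ) * ξ - t‖ ^ 2 = r ^ 2 * (ξ.re ^ 2 + ξ.im ^ 2) - 2 * r * t * ξ.re + t ^ 2 := by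
    rw [← Complex.normSq_eq_norm_sq, Complex.normSq_apply]
    simp only [Complex.sub_re, Complex.mul_re, Complex.ofReal_re, Complex.ofReal_im,
      Complex.sub_im, Complex.mul_im]
    ring
  have e2 : ξ.re ^ 2 + ξ.im ^ 2 ≤ 1 := by
    have : ‖ξ‖ ^ 2 ≤ 1 := by nlinarith [norm_nonneg ξ]
    rw [← Complex.normSq_eq_norm_sq, Complex.normSq_apply] at this
    nlinarith
  have e3 : (r + t * (7 / 10)) ^ 2 ≤ ‖(r : ℂ) * ξ - t‖ ^ 2 := by
    have : 0 ≤ r + t * (7 / 10) := by linarith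
    exact pow_le_pow_left₀ this hm' 2
  rw [e1] at e3
  have e4 : r ^ 2 * (ξ.re ^ 2 + ξ.im ^ 2) ≤ r ^ 2 := by nlinarith [sq_nonneg r]
  have e5 : 14 / 10 * r * t + 2 * r * t * ξ.re ≤ t ^ 2 := by nlinarith
  have e6 : t * (14 / 10 * r + 2 * r * ξ.re) ≤ t * t := by nlinarith
  have e7 : 14 / 10 * r + 2 * r * ξ.re ≤ t := le_of_mul_le_mul_left e6 ht
  by_contra hcon
  push Not at hcon
  nlinarith

/-- consequence of the first order optimality -/
theorem mu_le_of_opt {g : ℂ → ℝ} (hg : Nice g) {x : ℂ} {r t : ℝ} (hr : 1 ≤ r) (ht : 0 < t)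
    (htb : t ≤ 3 / 64) (hopt : ∫ ξ in ball (0 : ℂ) 1, fderiv ℝ g (x + r * ξ) ξ = 0) :
    5 / 100 * mu g (ball x r) ≤ 11 * (∫ z in ball x r, bb (fderiv ℝ g z)) +
      105 / 100 * mu g (ball (x + t) (r + t * (7 / 10))) := by
  have hr0 : 0 < r := by linarith
  set T : Set ℂ := ball (x + (t : ℂ)) (r + t * (7 / 10)) with hT
  set S : Set ℂ := {ξ : ℂ | x + r * ξ ∈ T} with hS
  have hSm : MeasurableSet S := by
    have : Continuous fun ξ : ℂ => x + r * ξ := by fun_prop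
    exact (isOpen_ball.preimage this).measurableSet
  have hcf := hg.continuous_fderiv
  have hcb := hg.continuous_bb_fderiv
  have i1 : IntegrableOn (fun ξ : ℂ => ‖fderiv ℝ g (x + r * ξ)‖) (ball 0 1) :=
    integrableOn_disc (by fun_prop)
  have i2 : IntegrableOn (fun ξ : ℂ => bb (fderiv ℝ g (x + r * ξ))) (ball 0 1) :=
    integrableOn_disc (hcb.comp (by fun_prop))
  have i3 : IntegrableOn (fun ξ : ℂ => fderiv ℝ g (x + r * ξ) ξ) (ball 0 1) :=
    integrableOn_disc (by fun_prop)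
  have i4 : IntegrableOn (fun ξ : ℂ => T.indicator (fun z => ‖fderiv ℝ g z‖) (x + r * ξ))
      (ball 0 1) := by
    have : (fun ξ : ℂ => T.indicator (fun z => ‖fderiv ℝ g z‖) (x + r * ξ)) =
      S.indicator fun ξ : ℂ => ‖fderiv ℝ g (x + r * ξ)‖ := rfl
    rw [this]
    exact i1.indicator hSm
  have hpt : ∀ ξ ∈ ball (0 : ℂ) 1, fderiv ℝ g (x + r * ξ) ξ ≤
      -(5 / 100) * ‖fderiv ℝ g (x + r * ξ)‖ + 11 * bb (fderiv ℝ g (x + r * ξ)) +
      105 / 100 * T.indicator (fun z => ‖fderiv ℝ g z‖) (x + r * ξ) := by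
    intro ξ hξ
    have hξ1 : ‖ξ‖ ≤ 1 := (mem_ball_zero_iff.mp hξ).le
    have hb0 := bb_nonneg (fderiv ℝ g (x + r * ξ))
    have hn := norm_nonneg (fderiv ℝ g (x + r * ξ))
    by_cases hm : x + r * ξ ∈ T
    · rw [indicator_of_mem hm]
      have := (abs_le.1 (abs_apply_le (fderiv ℝ g (x + r * ξ)) hξ1)).2
      linarith
    · rw [indicator_of_notMem hm, mul_zero, add_zero]
      exact apply_le_of_re_le _ hξ1 (uncovered ht htb hr hξ1 hm)
  have hint := setIntegral_mono_on i3 (((i1.const_mul (-(5 / 100))).add (i2.const_mul 11)).add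
    (i4.const_mul (105 / 100))) measurableSet_ball hpt
  rw [hopt, integral_add' ((i1.const_mul (-(5 / 100))).add (i2.const_mul 11))
    (i4.const_mul (105 / 100)), integral_add' (i1.const_mul (-(5 / 100))) (i2.const_mul 11),
    integral_const_mul, integral_const_mul, integral_const_mul] at hint
  have c1 := disc_avg_eq (fun z => ‖fderiv ℝ g z‖) hr0 x
  have c2 := disc_avg_eq (fun z => bb (fderiv ℝ g z)) hr0 x
  have c3 := disc_avg_eq (T.indicator (fun z => ‖fderiv ℝ g z‖)) hr0 x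
  rw [c1, c2, c3, smul_eq_mul, smul_eq_mul, smul_eq_mul] at hint
  have d1 : ∫ z in ball x r, T.indicator (fun z => ‖fderiv ℝ g z‖) z ≤ mu g T := by
    rw [setIntegral_indicator measurableSet_ball]
    exact mu_mono hg inter_subset_right
  have hr2 : 0 < (r ^ 2)⁻¹ := by positivity
  have d3 : 0 ≤ (r ^ 2)⁻¹ * (-(5 / 100) * mu g (ball x r) +
      11 * (∫ z in ball x r, bb (fderiv ℝ g z)) + 105 / 100 * ∫ z in ball x r,
      T.indicator (fun z => ‖fderiv ℝ g z‖) z) := by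
    have e1 : (r ^ 2)⁻¹ * (-(5 / 100) * mu g (ball x r) +
      11 * (∫ z in ball x r, bb (fderiv ℝ g z)) + 105 / 100 * ∫ z in ball x r,
      T.indicator (fun z => ‖fderiv ℝ g z‖) z) =
      -(5 / 100) * ((r ^ 2)⁻¹ * ∫ z in ball x r, ‖fderiv ℝ g z‖) +
      11 * ((r ^ 2)⁻¹ * ∫ z in ball x r, bb (fderiv ℝ g z)) +
      105 / 100 * ((r ^ 2)⁻¹ * ∫ z in ball x r, T.indicator (fun z => ‖fderiv ℝ g z‖) z) := by
      unfold mu; ring
    rw [e1]; exact hint
  have d4 := nonneg_of_mul_nonneg_right d3 hr2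
  linarith

theorem norm_sub_add_le {z x : ℂ} (t : ℝ) : ‖z - (x + t)‖ ≤ ‖z - x‖ + |t| := by
  have : z - (x + t) = (z - x) - (t : ℂ) := by ring
  rw [this]
  refine (norm_sub_le _ _).trans ?_
  rw [Complex.norm_real, Real.norm_eq_abs]

theorem norm_sub_le_add {z x : ℂ} (t : ℝ) : ‖z - x‖ ≤ ‖z - (x + t)‖ + |t| := by
  have : z - x = (z - (x + t)) + (t : ℂ) := by ring
  rw [this]
  refine (norm_add_le _ _).trans ?_
  rw [Complex.norm_real, Real.norm_eq_abs]

namespace Peak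

variable {g : ℂ → ℝ} {τ d : ℝ} {x : ℂ} {Δ a b r : ℝ}

theorem a_pos (h : Peak g τ d x Δ a b r) : 0 < a := by linarith [h.ha1, h.hd]
theorem b_pos (h : Peak g τ d x Δ a b r) : 0 < b := by linarith [h.hb1, h.hd]
theorem r_ge (h : Peak g τ d x Δ a b r) : 1 ≤ r := h.hτ.trans h.hr1
theorem r_le (h : Peak g τ d x Δ a b r) : r ≤ 8 := by linarith [h.hr2, h.hτ']
theorem a_le (h : Peak g τ d x Δ a b r) : a ≤ 3 / 64 := by linarith [h.ha2, h.hd']
theorem b_le (h : Peak g τ d x Δ a b r) : b ≤ 3 / 64 := by linarith [h.hb2, h.hd']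

theorem Aq (h : Peak g τ d x Δ a b r) {ρ : ℝ} (h1 : τ ≤ ρ) (h2 : ρ ≤ 4 * τ) :
    A g ρ (x + b) ≤ A g r x - Δ := by
  rw [h.hr]
  exact (A_le_U' h.hg (by linarith [h.hτ]) h1 h2 _).trans h.hq

theorem Ap (h : Peak g τ d x Δ a b r) {ρ : ℝ} (h1 : τ ≤ ρ) (h2 : ρ ≤ 4 * τ) :
    A g ρ (x - a) ≤ A g r x - Δ := by
  rw [h.hr]
  exact (A_le_U' h.hg (by linarith [h.hτ]) h1 h2 _).trans h.hp

theorem vb0 (h : Peak g τ d x Δ a b r) :
    Δ / d ≤ BB g ∧ 9 / 10 * mu g (ball x (r - 3 * d)) ≤ BB g := by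
  have hq := h.Aq (ρ := r + b * 0) (by linarith [h.hr1]) (by linarith [h.hr2])
  obtain ⟨t, ht, h1⟩ := path_mvt h.hg le_rfl h.b_pos (by linarith [h.r_ge]) hq
  simp only [mul_zero, add_zero, sub_zero] at h1
  have ht1 : |t| ≤ 1 := abs_le.2 ⟨by linarith [ht.1], by linarith [ht.2, h.b_le]⟩
  have h2 := setIntegral_bb_le h.hg (ball_sub_forty h.hx ht1 (by linarith [h.r_le] : r ≤ 20))
  have h3 := h1.trans h2
  have hb := h.b_pos
  have hd := h.hd
  have h4 : 0 ≤ Real.pi * r ^ 2 * (Δ / b) := by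
    have := h.hΔ; positivity
  have h5 := mu_nonneg g (ball (x + t) r)
  have h6 : Δ / d ≤ Real.pi * r ^ 2 * (Δ / b) := by
    have h7 : Δ / d ≤ 3 * (Δ / b) := by
      rw [div_le_iff₀ hd, mul_assoc, div_mul_eq_mul_div, ← mul_div_assoc, le_div_iff₀ hb]
      have := mul_le_mul_of_nonneg_left h.hb2 h.hΔ.le
      linarith
    have h8 : 3 ≤ Real.pi * r ^ 2 := by
      have := Real.pi_gt_three
      nlinarith [h.r_ge]
    have h9 : 0 ≤ Δ / b := by have := h.hΔ; positivity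
    nlinarith
  constructor
  · linarith
  · have h7 : mu g (ball x (r - 3 * d)) ≤ mu g (ball (x + t) r) := by
      apply mu_mono h.hg
      intro z hz
      rw [mem_ball, dist_eq_norm] at hz ⊢
      have : ‖z - (x + t)‖ ≤ ‖z - x‖ + |t| := by
        have : z - (x + t) = (z - x) - (t : ℂ) := by ring
        rw [this]
        refine (norm_sub_le _ _).trans ?_
        rw [Complex.norm_real, Real.norm_eq_abs]
      have h8 : |t| < 3 * d := abs_lt.2 ⟨by linarith [ht.1], by linarith [ht.2, h.hb2]⟩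
      linarith
    linarith

theorem lsd (h : Peak g τ d x Δ a b r) :
    2 * (Δ / d) ≤ mu g (closedBall x (r + 3 * d) \ ball x (r - 3 * d)) := by
  have ha := h.a_pos
  have hb := h.b_pos
  have hd := h.hd
  have hΔ := h.hΔ
  have hr : 0 < r := by linarith [h.r_ge]
  set f : ℝ → ℝ := fun t => A g r (x + t) with hf
  have hder := fun t : ℝ => hasDerivAt_A_line h.hg x hr t
  obtain ⟨t₂, ht₂, e₂⟩ := exists_hasDerivAt_eq_slope f _ hb
    (fun t _ => (hder t).continuousAt.continuousWithinAt) (fun t _ => hder t)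
  obtain ⟨t₁, ht₁, e₁⟩ := exists_hasDerivAt_eq_slope f _ (neg_lt_zero.2 ha)
    (fun t _ => (hder t).continuousAt.continuousWithinAt) (fun t _ => hder t)
  have hf0 : f 0 = A g r x := by simp [hf]
  have hfb : f b ≤ A g r x - Δ := h.Aq h.hr1 h.hr2
  have hfa : f (-a) ≤ A g r x - Δ := by
    have := h.Ap h.hr1 h.hr2
    simp only [hf, Complex.ofReal_neg, ← sub_eq_add_neg]
    exact this
  have h₂ : (f b - f 0) / (b - 0) ≤ -(Δ / (3 * d)) := by
    rw [sub_zero, ← neg_div, div_le_div_iff₀ hb (by positivity)]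
    have : Δ * b ≤ Δ * (3 * d) := mul_le_mul_of_nonneg_left h.hb2 hΔ.le
    have h3 : (f b - f 0) * (3 * d) ≤ (-Δ) * (3 * d) :=
      mul_le_mul_of_nonneg_right (by linarith) (by positivity)
    linarith
  have h₁ : Δ / (3 * d) ≤ (f 0 - f (-a)) / (0 - (-a)) := by
    rw [zero_sub, neg_neg, div_le_div_iff₀ (by positivity) ha]
    have : Δ * a ≤ Δ * (3 * d) := mul_le_mul_of_nonneg_left h.ha2 hΔ.le
    have h3 : Δ * (3 * d) ≤ (f 0 - f (-a)) * (3 * d) :=
      mul_le_mul_of_nonneg_right (by linarith) (by positivity)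
    linarith
  rw [← e₂] at h₂
  rw [← e₁] at h₁
  have hk : Integrable (fun z => fderiv ℝ g z 1) := by
    refine h.hg.integrable_norm.mono' ?_ (Eventually.of_forall fun z => ?_)
    · have := h.hg.continuous_fderiv
      exact Continuous.aestronglyMeasurable (by fun_prop)
    · rw [Real.norm_eq_abs]; exact abs_apply_one_le _
  have ht1 : |t₁| ≤ 3 * d := abs_le.2 ⟨by linarith [ht₁.1, h.ha2], by linarith [ht₁.2]⟩
  have ht2 : |t₂| ≤ 3 * d := abs_le.2 ⟨by linarith [ht₂.1], by linarith [ht₂.2, h.hb2]⟩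
  have hin : ∀ t : ℝ, |t| ≤ 3 * d → ball x (r - 3 * d) ⊆ ball (x + t) r := by
    intro t ht z hz
    rw [mem_ball, dist_eq_norm] at hz ⊢
    have := norm_sub_add_le (z := z) (x := x) t
    linarith
  have hout : ∀ t : ℝ, |t| ≤ 3 * d → ball (x + t) r ⊆ closedBall x (r + 3 * d) := by
    intro t ht z hz
    rw [mem_ball, dist_eq_norm] at hz
    rw [mem_closedBall, dist_eq_norm]
    have := norm_sub_le_add (z := z) (x := x) t
    linarith
  have key := setIntegral_sub_le hk h.hg.integrable_norm (fun z => abs_apply_one_le _)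
    (S₁ := ball (x + t₁) r) (S₂ := ball (x + t₂) r) (C := ball x (r - 3 * d))
    (D := closedBall x (r + 3 * d)) measurableSet_ball measurableSet_ball measurableSet_ball
    measurableSet_closedBall (hin _ ht1) (hin _ ht2) (hout _ ht1) (hout _ ht2)
  have hpi := Real.pi_gt_three
  have h3 : 2 * (Δ / (3 * d)) ≤ 1 / (Real.pi * r ^ 2) *
      ((∫ z in ball (x + t₁) r, fderiv ℝ g z 1) - ∫ z in ball (x + t₂) r, fderiv ℝ g z 1) := by
    rw [mul_sub]; linarith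
  have hS : 0 < Real.pi * r ^ 2 := by positivity
  have h4 : 2 * (Δ / (3 * d)) * (Real.pi * r ^ 2) ≤
      (∫ z in ball (x + t₁) r, fderiv ℝ g z 1) - ∫ z in ball (x + t₂) r, fderiv ℝ g z 1 := by
    rw [← le_div_iff₀ hS]
    rw [one_div, ← div_eq_inv_mul] at h3
    exact h3
  refine le_trans ?_ (h4.trans key)
  have h5 : 3 ≤ Real.pi * r ^ 2 := by nlinarith [h.r_ge]
  have h6 : Δ / (3 * d) = Δ / d / 3 := by field_simp
  have h7 : 0 ≤ Δ / d := by positivity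
  rw [h6]
  nlinarith

/-- interior maximiser: first order optimality -/
theorem opt (h : Peak g τ d x Δ a b r) (h1 : τ + 6 * d ≤ r) (h2 : r ≤ 4 * τ - 6 * d) :
    ∫ ξ in ball (0 : ℂ) 1, fderiv ℝ g (x + r * ξ) ξ = 0 := by
  have hd := h.hd
  have hder := hasDerivAt_A_path h.hg x 0 0 1 r
  simp only [mul_zero, add_zero, mul_one, zero_add, Complex.ofReal_one, one_mul] at hder
  have hmax : IsLocalMax (fun t => A g t x) r := by
    have h3 : ∀ᶠ t in 𝓝 r, t ∈ Ioo τ (4 * τ) := Ioo_mem_nhds (by linarith) (by linarith)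
    filter_upwards [h3] with t ht
    rw [h.hr]
    exact A_le_U' h.hg (by linarith [h.hτ]) ht.1.le ht.2.le x
  have h3 := hmax.hasDerivAt_eq_zero hder
  have hpi : (1 / Real.pi) ≠ 0 := by positivity
  exact (mul_eq_zero.1 h3).resolve_left hpi

theorem int_bound (h : Peak g τ d x Δ a b r) (h1 : τ + 6 * d ≤ r) (h2 : r ≤ 4 * τ - 6 * d) :
    mu g (ball x r) ≤ 325 * BB g := by
  have hd := h.hd
  have hr0 : 0 < r := by linarith [h.r_ge]
  have hb0 := h.b_pos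
  have hb2 := h.hb2
  have hq := h.Aq (ρ := r + b * (7 / 10)) (by linarith) (by linarith)
  obtain ⟨t, ht, h3⟩ := path_mvt h.hg (by norm_num) h.b_pos hr0 hq
  have htb : t ≤ 3 / 64 := ht.2.le.trans h.b_le
  have ht1 : |t| ≤ 1 := abs_le.2 ⟨by linarith [ht.1], by linarith⟩
  have h4 := setIntegral_bb_le h.hg (ball_sub_forty h.hx ht1
    (by linarith [h.r_le] : r + t * (7 / 10) ≤ 20))
  have h5 : 0 ≤ Real.pi * (r + t * (7 / 10)) ^ 2 * (Δ / b) := by
    have := h.hΔ; have := h.b_pos; positivity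
  have h6 : mu g (ball (x + t) (r + t * (7 / 10))) ≤ 5 * BB g := by linarith
  have h7 := mu_le_of_opt h.hg h.r_ge ht.1 htb (h.opt h1 h2)
  have hx0 : ball x r ⊆ ball (0 : ℂ) 40 := by
    have := ball_sub_forty (x := x) h.hx (t := 0) (ρ := r) (by simp) (by linarith [h.r_le])
    simpa using this
  have d2 := setIntegral_bb_le h.hg hx0
  linarith

/-- truncated mass -/
noncomputable def _root_.Crest.Agent.R112.phit (g : ℂ → ℝ) (x : ℂ) (t : ℝ) : ℝ :=
  min (mu g (ball x t)) (3 * BB g)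

theorem cut_aux (h : Peak g τ d x Δ a b r) {t : ℝ} (h1 : t - 6 * d ≤ r) (h2 : r < t + 6 * d) :
    Δ / d ≤ phit g x (t + 9 * d) - phit g x (t - 9 * d) := by
  have hd := h.hd
  have hl := h.lsd
  have hv := h.vb0
  have hB := BB_nonneg g
  have h3 : closedBall x (r + 3 * d) \ ball x (r - 3 * d) ⊆
      ball x (t + 9 * d) \ ball x (t - 9 * d) := by
    rintro z ⟨hz1, hz2⟩
    rw [mem_closedBall] at hz1
    rw [mem_ball, not_lt] at hz2
    refine ⟨?_, ?_⟩
    · rw [mem_ball]; linarith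
    · rw [mem_ball, not_lt]; linarith
  have h4 := mu_mono h.hg h3
  have h5 : ball x (t - 9 * d) ⊆ ball x (t + 9 * d) := ball_subset_ball (by linarith)
  rw [mu_sdiff h.hg measurableSet_ball h5] at h4
  have h6 : mu g (ball x (t - 9 * d)) ≤ mu g (ball x (r - 3 * d)) :=
    mu_mono h.hg (ball_subset_ball (by linarith))
  have h7 : 0 < Δ / d := div_pos h.hΔ hd
  have h8 : phit g x (t - 9 * d) ≤ mu g (ball x (t - 9 * d)) := min_le_left _ _
  unfold phit at *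
  rcases le_total (mu g (ball x (t + 9 * d))) (3 * BB g) with h9 | h9
  · rw [min_eq_left h9]; linarith
  · rw [min_eq_right h9]; linarith [hv.1, hv.2]

theorem phit_mono (hg : Nice g) {s t : ℝ} (hst : s ≤ t) : phit g x s ≤ phit g x t :=
  min_le_min (mu_mono hg (ball_subset_ball hst)) le_rfl

/-- **CUT** -/
theorem cut_bound (h : Peak g τ d x Δ a b r) (hr : r < τ + 6 * d ∨ 4 * τ - 6 * d < r) :
    Δ / d ≤ (phit g x (τ + 9 * d) - phit g x (τ - 9 * d)) +
      (phit g x (4 * τ + 9 * d) - phit g x (4 * τ - 9 * d)) := by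
  have hd := h.hd
  have h1 := phit_mono (x := x) h.hg (s := τ - 9 * d) (t := τ + 9 * d) (by linarith)
  have h2 := phit_mono (x := x) h.hg (s := 4 * τ - 9 * d) (t := 4 * τ + 9 * d) (by linarith)
  rcases hr with hr | hr
  · have := h.cut_aux (t := τ) (by linarith [h.hr1]) hr
    linarith
  · have := h.cut_aux (t := 4 * τ) (by linarith) (by linarith [h.hr2])
    linarith

end Peak

end Crest.Agent.R112
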