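import Mathlib
import Crest.Agent.R112.KPeak
import Crest.Agent.R112.KCore2

/-!
# Row 112 (S0147): summation over separated peaks on a line
-/

set_option autoImplicit false

namespace Crest.Agent.R112

open MeasureTheory Metric Set Filter Topology

/-- combinatorial lemma: intervals `[l i, l i + η X i] ⊆ [0, M]` with
`∑_{i : m ∈ J_i} X_i ≤ K` for every `m`: then `∑ X_i² ≤ K M / η` -/
theorem ksum_sq_le {ι : Type*} (I : Finset ι) (X l : ι → ℝ) {η M K : ℝ} (hη : 0 < η) (hM : 0 ≤ M)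
    (hX : ∀ i ∈ I, 0 ≤ X i) (hl : ∀ i ∈ I, 0 ≤ l i) (hlM : ∀ i ∈ I, l i + η * X i ≤ M)
    (hK : ∀ m ∈ Icc 0 M, ∑ i ∈ I, (Icc (l i) (l i + η * X i)).indicator (fun _ => X i) m ≤ K) :
    ∑ i ∈ I, X i ^ 2 ≤ K * M / η := by
  have h1 : ∀ i ∈ I, IntegrableOn (fun m => (Icc (l i) (l i + η * X i)).indicator
      (fun _ => X i) m) (Icc 0 M) := by
    intro i _
    exact (integrableOn_const (by simp) (by simp)).indicator measurableSet_Icc
  have h2 : ∫ m in Icc 0 M, ∑ i ∈ I, (Icc (l i) (l i + η * X i)).indicator (fun _ => X i) m ≤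
      ∫ m in Icc 0 M, K := by
    apply setIntegral_mono_on (integrable_finsetSum _ h1) (integrableOn_const (by simp) (by simp))
      measurableSet_Icc hK
  rw [integral_finsetSum _ h1, setIntegral_const, smul_eq_mul, Measure.real, Real.volume_Icc,
    ENNReal.toReal_ofReal (by linarith), sub_zero] at h2
  have h3 : ∀ i ∈ I, ∫ m in Icc 0 M, (Icc (l i) (l i + η * X i)).indicator (fun _ => X i) m =
      η * X i ^ 2 := by
    intro i hi
    rw [setIntegral_indicator measurableSet_Icc, inter_eq_right.2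
      (Icc_subset_Icc (hl i hi) (hlM i hi)), setIntegral_const, smul_eq_mul, Measure.real,
      Real.volume_Icc, ENNReal.toReal_ofReal]
    · ring
    · have := mul_nonneg hη.le (hX i hi)
      linarith
  rw [Finset.sum_congr rfl h3, ← Finset.mul_sum] at h2
  rw [le_div_iff₀ hη]
  linarith

/-- telescoping along an increasing chain -/
theorem ksum_telescope_le (s : Finset ℕ) (P Q : ℕ → ℝ) {L : ℝ} (hPQ : ∀ k ∈ s, L ≤ P k)
    (hQP : ∀ k ∈ s, ∀ k' ∈ s, k < k' → Q k ≤ P k') :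
    ∀ H, L ≤ H → (∀ k ∈ s, Q k ≤ H) → ∑ k ∈ s, (Q k - P k) ≤ H - L := by
  induction s using Finset.induction_on_max with
  | empty =>
    intro H hH _
    simpa using hH
  | insert a s ha ih =>
    intro H hH hQ
    rw [Finset.sum_insert (fun h => lt_irrefl _ (ha a h))]
    have h1 := ih (fun k hk => hPQ k (Finset.mem_insert_of_mem hk))
      (fun k hk k' hk' => hQP k (Finset.mem_insert_of_mem hk) k' (Finset.mem_insert_of_mem hk'))
      (P a) (hPQ a (Finset.mem_insert_self _ _))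
      (fun k hk => hQP k (Finset.mem_insert_of_mem hk) a (Finset.mem_insert_self _ _) (ha k hk))
    have h2 := hQ a (Finset.mem_insert_self _ _)
    linarith

/-- number of indices in an arithmetic progression in an interval -/
theorem ksum_card_le {s : Finset ℕ} {s₀ δ A B : ℝ} (hδ : 0 < δ) (hAB : A ≤ B)
    (h : ∀ i ∈ s, s₀ + δ * i ∈ Icc A B) : (s.card : ℝ) ≤ (B - A) / δ + 1 := by
  rcases s.eq_empty_or_nonempty with rfl | hne
  · have : 0 ≤ (B - A) / δ := div_nonneg (by linarith) hδ.le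
    simp; linarith
  · set i₀ := s.min' hne with hi₀
    have h1 : s ⊆ Finset.Icc i₀ (i₀ + ⌊(B - A) / δ⌋₊) := by
      intro i hi
      have h2 : i₀ ≤ i := s.min'_le i hi
      rw [Finset.mem_Icc]
      refine ⟨h2, ?_⟩
      have h3 := h i hi
      have h4 := h i₀ (s.min'_mem hne)
      have h5 : ((i - i₀ : ℕ) : ℝ) ≤ (B - A) / δ := by
        rw [le_div_iff₀ hδ, Nat.cast_sub h2]
        have := h3.2
        have := h4.1
        nlinarith
      have h6 := Nat.le_floor h5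
      omega
    have h2 := Finset.card_le_card h1
    rw [Nat.card_Icc] at h2
    have h3 : (⌊(B - A) / δ⌋₊ : ℝ) ≤ (B - A) / δ :=
      Nat.floor_le (div_nonneg (by linarith) hδ.le)
    have h4 : s.card ≤ ⌊(B - A) / δ⌋₊ + 1 := by omega
    have h5 : (s.card : ℝ) ≤ ⌊(B - A) / δ⌋₊ + 1 := by exact_mod_cast h4
    linarith

theorem mu_closedBall {g : ℂ → ℝ} (x : ℂ) {ρ : ℝ} (hρ : ρ ≠ 0) :
    mu g (closedBall x ρ) = mu g (ball x ρ) := by
  apply setIntegral_congr_set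
  have h1 : volume (sphere x ρ) = 0 := Measure.addHaar_sphere_of_ne_zero volume x hρ
  rw [← ball_union_sphere]
  exact union_ae_eq_left_of_ae_eq_empty (measure_eq_zero_iff_ae_notMem.1 h1 |> fun h => by
    filter_upwards [h] with z hz
    exact propext ⟨fun h' => absurd h' hz, fun h' => absurd h' (by exact id)⟩)

/-- The output of the K lemma. -/
def KMainStmt (C₁ C₂ : ℝ) : Prop :=
  ∀ (g : ℂ → ℝ) (τ d : ℝ) (x : ℂ) (Δ a b r m ρ₀ : ℝ), Peak g τ d x Δ a b r →
    τ + 6 * d ≤ r → r ≤ 4 * τ - 6 * d → |ρ₀ - r| ≤ 3 * d → mass g x ρ₀ = m →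
    |m - mass g x r| ≤ 1 / 200 * (Δ / d) →
    ∃ ρp ρq : ℝ, ρp ∈ Icc (1 : ℝ) 8 ∧ ρq ∈ Icc (1 : ℝ) 8 ∧ mass g (x - a) ρp = m ∧
      mass g (x + b) ρq = m ∧
      Δ / d ≤ C₁ * d * m + C₂ * (beta g (x + b) ρq - beta g (x - a) ρp)

/-- the `i`-th point on the line -/
noncomputable def xi (s₀ d y : ℝ) (i : ℕ) : ℂ := ⟨s₀ + 16 * d * i, y⟩

/-- for fixed `m`: the sum over the peaks on the line with `m ∈ J_x` -/
theorem k_sum_fixed {C₁ C₂ : ℝ} (hC₁ : 0 ≤ C₁) (hC₂ : 0 ≤ C₂) (hK : KMainStmt C₁ C₂) {g : ℂ → ℝ}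
    {τ d s₀ y m : ℝ} (hd : 0 < d) (hd' : d ≤ 1 / 64) (hg : Nice g) (hm0 : 0 ≤ m) (I : Finset ℕ)
    (Δ a b r : ℕ → ℝ) (hI : ∀ i ∈ I, s₀ + 16 * d * i ∈ Icc (-3 : ℝ) 17)
    (hP : ∀ i ∈ I, Peak g τ d (xi s₀ d y i) (Δ i) (a i) (b i) (r i) ∧
      τ + 6 * d ≤ r i ∧ r i ≤ 4 * τ - 6 * d)
    (hm : ∀ i ∈ I, ∃ ρ₀, |ρ₀ - r i| ≤ 3 * d ∧ mass g (xi s₀ d y i) ρ₀ = m ∧
      |m - mass g (xi s₀ d y i) (r i)| ≤ 1 / 200 * (Δ i / d)) :
    ∑ i ∈ I, Δ i / d ≤ (2 * C₁ + 38 * C₂) * m := by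
  have key : ∀ i ∈ I, ∃ ρp ρq : ℝ, ρp ∈ Icc (1 : ℝ) 8 ∧ ρq ∈ Icc (1 : ℝ) 8 ∧
      mass g (xi s₀ d y i - a i) ρp = m ∧ mass g (xi s₀ d y i + b i) ρq = m ∧
      Δ i / d ≤ C₁ * d * m +
        C₂ * (beta g (xi s₀ d y i + b i) ρq - beta g (xi s₀ d y i - a i) ρp) := by
    intro i hi
    obtain ⟨ρ₀, h1, h2, h3⟩ := hm i hi
    obtain ⟨h4, h5, h6⟩ := hP i hi
    exact hK g τ d _ _ _ _ _ m ρ₀ h4 h5 h6 h1 h2 h3
  choose! ρp ρq hρp hρq hmp hmq hX using key
  set P : ℕ → ℝ := fun i => beta g (xi s₀ d y i - a i) (ρp i) with hPdef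
  set Q : ℕ → ℝ := fun i => beta g (xi s₀ d y i + b i) (ρq i) with hQdef
  have hPL : ∀ i ∈ I, -12 * m ≤ P i := by
    intro i hi
    have h1 := (hP i hi).1
    have h2 := hI i hi
    have h3 := (beta_bound hg.1 (y := xi s₀ d y i - a i) (ρ := ρp i) (lo := -12)
      (hi := (xi s₀ d y i - a i).re + ρp i) ?_ le_rfl).1
    · rw [hmp i hi] at h3
      exact h3
    · simp only [xi, Complex.sub_re, Complex.ofReal_re]
      linarith [h2.1, h1.a_le, (hρp i hi).2]
  have hQH : ∀ i ∈ I, Q i ≤ 26 * m := by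
    intro i hi
    have h1 := (hP i hi).1
    have h2 := hI i hi
    have h3 := (beta_bound hg.1 (y := xi s₀ d y i + b i) (ρ := ρq i)
      (lo := (xi s₀ d y i + b i).re - ρq i) (hi := 26) le_rfl ?_).2
    · rw [hmq i hi] at h3
      exact h3
    · simp only [xi, Complex.add_re, Complex.ofReal_re]
      linarith [h2.2, h1.b_le, (hρq i hi).2]
  have hQP : ∀ i ∈ I, ∀ j ∈ I, i < j → Q i ≤ P j := by
    intro i hi j hj hij
    have h1 := (hP i hi).1
    have h2 := (hP j hj).1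
    have h3 : (i : ℝ) + 1 ≤ j := by exact_mod_cast hij
    have h4 : 0 < 16 * d * (j - i) - a j - b i := by
      have := h1.hb2
      have := h2.ha2
      nlinarith
    have h5 : xi s₀ d y j - a j = (xi s₀ d y i + b i) +
        ((16 * d * (j - i) - a j - b i : ℝ) : ℂ) := by
      apply Complex.ext
      · simp only [xi, Complex.sub_re, Complex.add_re, Complex.ofReal_re]; ring
      · simp only [xi, Complex.sub_im, Complex.add_im, Complex.ofReal_im]; ring
    simp only [hPdef, hQdef]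
    rw [h5]
    apply beta_mono hg.1 h4 (by linarith [(hρq i hi).1]) (by linarith [(hρp j hj).1])
    rw [← h5, hmp j hj, hmq i hi]
  have htel := ksum_telescope_le I P Q (L := -12 * m) hPL hQP (26 * m) (by linarith) hQH
  have hcard := ksum_card_le (s := I) (s₀ := s₀) (δ := 16 * d) (A := -3) (B := 17)
    (by linarith) (by norm_num) hI
  have h1 : ∑ i ∈ I, Δ i / d ≤ ∑ i ∈ I, (C₁ * d * m + C₂ * (Q i - P i)) :=
    Finset.sum_le_sum hX
  rw [Finset.sum_add_distrib, Finset.sum_const, nsmul_eq_mul, ← Finset.mul_sum] at h1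
  have h2 : (I.card : ℝ) * d ≤ 2 := by
    have h3 : (I.card : ℝ) * d ≤ ((17 - -3) / (16 * d) + 1) * d :=
      mul_le_mul_of_nonneg_right hcard hd.le
    have h4 : ((17 - -3) / (16 * d) + 1) * d = 20 / 16 + d := by
      field_simp; ring
    linarith
  have h5 : (I.card : ℝ) * (C₁ * d * m) ≤ 2 * C₁ * m := by
    have : (I.card : ℝ) * (C₁ * d * m) = (I.card : ℝ) * d * (C₁ * m) := by ring
    rw [this]
    have := mul_le_mul_of_nonneg_right h2 (mul_nonneg hC₁ hm0)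
    linarith
  have h6 : C₂ * ∑ i ∈ I, (Q i - P i) ≤ C₂ * (38 * m) :=
    mul_le_mul_of_nonneg_left (by linarith) hC₂
  linarith

/-- the side where the mass is -/
theorem Peak.sides {g : ℂ → ℝ} {τ d : ℝ} {x : ℂ} {Δ a b r : ℝ} (h : Peak g τ d x Δ a b r) :
    Δ / d ≤ mass g x r - mass g x (r - 3 * d) ∨ Δ / d ≤ mass g x (r + 3 * d) - mass g x r := by
  have hd := h.hd
  have hr := h.r_ge
  have h1 := h.lsd
  have h2 : ball x (r - 3 * d) ⊆ closedBall x (r + 3 * d) :=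
    ball_subset_closedBall.trans (closedBall_subset_closedBall (by linarith))
  rw [mu_sdiff h.hg measurableSet_ball h2, mu_closedBall x (by linarith)] at h1
  have e1 : mu g (ball x (r + 3 * d)) = mass g x (r + 3 * d) := rfl
  have e2 : mu g (ball x (r - 3 * d)) = mass g x (r - 3 * d) := rfl
  rw [e1, e2] at h1
  by_contra hcon
  push Not at hcon
  linarith [hcon.1, hcon.2]

/-- sum over separated interior peaks on a line -/
theorem k_sum {C₁ C₂ : ℝ} (hC₁ : 0 ≤ C₁) (hC₂ : 0 ≤ C₂) (hK : KMainStmt C₁ C₂) {g : ℂ → ℝ}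
    {τ d s₀ y : ℝ} (hd : 0 < d) (hd' : d ≤ 1 / 64) (hg : Nice g) (I : Finset ℕ)
    (Δ a b r : ℕ → ℝ) (hI : ∀ i ∈ I, s₀ + 16 * d * i ∈ Icc (-3 : ℝ) 17)
    (hP : ∀ i ∈ I, Peak g τ d (xi s₀ d y i) (Δ i) (a i) (b i) (r i) ∧
      τ + 6 * d ≤ r i ∧ r i ≤ 4 * τ - 6 * d) :
    ∑ i ∈ I, Δ i ≤ Real.sqrt (2 * ((2 * C₁ + 38 * C₂) * 326 ^ 2 * 200)) * Real.sqrt d * BB g := by
  classical
  have hB := BB_nonneg g
  set X : ℕ → ℝ := fun i => Δ i / d with hX
  set M : ℕ → ℝ := fun i => mass g (xi s₀ d y i) (r i) with hM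
  have hX0 : ∀ i ∈ I, 0 < X i := fun i hi => div_pos (hP i hi).1.hΔ hd
  have hXB : ∀ i ∈ I, X i ≤ BB g := fun i hi => (hP i hi).1.vb0.1
  have hMB : ∀ i ∈ I, M i ≤ 325 * BB g := fun i hi =>
    (hP i hi).1.int_bound (hP i hi).2.1 (hP i hi).2.2
  set l : ℕ → ℝ := fun i =>
    if X i ≤ M i - mass g (xi s₀ d y i) (r i - 3 * d) then M i - 1 / 200 * X i else M i with hl
  have hl0 : ∀ i ∈ I, 0 ≤ l i := by
    intro i hi
    have h1 := hX0 i hi
    have h2 : 0 ≤ mass g (xi s₀ d y i) (r i - 3 * d) := mass_nonneg _ _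
    have h3 : 0 ≤ M i := mass_nonneg _ _
    simp only [hl]
    split_ifs with h
    · linarith
    · exact h3
  have hlM : ∀ i ∈ I, l i + 1 / 200 * X i ≤ 326 * BB g := by
    intro i hi
    have h1 := hX0 i hi
    have h2 := hXB i hi
    have h3 := hMB i hi
    simp only [hl]
    split_ifs with h <;> linarith
  have hlm : ∀ i ∈ I, ∀ m ∈ Icc (l i) (l i + 1 / 200 * X i),
      ∃ ρ₀, |ρ₀ - r i| ≤ 3 * d ∧ mass g (xi s₀ d y i) ρ₀ = m ∧
      |m - mass g (xi s₀ d y i) (r i)| ≤ 1 / 200 * (Δ i / d) := by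
    intro i hi m hm
    have h1 := hX0 i hi
    have hr := (hP i hi).1.r_ge
    have hs := (hP i hi).1.sides
    simp only [hl] at hm
    split_ifs at hm with h
    · obtain ⟨ρ₀, h2, h3⟩ := exists_radius hg.1 (xi s₀ d y i) (ρ₁ := r i - 3 * d) (ρ₂ := r i)
        (m := m) (by linarith) (by linarith) (by linarith [hm.1])
        (by have := hm.2; simp only [hM] at this ⊢; linarith)
      refine ⟨ρ₀, ?_, h3, ?_⟩
      · rw [abs_le]; constructor <;> linarith [h2.1, h2.2]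
      · rw [abs_le]
        have h4 := hm.1
        have h5 := hm.2
        simp only [hM, hX] at h4 h5
        constructor <;> linarith
    · have h6 : X i ≤ mass g (xi s₀ d y i) (r i + 3 * d) - M i := by
        rcases hs with h7 | h7
        · exact absurd h7 h
        · exact h7
      obtain ⟨ρ₀, h2, h3⟩ := exists_radius hg.1 (xi s₀ d y i) (ρ₁ := r i) (ρ₂ := r i + 3 * d)
        (m := m) (by linarith) (by linarith) hm.1 (by linarith [hm.2])
      refine ⟨ρ₀, ?_, h3, ?_⟩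
      · rw [abs_le]; constructor <;> linarith [h2.1, h2.2]
      · rw [abs_le]
        have h4 := hm.1
        have h5 := hm.2
        simp only [hM, hX] at h4 h5
        constructor <;> linarith
  have hsq := ksum_sq_le I X l (η := 1 / 200) (M := 326 * BB g)
    (K := (2 * C₁ + 38 * C₂) * (326 * BB g)) (by norm_num) (by positivity)
    (fun i hi => (hX0 i hi).le) hl0 hlM ?_
  swap
  · intro m hm
    have h1 : ∑ i ∈ I, (Icc (l i) (l i + 1 / 200 * X i)).indicator (fun _ => X i) m =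
        ∑ i ∈ I.filter (fun i => m ∈ Icc (l i) (l i + 1 / 200 * X i)), Δ i / d := by
      rw [Finset.sum_filter]
      apply Finset.sum_congr rfl
      intro i _
      by_cases h : m ∈ Icc (l i) (l i + 1 / 200 * X i)
      · rw [indicator_of_mem h, if_pos h]
      · rw [indicator_of_notMem h, if_neg h]
    rw [h1]
    have h2 := k_sum_fixed hC₁ hC₂ hK (s₀ := s₀) (y := y) (m := m) hd hd' hg hm.1
      (I.filter (fun i => m ∈ Icc (l i) (l i + 1 / 200 * X i))) Δ a b r (τ := τ)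
      (fun i hi => hI i (Finset.mem_filter.1 hi).1) (fun i hi => hP i (Finset.mem_filter.1 hi).1)
      (fun i hi => hlm i (Finset.mem_filter.1 hi).1 m (Finset.mem_filter.1 hi).2)
    refine h2.trans ?_
    exact mul_le_mul_of_nonneg_left hm.2 (by positivity)
  set C₃ : ℝ := (2 * C₁ + 38 * C₂) * 326 ^ 2 * 200 with hC₃
  have hC₃0 : 0 ≤ C₃ := by positivity
  have hsq' : ∑ i ∈ I, X i ^ 2 ≤ C₃ * BB g ^ 2 := by
    refine hsq.trans (le_of_eq ?_)
    rw [hC₃]; field_simp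
  have hcard := ksum_card_le (s := I) (s₀ := s₀) (δ := 16 * d) (A := -3) (B := 17)
    (by linarith) (by norm_num) hI
  have hcd : (I.card : ℝ) * d ≤ 2 := by
    have h3 : (I.card : ℝ) * d ≤ ((17 - -3) / (16 * d) + 1) * d :=
      mul_le_mul_of_nonneg_right hcard hd.le
    have h4 : ((17 - -3) / (16 * d) + 1) * d = 20 / 16 + d := by
      field_simp; ring
    linarith
  have hCS := sq_sum_le_card_mul_sum_sq (s := I) (f := X)
  have hsum : ∑ i ∈ I, Δ i = d * ∑ i ∈ I, X i := by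
    rw [Finset.mul_sum]
    apply Finset.sum_congr rfl
    intro i _
    simp only [hX]; field_simp
  have hfin : (∑ i ∈ I, Δ i) ^ 2 ≤ (Real.sqrt (2 * C₃) * Real.sqrt d * BB g) ^ 2 := by
    have e1 : (Real.sqrt (2 * C₃) * Real.sqrt d * BB g) ^ 2 = 2 * C₃ * d * BB g ^ 2 := by
      rw [mul_pow, mul_pow, Real.sq_sqrt (by positivity), Real.sq_sqrt hd.le]
    rw [e1, hsum, mul_pow]
    have e2 : d ^ 2 * (∑ i ∈ I, X i) ^ 2 ≤ d ^ 2 * (I.card * (C₃ * BB g ^ 2)) := by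
      apply mul_le_mul_of_nonneg_left _ (by positivity)
      exact hCS.trans (mul_le_mul_of_nonneg_left hsq' (by positivity))
    have e3 : d ^ 2 * (I.card * (C₃ * BB g ^ 2)) = (I.card * d) * (C₃ * d * BB g ^ 2) := by ring
    have e4 : (I.card * d) * (C₃ * d * BB g ^ 2) ≤ 2 * (C₃ * d * BB g ^ 2) :=
      mul_le_mul_of_nonneg_right hcd (by positivity)
    linarith
  exact le_of_sq_le_sq hfin (by positivity)

end Crest.Agent.R112
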