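import Crest.Agent.R112.UnitPk

/-! R112, section 3, L1: negative derivative of `U f` along horizontal lines. -/

set_option autoImplicit false

namespace Crest.Agent.R112

open MeasureTheory Metric Set Filter Topology

/-- the statement of the K_b proposition with constant `C` -/
def KbProp (C : ℝ) : Prop := ∀ g : ℂ → ℝ, Nice g → ∀ d : ℝ, 0 < d → d ≤ 1 / 64 →
   ∫ τ in (1 : ℝ)..2, ∫ y in (-1 : ℝ)..1, ∫ s in (-3 : ℝ)..17,
    Pk (fun s => U g τ (⟨s, y⟩ : ℂ)) (d / 8) (3 * d) s ≤ C * (d * Real.sqrt d) * BB g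

theorem abs_le_of_mem_Icc {y : ℝ} (hy : y ∈ Icc (-1 : ℝ) 1) : |y| ≤ 1 := abs_le.mpr hy

theorem continuous_line {g : ℂ → ℝ} (hg : Nice g) (τ y : ℝ) :
    Continuous (fun s : ℝ => U g τ ⟨s, y⟩) :=
  (continuous_U_right hg τ).comp (continuous_cmk continuous_id continuous_const)

/-- pointwise comparison of peaks -/
theorem Pk_chain_le {f : ℂ → ℝ} (hf : Nice f) {N j : ℕ} (hj : j ≤ N) {d : ℝ} (hd : 0 < d)
    (hd' : d ≤ 1 / 64) (hjd : 2 * shf N j ≤ d / 8) {τ y s : ℝ} (hτ : τ ∈ Icc (1 : ℝ) 2)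
    (hy : y ∈ Icc (-1 : ℝ) 1) (hs : s ∈ Icc (-2 : ℝ) 16) :
    Pk (fun s => U f τ ⟨s, y⟩) (d / 4) (2 * d) s ≤
      Pk (fun s => U (chain f N j) τ ⟨s, y⟩) (d / 8) (3 * d) (s + shf N j) + 2 * prr f N j := by
  have hS := shf_nonneg N j
  have hS' := shf_le' hj
  apply Pk_le_of_cmp (continuous_line (nice_chain hf N j) τ y) hS (by linarith) (by linarith)
    (by linarith) (prr_nonneg f N j) (by linarith)
  · have h1 := cmp_chain1 hf (N := N) hτ (y := ⟨s, y⟩)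
      (le_trans (norm_mk_le (a := 16) (b := 1) (abs_le.mpr ⟨by linarith [hs.1], hs.2⟩)
        (abs_le_of_mem_Icc hy)) (by norm_num)) j hj
    rw [mk_add_real] at h1
    exact h1
  · intro t ht
    have h2 := abs_le.mp ht
    have h3 : ‖(⟨t - shf N j, y⟩ : ℂ)‖ ≤ 17 + 1 := norm_mk_le
      (abs_le.mpr ⟨by linarith [hs.1, h2.1], by linarith [hs.2, h2.2]⟩) (abs_le_of_mem_Icc hy)
    have h1 := cmp_chain2 hf (N := N) hτ j hj ⟨t - shf N j, y⟩ (by linarith)
    rw [mk_add_real, sub_add_cancel] at h1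
    exact h1

/-- integrated comparison of peaks -/
theorem pk_int_le {C : ℝ} (hK : KbProp C) {f : ℂ → ℝ} (hf : Nice f) {N j : ℕ}
    (hj : j ≤ N) {d : ℝ} (hd : 0 < d) (hd' : d ≤ 1 / 64) (hjd : 2 * shf N j ≤ d / 8) :
    ∫⁻ τ in Icc (1 : ℝ) 2, ∫⁻ y in Icc (-1 : ℝ) 1, ∫⁻ s in Icc (-2 : ℝ) 16,
      ENNReal.ofReal (Pk (fun s => U f τ ⟨s, y⟩) (d / 4) (2 * d) s) ≤
    ENNReal.ofReal (C * (d * Real.sqrt d) * BB (chain f N j)) +
      ENNReal.ofReal (72 * prr f N j) := by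
  set g := chain f N j with hg
  have hng : Nice g := nice_chain hf N j
  have hS := shf_nonneg N j
  have hS' := shf_le' hj
  have hP := prr_nonneg f N j
  have step : ∀ τ ∈ Icc (1 : ℝ) 2, ∀ y ∈ Icc (-1 : ℝ) 1,
      ∫⁻ s in Icc (-2 : ℝ) 16, ENNReal.ofReal (Pk (fun s => U f τ ⟨s, y⟩) (d / 4) (2 * d) s) ≤
      (∫⁻ s in Icc (-3 : ℝ) 17,
        ENNReal.ofReal (Pk (fun s => U g τ ⟨s, y⟩) (d / 8) (3 * d) s)) +
        ENNReal.ofReal (36 * prr f N j) := by
    intro τ hτ y hy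
    calc ∫⁻ s in Icc (-2 : ℝ) 16,
          ENNReal.ofReal (Pk (fun s => U f τ ⟨s, y⟩) (d / 4) (2 * d) s)
        ≤ ∫⁻ s in Icc (-2 : ℝ) 16,
          (ENNReal.ofReal (Pk (fun s => U g τ ⟨s, y⟩) (d / 8) (3 * d) (s + shf N j)) +
            ENNReal.ofReal (2 * prr f N j)) := by
          apply setLIntegral_mono' measurableSet_Icc
          intro s hs
          refine le_trans (ENNReal.ofReal_le_ofReal (Pk_chain_le hf hj hd hd' hjd hτ hy hs)) ?_
          exact ENNReal.ofReal_add_le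
      _ = (∫⁻ s in Icc (-2 : ℝ) 16,
          ENNReal.ofReal (Pk (fun s => U g τ ⟨s, y⟩) (d / 8) (3 * d) (s + shf N j))) +
            ENNReal.ofReal (36 * prr f N j) := by
          rw [lintegral_add_right _ measurable_const]
          congr 1
          rw [setLIntegral_const, Real.volume_Icc, ← ENNReal.ofReal_mul (by positivity)]
          congr 1
          ring
      _ ≤ _ := by
          refine add_le_add ?_ le_rfl
          exact lint_shift_le (fun s => ENNReal.ofReal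
            (Pk (fun s => U g τ ⟨s, y⟩) (d / 8) (3 * d) s)) (a := -2) (b := 16) (a' := -3)
            (b' := 17) (S := shf N j) (by linarith) (by linarith)
  calc ∫⁻ τ in Icc (1 : ℝ) 2, ∫⁻ y in Icc (-1 : ℝ) 1, ∫⁻ s in Icc (-2 : ℝ) 16,
        ENNReal.ofReal (Pk (fun s => U f τ ⟨s, y⟩) (d / 4) (2 * d) s)
      ≤ ∫⁻ τ in Icc (1 : ℝ) 2, ∫⁻ y in Icc (-1 : ℝ) 1, ((∫⁻ s in Icc (-3 : ℝ) 17,
        ENNReal.ofReal (Pk (fun s => U g τ ⟨s, y⟩) (d / 8) (3 * d) s)) +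
        ENNReal.ofReal (36 * prr f N j)) := by
        apply setLIntegral_mono' measurableSet_Icc
        intro τ hτ
        apply setLIntegral_mono' measurableSet_Icc
        intro y hy
        exact step τ hτ y hy
    _ = (∫⁻ τ in Icc (1 : ℝ) 2, ∫⁻ y in Icc (-1 : ℝ) 1, ∫⁻ s in Icc (-3 : ℝ) 17,
        ENNReal.ofReal (Pk (fun s => U g τ ⟨s, y⟩) (d / 8) (3 * d) s)) +
        ENNReal.ofReal (72 * prr f N j) := by
        simp only [lintegral_add_right _ measurable_const, setLIntegral_const, Real.volume_Icc,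
          ← ENNReal.ofReal_mul (show 0 ≤ 36 * prr f N j by positivity)]
        rw [← ENNReal.ofReal_mul (by nlinarith)]
        congr 2
        ring
    _ ≤ _ := by
        refine add_le_add ?_ le_rfl
        rw [lint_eq3 (F := fun p : ℝ × ℝ × ℝ => Pk (fun s => U g p.1 ⟨s, p.2.1⟩) (d / 8) (3 * d) p.2.2)
          (continuous_Pk_U hng _ _) (fun _ => Pk_nonneg _ _ _ _) (by norm_num) (by norm_num)
          (by norm_num)]
        exact ENNReal.ofReal_le_ofReal (hK g hng d hd hd')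

/-- the coarse drop bound -/
theorem coarse_drop {f : ℂ → ℝ} (hf : Nice f) (N : ℕ) {τ y : ℝ} (hτ : τ ∈ Icc (1 : ℝ) 2)
    (hy : y ∈ Icc (-1 : ℝ) 1) {x q : ℝ} (hx : -1 - 1 ≤ x) (hq : q ≤ 15)
    (h1 : 1 / 64 / 4 ≤ q - x) (h2 : q - x ≤ 1 / 64) :
    U f τ ⟨x, y⟩ - U f τ ⟨q, y⟩ ≤ 1 / 32 * WW f N := by
  have hS := shf_nonneg N N
  have hS' := shf_le' (le_refl N)
  have hP := prr_le f N N le_rfl
  have hB := BB_chain_le f (le_refl N)
  rw [Nat.sub_self, pow_zero, one_mul] at hB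
  rw [Nat.sub_self, pow_zero, mul_one] at hP
  have hB0 := BB_nonneg (chain f N N)
  have hW := WW_nonneg f N
  have hyy := abs_le_of_mem_Icc hy
  have a1 := cmp_chain1 hf (N := N) hτ (y := ⟨x, y⟩)
    (le_trans (norm_mk_le (a := 16) (b := 1) (abs_le.mpr ⟨by linarith, by linarith⟩) hyy)
      (by norm_num)) N le_rfl
  rw [mk_add_real] at a1
  have a2 := unit_dropU (nice_chain hf N N) hτ (t := q - x - 2 * shf N N)
    (x := ⟨x + shf N N, y⟩) (by linarith) (by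
      have : ‖(⟨x + shf N N, y⟩ : ℂ)‖ ≤ 17 + 1 := norm_mk_le
        (abs_le.mpr ⟨by linarith, by linarith⟩) hyy
      linarith)
  rw [mk_add_real] at a2
  have a3 := cmp_chain2 hf (N := N) hτ N le_rfl ⟨q - shf N N, y⟩ (by
      have : ‖(⟨q - shf N N, y⟩ : ℂ)‖ ≤ 17 + 1 := norm_mk_le
        (abs_le.mpr ⟨by linarith, by linarith⟩) hyy
      linarith)
  rw [mk_add_real, sub_add_cancel] at a3
  have e1 : x + shf N N + (q - x - 2 * shf N N) = q - shf N N := by ring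
  rw [e1] at a2
  have a4 : (q - x - 2 * shf N N) * BB (chain f N N) ≤ 1 / 64 * WW f N := by
    have : q - x - 2 * shf N N ≤ 1 / 64 := by linarith
    nlinarith
  norm_num at hP
  linarith

theorem sqrt_dm_le (m : ℕ) : Real.sqrt (1 / 64 / 2 ^ m) ≤ 1 / 8 * (17 / 24) ^ m := by
  rw [Real.sqrt_le_left (by positivity)]
  rw [mul_pow, ← pow_mul, mul_comm m 2, pow_mul]
  rw [div_eq_mul_inv, ← one_div, ← one_div_pow]
  have : (1 / 2 : ℝ) ^ m ≤ ((17 / 24) ^ 2) ^ m := by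
    apply pow_le_pow_left₀ (by norm_num)
    norm_num
  norm_num at this ⊢
  linarith

theorem dm_shf {N m : ℕ} : 2 * shf N (N - m) ≤ (1 / 64 / 2 ^ m) / 8 := by
  rcases le_or_gt m N with h | h
  · have h1 := shf_le N (N - m) (by omega)
    have h2 : stp N (N - m) = (1 / 4) ^ 5 * (1 / 2) ^ m * (1 / 2) ^ m := by
      unfold stp
      have : 5 + N - (N - m) = 5 + m := by omega
      rw [this, pow_add, mul_assoc, ← mul_pow]
      norm_num
    have h3 : (1 / 2 : ℝ) ^ m ≤ 1 := pow_le_one₀ (by norm_num) (by norm_num)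
    have h4 : (1 : ℝ) / 64 / 2 ^ m / 8 = 1 / 512 * (1 / 2) ^ m := by
      rw [one_div_pow]; field_simp; norm_num
    rw [h4]
    have h5 : 0 < (1 / 2 : ℝ) ^ m := by positivity
    rw [h2] at h1
    nlinarith
  · have : N - m = 0 := by omega
    rw [this]
    show 2 * (0 : ℝ) ≤ _
    rw [mul_zero]
    positivity

/-- the bound of the `m`-th peak term -/
theorem pk_term_le {C : ℝ} (hC : 0 ≤ C) (hK : KbProp C) {f : ℂ → ℝ} (hf : Nice f) (N m : ℕ) :
    ENNReal.ofReal (2 / (1 / 64 / 2 ^ m)) *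
    ∫⁻ τ in Icc (1 : ℝ) 2, ∫⁻ y in Icc (-1 : ℝ) 1, ∫⁻ s in Icc (-1 - 1 : ℝ) (15 + 1),
      ENNReal.ofReal (Pk (fun s => U f τ ⟨s, y⟩) ((1 / 64 / 2 ^ m) / 4) (2 * (1 / 64 / 2 ^ m)) s) ≤
    ENNReal.ofReal ((C + 9) * WW f N * (17 / 18) ^ m) := by
  have hd : (0 : ℝ) < 1 / 64 / 2 ^ m := by positivity
  have hd' : (1 : ℝ) / 64 / 2 ^ m ≤ 1 / 64 :=
    div_le_self (by norm_num) (one_le_pow₀ (by norm_num))
  have h1 := pk_int_le hK hf (N := N) (j := N - m) (by omega) hd hd' dm_shf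
  have e1 : (-1 - 1 : ℝ) = -2 := by norm_num
  have e2 : (15 + 1 : ℝ) = 16 := by norm_num
  rw [e1, e2]
  refine le_trans (mul_le_mul_right h1 _) ?_
  have hW := WW_nonneg f N
  have hB := BB_chain_le f (N := N) (j := N - m) (by omega)
  have hB' : BB (chain f N (N - m)) ≤ (4 / 3 : ℝ) ^ m * WW f N := by
    refine le_trans hB (mul_le_mul_of_nonneg_right ?_ hW)
    apply pow_le_pow_right₀ (by norm_num)
    omega
  have hB0 := BB_nonneg (chain f N (N - m))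
  have hP : prr f N (N - m) ≤ (1 / 4) ^ 5 * (1 / 3) ^ m * WW f N := by
    rcases le_or_gt m N with h | h
    · have := prr_le f N (N - m) (by omega)
      have e : N - (N - m) = m := by omega
      rwa [e] at this
    · have : N - m = 0 := by omega
      rw [this]
      show (0 : ℝ) ≤ _
      positivity
  have hP0 := prr_nonneg f N (N - m)
  have hs := sqrt_dm_le m
  set d : ℝ := 1 / 64 / 2 ^ m with hdd
  rw [← ENNReal.ofReal_add (by positivity) (by positivity), ← ENNReal.ofReal_mul (by positivity)]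
  apply ENNReal.ofReal_le_ofReal
  have g1 : 2 / d * (C * (d * √d) * BB (chain f N (N - m)) + 72 * prr f N (N - m)) =
      2 * C * (√d * BB (chain f N (N - m))) + 144 * (prr f N (N - m) / d) := by
    field_simp
    ring
  rw [g1]
  have g2 : √d * BB (chain f N (N - m)) ≤ 1 / 8 * (17 / 18) ^ m * WW f N := by
    calc √d * BB (chain f N (N - m)) ≤ (1 / 8 * (17 / 24) ^ m) * ((4 / 3 : ℝ) ^ m * WW f N) :=
          mul_le_mul hs hB' hB0 (by positivity)
      _ = 1 / 8 * ((17 / 24 : ℝ) ^ m * (4 / 3) ^ m) * WW f N := by ring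
      _ = 1 / 8 * (17 / 18) ^ m * WW f N := by rw [← mul_pow]; norm_num
  have g3 : prr f N (N - m) / d ≤ 1 / 16 * (17 / 18) ^ m * WW f N := by
    rw [div_le_iff₀ hd]
    refine le_trans hP ?_
    have g4 : 1 / 16 * (17 / 18) ^ m * WW f N * d =
      (1 / 4) ^ 5 * ((17 / 18) ^ m * (1 / 2) ^ m) * WW f N := by
      rw [hdd, one_div_pow 2]; field_simp; ring
    rw [g4]
    gcongr
    rw [← mul_pow]
    apply pow_le_pow_left₀ (by norm_num)
    norm_num
  have g5 : 0 ≤ (17 / 18 : ℝ) ^ m * WW f N := by positivity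
  nlinarith

theorem lint_tsum2 (K0 : ENNReal) (c : ℕ → ENNReal) (hc : ∀ m, c m ≠ ⊤)
    (G : ℕ → ℝ → ℝ → ENNReal) (hG : ∀ m, Measurable (Function.uncurry (G m))) :
    ∫⁻ τ in Icc (1 : ℝ) 2, ∫⁻ y in Icc (-1 : ℝ) 1, (K0 + ∑' m, c m * G m τ y) =
    K0 * 2 + ∑' m, c m * ∫⁻ τ in Icc (1 : ℝ) 2, ∫⁻ y in Icc (-1 : ℝ) 1, G m τ y := by
  have m1 : ∀ m τ, Measurable (G m τ) := fun m τ => (hG m).comp measurable_prodMk_left
  have m2 : ∀ m, Measurable fun τ : ℝ => ∫⁻ y in Icc (-1 : ℝ) 1, G m τ y := fun m =>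
    (hG m).lintegral_prod_right'
  have e1 : ∀ τ, ∫⁻ y in Icc (-1 : ℝ) 1, (K0 + ∑' m, c m * G m τ y) =
      K0 * 2 + ∑' m, c m * ∫⁻ y in Icc (-1 : ℝ) 1, G m τ y := by
    intro τ
    rw [lintegral_add_left measurable_const, setLIntegral_const, Real.volume_Icc,
      lintegral_tsum fun m => ((m1 m τ).const_mul _).aemeasurable]
    congr 1
    · norm_num
    · congr 1
      funext m
      exact lintegral_const_mul' _ _ (hc m)
  simp only [e1]
  rw [lintegral_add_left measurable_const, setLIntegral_const, Real.volume_Icc,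
      lintegral_tsum fun m => ((m2 m).const_mul _).aemeasurable]
  congr 1
  · norm_num
  · congr 1
    funext m
    exact lintegral_const_mul' _ _ (hc m)

theorem measurable_Pk_int {f : ℂ → ℝ} (hf : Nice f) (lo hi : ℝ) {a b : ℝ} (hab : a ≤ b) :
    Measurable (Function.uncurry fun (τ y : ℝ) => ∫⁻ s in Icc a b,
      ENNReal.ofReal (Pk (fun s => U f τ ⟨s, y⟩) lo hi s)) := by
  have hc := continuous_Pk_U hf lo hi
  have cm : Continuous (fun p : ℝ × ℝ => ∫ s in a..b,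
      Pk (fun s => U f p.1 ⟨s, p.2⟩) lo hi s) :=
    continuous_int1 (F := fun q : (ℝ × ℝ) × ℝ =>
      Pk (fun s => U f q.1.1 ⟨s, q.1.2⟩) lo hi q.2)
      (hc.comp (by fun_prop : Continuous fun q : (ℝ × ℝ) × ℝ => (q.1.1, q.1.2, q.2))) _ _
  have em : (Function.uncurry fun (τ y : ℝ) => ∫⁻ s in Icc a b,
      ENNReal.ofReal (Pk (fun s => U f τ ⟨s, y⟩) lo hi s)) = fun p : ℝ × ℝ =>
        ENNReal.ofReal (∫ s in a..b, Pk (fun s => U f p.1 ⟨s, p.2⟩) lo hi s) := by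
    funext p
    exact lint_eq1 (Pk_continuous (continuous_line hf p.1 p.2) _ _) (fun s => Pk_nonneg _ _ _ _)
      hab
  rw [em]
  exact cm.measurable.ennreal_ofReal

theorem UNIT_L1 {C : ℝ} (hC : 0 ≤ C) (hK : KbProp C) {f : ℂ → ℝ} (hf : Nice f) (N : ℕ) :
    ∫⁻ τ in Icc (1 : ℝ) 2, ∫⁻ y in Icc (-1 : ℝ) 1, ∫⁻ s in Icc (-1 : ℝ) 15,
      ENNReal.ofReal (-(deriv (fun s : ℝ => U f τ (⟨s, y⟩ : ℂ)) s)) ≤
    ENNReal.ofReal ((18 * C + 300) * WW f N) := by
  have hW := WW_nonneg f N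
  have step : ∀ τ ∈ Icc (1 : ℝ) 2, ∀ y ∈ Icc (-1 : ℝ) 1, ∫⁻ s in Icc (-1 : ℝ) 15,
      ENNReal.ofReal (-(deriv (fun s : ℝ => U f τ (⟨s, y⟩ : ℂ)) s)) ≤
      ENNReal.ofReal (65 * WW f N) + ∑' m : ℕ, ENNReal.ofReal (2 / (1 / 64 / 2 ^ m)) *
        ∫⁻ s in Icc (-1 - 1 : ℝ) (15 + 1),
        ENNReal.ofReal (Pk (fun s => U f τ ⟨s, y⟩) ((1 / 64 / 2 ^ m) / 4)
          (2 * (1 / 64 / 2 ^ m)) s) := by
    intro τ hτ y hy
    refine le_trans (peaks_formula (continuous_line hf τ y) (L := 1 / 64) (D := 1 / 32 * WW f N)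
      (by norm_num) (by norm_num) (by norm_num) (by positivity)
      (fun x q hx hq h1 h2 => coarse_drop hf N hτ hy hx hq h1 h2)) ?_
    refine add_le_add (ENNReal.ofReal_le_ofReal ?_) le_rfl
    nlinarith
  calc ∫⁻ τ in Icc (1 : ℝ) 2, ∫⁻ y in Icc (-1 : ℝ) 1, ∫⁻ s in Icc (-1 : ℝ) 15,
      ENNReal.ofReal (-(deriv (fun s : ℝ => U f τ (⟨s, y⟩ : ℂ)) s))
      ≤ ∫⁻ τ in Icc (1 : ℝ) 2, ∫⁻ y in Icc (-1 : ℝ) 1, (ENNReal.ofReal (65 * WW f N) +
        ∑' m : ℕ, ENNReal.ofReal (2 / (1 / 64 / 2 ^ m)) *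
        ∫⁻ s in Icc (-1 - 1 : ℝ) (15 + 1),
        ENNReal.ofReal (Pk (fun s => U f τ ⟨s, y⟩) ((1 / 64 / 2 ^ m) / 4)
          (2 * (1 / 64 / 2 ^ m)) s)) := by
        apply setLIntegral_mono' measurableSet_Icc
        intro τ hτ
        apply setLIntegral_mono' measurableSet_Icc
        intro y hy
        exact step τ hτ y hy
    _ = ENNReal.ofReal (65 * WW f N) * 2 + ∑' m : ℕ, ENNReal.ofReal (2 / (1 / 64 / 2 ^ m)) *
        ∫⁻ τ in Icc (1 : ℝ) 2, ∫⁻ y in Icc (-1 : ℝ) 1, ∫⁻ s in Icc (-1 - 1 : ℝ) (15 + 1),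
        ENNReal.ofReal (Pk (fun s => U f τ ⟨s, y⟩) ((1 / 64 / 2 ^ m) / 4)
          (2 * (1 / 64 / 2 ^ m)) s) :=
        lint_tsum2 _ (fun m => ENNReal.ofReal (2 / (1 / 64 / 2 ^ m)))
          (fun _ => ENNReal.ofReal_ne_top) (fun m τ y => ∫⁻ s in Icc (-1 - 1 : ℝ) (15 + 1),
          ENNReal.ofReal (Pk (fun s => U f τ ⟨s, y⟩) ((1 / 64 / 2 ^ m) / 4)
          (2 * (1 / 64 / 2 ^ m)) s)) (fun m => measurable_Pk_int hf _ _ (by norm_num))
    _ ≤ ENNReal.ofReal (65 * WW f N) * 2 +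
        ∑' m : ℕ, ENNReal.ofReal ((C + 9) * WW f N * (17 / 18) ^ m) := by
        refine add_le_add le_rfl (ENNReal.tsum_le_tsum fun m => ?_)
        exact pk_term_le hC hK hf N m
    _ = ENNReal.ofReal (130 * WW f N) + ENNReal.ofReal ((C + 9) * WW f N * 18) := by
        congr 1
        · have : (2 : ENNReal) = ENNReal.ofReal 2 := by norm_num
          rw [this, ← ENNReal.ofReal_mul (by positivity)]
          congr 1
          ring
        · rw [← ENNReal.ofReal_tsum_of_nonneg (fun m => by positivity)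
            ((summable_geometric_of_lt_one (by norm_num) (by norm_num)).mul_left _),
            tsum_mul_left, tsum_geometric_of_lt_one (by norm_num) (by norm_num)]
          norm_num
    _ ≤ _ := by
        rw [← ENNReal.ofReal_add (by positivity) (by positivity)]
        apply ENNReal.ofReal_le_ofReal
        nlinarith

end Crest.Agent.R112
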