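import Mathlib
import Crest.Agent.R112.KSum
import Crest.Agent.R112.UnitL1

/-!
# Row 112 (S0147): Proposition K_b
-/

set_option autoImplicit false

namespace Crest.Agent.R112

open MeasureTheory Metric Set Filter Topology
open scoped ENNReal NNReal

/-- grid lemma -/
theorem lintegral_le_of_grid {F : ℝ → ℝ≥0∞} (hF : Measurable F) {a b h : ℝ} {S : ℝ≥0∞}
    (hh : 0 < h)
    (hS : ∀ (s₀ : ℝ) (I : Finset ℕ), (∀ i ∈ I, s₀ + h * i ∈ Icc a b) →
      ∑ i ∈ I, F (s₀ + h * i) ≤ S) :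
    ∫⁻ s in Icc a b, F s ≤ ENNReal.ofReal h * S := by
  classical
  set G : ℝ → ℝ≥0∞ := (Icc a b).indicator F with hG
  have hGm : Measurable G := hF.indicator measurableSet_Icc
  set n : ℕ := ⌊(b - a) / h⌋₊ + 1 with hn
  have hcover : Icc a b ⊆ ⋃ i ∈ Finset.range n, Ico (a + h * i) (a + h * i + h) := by
    intro x hx
    set k : ℕ := ⌊(x - a) / h⌋₊ with hk
    have h0 : 0 ≤ (x - a) / h := div_nonneg (by linarith [hx.1]) hh.le
    have h1 : (k : ℝ) ≤ (x - a) / h := Nat.floor_le h0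
    have h2 : (x - a) / h < k + 1 := Nat.lt_floor_add_one _
    rw [le_div_iff₀ hh] at h1
    rw [div_lt_iff₀ hh] at h2
    have h3 : k < n := by
      rw [hn, Nat.lt_succ_iff]
      apply Nat.floor_le_floor
      gcongr
      exact hx.2
    simp only [mem_iUnion, Finset.mem_range]
    exact ⟨k, h3, by linarith, by linarith⟩
  have e0 : ∫⁻ s in Icc a b, F s = ∫⁻ s in Icc a b, G s :=
    setLIntegral_congr_fun measurableSet_Icc (fun s hs => (indicator_of_mem hs F).symm)
  have e1 : ∀ c : ℝ, ∫⁻ s in Ico c (c + h), G s = ∫⁻ θ in Ico 0 h, G (c + θ) := by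
    intro c
    rw [← lintegral_indicator measurableSet_Ico, ← lintegral_indicator measurableSet_Ico,
      ← lintegral_add_left_eq_self _ c]
    apply lintegral_congr
    intro θ
    by_cases hθ : θ ∈ Ico 0 h
    · rw [indicator_of_mem hθ, indicator_of_mem]
      exact ⟨by linarith [hθ.1], by linarith [hθ.2]⟩
    · rw [indicator_of_notMem hθ, indicator_of_notMem]
      rintro ⟨h1, h2⟩
      exact hθ ⟨by linarith, by linarith⟩
  calc ∫⁻ s in Icc a b, F s = ∫⁻ s in Icc a b, G s := e0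
    _ ≤ ∫⁻ s in ⋃ i ∈ Finset.range n, Ico (a + h * i) (a + h * i + h), G s :=
        lintegral_mono_set hcover
    _ ≤ ∑ i ∈ Finset.range n, ∫⁻ s in Ico (a + h * i) (a + h * i + h), G s :=
        lintegral_biUnion_finset_le _ _ _
    _ = ∑ i ∈ Finset.range n, ∫⁻ θ in Ico 0 h, G (a + h * i + θ) :=
        Finset.sum_congr rfl (fun i _ => e1 _)
    _ = ∫⁻ θ in Ico 0 h, ∑ i ∈ Finset.range n, G (a + h * i + θ) := by
        rw [lintegral_finsetSum]
        intro i _
        exact hGm.comp (measurable_const_add _)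
    _ ≤ ∫⁻ θ in Ico 0 h, S := by
        apply lintegral_mono
        intro θ
        have e2 : ∑ i ∈ Finset.range n, G (a + h * i + θ) =
            ∑ i ∈ (Finset.range n).filter (fun i : ℕ => (a + θ) + h * i ∈ Icc a b),
              F ((a + θ) + h * i) := by
          rw [Finset.sum_filter]
          apply Finset.sum_congr rfl
          intro i _
          have e3 : a + h * i + θ = (a + θ) + h * i := by ring
          rw [e3]
          by_cases hm : (a + θ) + h * i ∈ Icc a b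
          · rw [if_pos hm, hG, indicator_of_mem hm]
          · rw [if_neg hm, hG, indicator_of_notMem hm]
        simp only
        rw [e2]
        exact hS (a + θ) _ (fun i hi => (Finset.mem_filter.1 hi).2)
    _ = ENNReal.ofReal h * S := by
        rw [setLIntegral_const, Real.volume_Ico, sub_zero, mul_comm]

theorem shift_integral_le {φ : ℝ → ℝ} (hmono : Monotone φ) {M : ℝ} (h0 : ∀ t, 0 ≤ φ t)
    (hM : ∀ t, φ t ≤ M) {a b c : ℝ} (hab : a ≤ b) (hc : 0 ≤ c) :
    ∫⁻ t in Icc a b, ENNReal.ofReal (φ (t + c) - φ (t - c)) ≤ ENNReal.ofReal (2 * c * M) := by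
  have hi : ∀ u v : ℝ, IntervalIntegrable φ volume u v := fun u v =>
    (hmono.monotoneOn _).intervalIntegrable
  have hm1 : Monotone (fun t => φ (t + c)) := fun s t hst => hmono (by linarith)
  have hm2 : Monotone (fun t => φ (t - c)) := fun s t hst => hmono (by linarith)
  have hi1 : IntervalIntegrable (fun t => φ (t + c)) volume a b :=
    (hm1.monotoneOn _).intervalIntegrable
  have hi2 : IntervalIntegrable (fun t => φ (t - c)) volume a b :=
    (hm2.monotoneOn _).intervalIntegrable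
  have h1 : ∫ t in a..b, (φ (t + c) - φ (t - c)) ≤ 2 * c * M := by
    rw [intervalIntegral.integral_sub hi1 hi2, intervalIntegral.integral_comp_add_right,
      intervalIntegral.integral_comp_sub_right]
    have e1 : (∫ t in (a + c)..(b + c), φ t) - ∫ t in (a - c)..(b - c), φ t =
        (∫ t in (b - c)..(b + c), φ t) - ∫ t in (a - c)..(a + c), φ t := by
      have e2 := intervalIntegral.integral_add_adjacent_intervals (hi (a - c) (a + c))
        (hi (a + c) (b + c))
      have e3 := intervalIntegral.integral_add_adjacent_intervals (hi (a - c) (b - c))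
        (hi (b - c) (b + c))
      linarith
    rw [e1]
    have e4 : 0 ≤ ∫ t in (a - c)..(a + c), φ t :=
      intervalIntegral.integral_nonneg (by linarith) (fun t _ => h0 t)
    have e5 : ∫ t in (b - c)..(b + c), φ t ≤ ∫ t in (b - c)..(b + c), M :=
      intervalIntegral.integral_mono_on (by linarith) (hi _ _) (by simp) (fun t _ => hM t)
    rw [intervalIntegral.integral_const, smul_eq_mul] at e5
    have e6 : (b + c - (b - c)) * M = 2 * c * M := by ring
    linarith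
  rw [← Measure.restrict_congr_set (Ioc_ae_eq_Icc (μ := volume) (a := a) (b := b)),
    ← ofReal_integral_eq_lintegral_ofReal, ← intervalIntegral.integral_of_le hab]
  · exact ENNReal.ofReal_le_ofReal h1
  · exact (intervalIntegrable_iff_integrableOn_Ioc_of_le hab).1 (hi1.sub hi2)
  · exact Eventually.of_forall (fun t => sub_nonneg.2 (hmono (by linarith)))

/-- a jointly continuous version of `phit` -/
noncomputable def phic (g : ℂ → ℝ) (t : ℝ) (x : ℂ) : ℝ :=
  min (t ^ 2 * ∫ ξ in ball (0 : ℂ) 1, ‖fderiv ℝ g (x + t * ξ)‖) (3 * BB g)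

theorem phic_eq {g : ℂ → ℝ} {t : ℝ} (ht : 0 < t) (x : ℂ) : phic g t x = phit g x t := by
  unfold phic phit mu
  rw [disc_avg_eq (fun z => ‖fderiv ℝ g z‖) ht, smul_eq_mul, ← mul_assoc,
    mul_inv_cancel₀ (by positivity), one_mul]

theorem continuous_phic {g : ℂ → ℝ} (hg : Nice g) :
    Continuous (fun p : ℝ × ℂ => phic g p.1 p.2) := by
  unfold phic
  obtain ⟨K, hK0, hK⟩ := hg.exists_bound_fderiv
  have h1 := continuous_disc_avg (F := fun z => ‖fderiv ℝ g z‖) hg.continuous_fderiv.norm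
    ⟨K, fun x => by rw [norm_norm]; exact hK x⟩
  exact ((continuous_fst.pow 2).mul h1).min continuous_const

/-- the cut-off majorant -/
noncomputable def cutf (g : ℂ → ℝ) (d : ℝ) (τ : ℝ) (x : ℂ) : ℝ :=
  (phic g (τ + 9 * d) x - phic g (τ - 9 * d) x) +
    (phic g (4 * τ + 9 * d) x - phic g (4 * τ - 9 * d) x)

theorem continuous_cutf {g : ℂ → ℝ} (hg : Nice g) (d : ℝ) :
    Continuous (fun p : ℝ × ℂ => cutf g d p.1 p.2) := by
  unfold cutf
  have h := continuous_phic hg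
  have e : ∀ c₁ c₂ : ℝ, Continuous (fun p : ℝ × ℂ => phic g (c₁ * p.1 + c₂) p.2) := fun c₁ c₂ =>
    h.comp (((continuous_const.mul continuous_fst).add continuous_const).prodMk continuous_snd)
  have e1 : ∀ p : ℝ × ℂ, (phic g (p.1 + 9 * d) p.2 - phic g (p.1 - 9 * d) p.2) +
    (phic g (4 * p.1 + 9 * d) p.2 - phic g (4 * p.1 - 9 * d) p.2) =
    (phic g (1 * p.1 + 9 * d) p.2 - phic g (1 * p.1 + (-(9 * d))) p.2) +
    (phic g (4 * p.1 + 9 * d) p.2 - phic g (4 * p.1 + (-(9 * d))) p.2) := by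
    intro p
    rw [one_mul, sub_eq_add_neg p.1, sub_eq_add_neg (4 * p.1)]
  simp_rw [e1]
  exact ((e _ _).sub (e _ _)).add ((e _ _).sub (e _ _))

theorem cutf_eq {g : ℂ → ℝ} {d τ : ℝ} (hd : 0 < d) (hd' : d ≤ 1 / 64) (hτ : 1 ≤ τ) (x : ℂ) :
    cutf g d τ x = (phit g x (τ + 9 * d) - phit g x (τ - 9 * d)) +
      (phit g x (4 * τ + 9 * d) - phit g x (4 * τ - 9 * d)) := by
  unfold cutf
  rw [phic_eq (by linarith), phic_eq (by linarith), phic_eq (by linarith), phic_eq (by linarith)]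

theorem phit_monotone {g : ℂ → ℝ} (hg : Nice g) (x : ℂ) : Monotone (phit g x) := fun _ _ hst =>
  Peak.phit_mono hg hst

theorem phit_nonneg {g : ℂ → ℝ} (x : ℂ) (t : ℝ) : 0 ≤ phit g x t :=
  le_min (mu_nonneg _ _) (by have := BB_nonneg g; positivity)

theorem cutf_nonneg {g : ℂ → ℝ} (hg : Nice g) {d τ : ℝ} (hd : 0 < d) (hd' : d ≤ 1 / 64)
    (hτ : 1 ≤ τ) (x : ℂ) : 0 ≤ cutf g d τ x := by
  rw [cutf_eq hd hd' hτ]
  have h1 := phit_monotone hg x (show τ - 9 * d ≤ τ + 9 * d by linarith)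
  have h2 := phit_monotone hg x (show 4 * τ - 9 * d ≤ 4 * τ + 9 * d by linarith)
  linarith

/-- integral of the cut-off majorant in `τ` -/
theorem lintegral_cutf_le {g : ℂ → ℝ} (hg : Nice g) {d : ℝ} (hd : 0 < d) (hd' : d ≤ 1 / 64)
    (x : ℂ) : ∫⁻ τ in Icc (1 : ℝ) 2, ENNReal.ofReal (cutf g d τ x) ≤
      ENNReal.ofReal (68 * d * BB g) := by
  have hB := BB_nonneg g
  have h1 := shift_integral_le (phit_monotone hg x) (M := 3 * BB g) (phit_nonneg x)
    (fun t => min_le_right _ _) (a := 1) (b := 2) (c := 9 * d) (by norm_num) (by positivity)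
  have hm4 : Monotone (fun t => phit g x (4 * t)) := fun s t hst =>
    phit_monotone hg x (by linarith)
  have h2 := shift_integral_le hm4 (M := 3 * BB g) (fun t => phit_nonneg x _)
    (fun t => min_le_right _ _) (a := 1) (b := 2) (c := 9 / 4 * d) (by norm_num) (by positivity)
  have hmeas : Measurable (fun t => ENNReal.ofReal (phit g x (t + 9 * d) - phit g x (t - 9 * d))) := by
    have hm := (phit_monotone hg x).measurable
    exact ((hm.comp (measurable_add_const _)).sub (hm.comp (measurable_sub_const _))).ennreal_ofReal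
  calc ∫⁻ τ in Icc (1 : ℝ) 2, ENNReal.ofReal (cutf g d τ x)
      ≤ ∫⁻ τ in Icc (1 : ℝ) 2, (ENNReal.ofReal (phit g x (τ + 9 * d) - phit g x (τ - 9 * d)) +
        ENNReal.ofReal (phit g x (4 * (τ + 9 / 4 * d)) - phit g x (4 * (τ - 9 / 4 * d)))) := by
        apply setLIntegral_mono' measurableSet_Icc
        intro τ hτ
        rw [cutf_eq hd hd' hτ.1]
        have e1 : 4 * (τ + 9 / 4 * d) = 4 * τ + 9 * d := by ring
        have e2 : 4 * (τ - 9 / 4 * d) = 4 * τ - 9 * d := by ring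
        rw [e1, e2]
        exact ENNReal.ofReal_add_le
    _ = (∫⁻ τ in Icc (1 : ℝ) 2, ENNReal.ofReal (phit g x (τ + 9 * d) - phit g x (τ - 9 * d))) +
        ∫⁻ τ in Icc (1 : ℝ) 2,
        ENNReal.ofReal (phit g x (4 * (τ + 9 / 4 * d)) - phit g x (4 * (τ - 9 / 4 * d))) :=
        lintegral_add_left hmeas _
    _ ≤ ENNReal.ofReal (2 * (9 * d) * (3 * BB g)) +
        ENNReal.ofReal (2 * (9 / 4 * d) * (3 * BB g)) := add_le_add h1 h2
    _ = ENNReal.ofReal (2 * (9 * d) * (3 * BB g) + 2 * (9 / 4 * d) * (3 * BB g)) :=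
        (ENNReal.ofReal_add (by positivity) (by positivity)).symm
    _ ≤ ENNReal.ofReal (68 * d * BB g) := by
        apply ENNReal.ofReal_le_ofReal
        nlinarith [mul_nonneg hd.le hB]

/-- interior part on a line -/
theorem interior_line {C₁ C₂ : ℝ} (hC₁ : 0 ≤ C₁) (hC₂ : 0 ≤ C₂) (hK : KMainStmt C₁ C₂) {g : ℂ → ℝ}
    (hg : Nice g) {τ d y : ℝ} (hd : 0 < d) (hd' : d ≤ 1 / 64) (hτ : τ ∈ Icc (1 : ℝ) 2)
    (hy : y ∈ Icc (-1 : ℝ) 1) :
    ∫⁻ s in Icc (-3 : ℝ) 17,
      {s | d * cutf g d τ ⟨s, y⟩ < Pk (fun s => U g τ ⟨s, y⟩) (d / 8) (3 * d) s}.indicator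
        (fun s => ENNReal.ofReal (Pk (fun s => U g τ ⟨s, y⟩) (d / 8) (3 * d) s)) s ≤
      ENNReal.ofReal (16 * d) * ENNReal.ofReal
        (Real.sqrt (2 * ((2 * C₁ + 38 * C₂) * 326 ^ 2 * 200)) * Real.sqrt d * BB g) := by
  classical
  set h : ℝ → ℝ := Pk (fun s => U g τ ⟨s, y⟩) (d / 8) (3 * d) with hh
  have hhc : Continuous h := Pk_continuous (continuous_line hg τ y) _ _
  have hline : Continuous (fun s : ℝ => (⟨s, y⟩ : ℂ)) :=
    continuous_cmk continuous_id continuous_const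
  have hcc : Continuous (fun s : ℝ => d * cutf g d τ ⟨s, y⟩) :=
    continuous_const.mul ((continuous_cutf hg d).comp (continuous_const.prodMk hline))
  apply lintegral_le_of_grid
  · exact (hhc.measurable.ennreal_ofReal).indicator (measurableSet_lt hcc.measurable hhc.measurable)
  · positivity
  · intro s₀ I hI
    have e1 : ∑ i ∈ I, {s | d * cutf g d τ ⟨s, y⟩ < h s}.indicator
        (fun s => ENNReal.ofReal (h s)) (s₀ + 16 * d * i) =
        ∑ i ∈ I.filter (fun i : ℕ => d * cutf g d τ ⟨s₀ + 16 * d * i, y⟩ < h (s₀ + 16 * d * i)),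
          ENNReal.ofReal (h (s₀ + 16 * d * i)) := by
      rw [Finset.sum_filter]
      apply Finset.sum_congr rfl
      intro i _
      by_cases hm : d * cutf g d τ ⟨s₀ + 16 * d * i, y⟩ < h (s₀ + 16 * d * i)
      · rw [if_pos hm, indicator_of_mem]
        exact hm
      · rw [if_neg hm, indicator_of_notMem]
        exact hm
    rw [e1]
    set J := I.filter (fun i : ℕ => d * cutf g d τ ⟨s₀ + 16 * d * i, y⟩ < h (s₀ + 16 * d * i))
      with hJ
    rw [← ENNReal.ofReal_sum_of_nonneg (fun i _ => Pk_nonneg _ _ _ _)]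
    apply ENNReal.ofReal_le_ofReal
    have hpk : ∀ i ∈ J, ∃ a b r, Peak g τ d (xi s₀ d y i) (h (s₀ + 16 * d * i)) a b r := by
      intro i hi
      have hi1 := (Finset.mem_filter.1 hi).1
      have hi2 := (Finset.mem_filter.1 hi).2
      have h0 := mul_nonneg hd.le (cutf_nonneg hg hd hd' hτ.1 ⟨s₀ + 16 * d * i, y⟩)
      exact exists_peak hg hd hd' hτ.1 hτ.2 (hI i hi1) hy (lt_of_le_of_lt h0 hi2)
    choose! a b r hP using hpk
    refine k_sum hC₁ hC₂ hK (s₀ := s₀) (y := y) (τ := τ) hd hd' hg J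
      (fun i => h (s₀ + 16 * d * i)) a b r (fun i hi => hI i (Finset.mem_filter.1 hi).1)
      (fun i hi => ⟨hP i hi, ?_⟩)
    have hi2 := (Finset.mem_filter.1 hi).2
    by_contra hcon
    have hcut : r i < τ + 6 * d ∨ 4 * τ - 6 * d < r i := by
      by_contra h3
      push Not at h3
      exact hcon h3
    have h4 := (hP i hi).cut_bound hcut
    rw [← cutf_eq hd hd' hτ.1, div_le_iff₀ hd] at h4
    have h5 : cutf g d τ (xi s₀ d y i) * d = d * cutf g d τ ⟨s₀ + 16 * d * i, y⟩ := by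
      rw [mul_comm]; rfl
    rw [h5] at h4
    linarith

theorem lint_rot3 {F : ℝ → ℝ → ℝ → ℝ≥0∞} (hF : Measurable (fun q : (ℝ × ℝ) × ℝ => F q.1.1 q.1.2 q.2))
    (A B C : Set ℝ) :
    ∫⁻ τ in A, ∫⁻ y in B, ∫⁻ s in C, F τ y s = ∫⁻ y in B, ∫⁻ s in C, ∫⁻ τ in A, F τ y s := by
  have e1 : ∫⁻ τ in A, ∫⁻ y in B, ∫⁻ s in C, F τ y s = ∫⁻ y in B, ∫⁻ τ in A, ∫⁻ s in C, F τ y s := by
    apply lintegral_lintegral_swap (f := fun τ y => ∫⁻ s in C, F τ y s)
    have : Measurable (fun p : ℝ × ℝ => ∫⁻ s in C, F p.1 p.2 s) :=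
      Measurable.lintegral_prod_right' (f := fun q : (ℝ × ℝ) × ℝ => F q.1.1 q.1.2 q.2) hF
    exact this.aemeasurable
  have e2 : ∀ y : ℝ, ∫⁻ τ in A, ∫⁻ s in C, F τ y s = ∫⁻ s in C, ∫⁻ τ in A, F τ y s := by
    intro y
    apply lintegral_lintegral_swap (f := fun τ s => F τ y s)
    have : Measurable (fun p : ℝ × ℝ => F p.1 y p.2) :=
      hF.comp ((measurable_fst.prodMk measurable_const).prodMk measurable_snd)
    exact this.aemeasurable
  rw [e1]
  exact lintegral_congr e2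

/-- cut part, integrated -/
theorem cut_total {g : ℂ → ℝ} (hg : Nice g) {d : ℝ} (hd : 0 < d) (hd' : d ≤ 1 / 64) :
    ∫⁻ τ in Icc (1 : ℝ) 2, ∫⁻ y in Icc (-1 : ℝ) 1, ∫⁻ s in Icc (-3 : ℝ) 17,
      ENNReal.ofReal (d * cutf g d τ ⟨s, y⟩) ≤ ENNReal.ofReal (2720 * d ^ 2 * BB g) := by
  have hB := BB_nonneg g
  have hc : Continuous (fun q : (ℝ × ℝ) × ℝ => d * cutf g d q.1.1 (⟨q.2, q.1.2⟩ : ℂ)) :=
    continuous_const.mul ((continuous_cutf hg d).comp ((continuous_fst.comp continuous_fst).prodMk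
      (continuous_cmk continuous_snd (continuous_snd.comp continuous_fst))))
  rw [lint_rot3 (F := fun τ y s => ENNReal.ofReal (d * cutf g d τ (⟨s, y⟩ : ℂ)))
    hc.measurable.ennreal_ofReal]
  calc ∫⁻ y in Icc (-1 : ℝ) 1, ∫⁻ s in Icc (-3 : ℝ) 17, ∫⁻ τ in Icc (1 : ℝ) 2,
        ENNReal.ofReal (d * cutf g d τ ⟨s, y⟩)
      ≤ ∫⁻ y in Icc (-1 : ℝ) 1, ∫⁻ s in Icc (-3 : ℝ) 17, ENNReal.ofReal (d * (68 * d * BB g)) := by
        apply lintegral_mono
        intro y
        apply lintegral_mono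
        intro s
        simp only
        have h1 := lintegral_cutf_le hg hd hd' (⟨s, y⟩ : ℂ)
        simp_rw [ENNReal.ofReal_mul hd.le]
        rw [lintegral_const_mul' _ _ ENNReal.ofReal_ne_top]
        exact mul_le_mul' le_rfl h1
    _ = ENNReal.ofReal (2720 * d ^ 2 * BB g) := by
        rw [setLIntegral_const, setLIntegral_const, Real.volume_Icc, Real.volume_Icc,
          ← ENNReal.ofReal_mul (by positivity), ← ENNReal.ofReal_mul (by positivity)]
        congr 1; ring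

/-- **Proposition K_b** from the K lemma. -/
theorem KbProp_of_main {C₁ C₂ : ℝ} (hC₁ : 0 ≤ C₁) (hC₂ : 0 ≤ C₂) (hK : KMainStmt C₁ C₂) :
    ∃ C, 0 ≤ C ∧ KbProp C := by
  set C₀ : ℝ := Real.sqrt (2 * ((2 * C₁ + 38 * C₂) * 326 ^ 2 * 200)) with hC₀
  have hC₀0 : 0 ≤ C₀ := Real.sqrt_nonneg _
  refine ⟨32 * C₀ + 2720, by positivity, ?_⟩
  intro g hg d hd hd'
  have hB := BB_nonneg g
  have hsd := Real.sqrt_nonneg d
  have hrhs : 0 ≤ (32 * C₀ + 2720) * (d * Real.sqrt d) * BB g := by positivity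
  rw [← ENNReal.ofReal_le_ofReal_iff hrhs,
    ← lint_eq3 (F := fun p : ℝ × ℝ × ℝ => Pk (fun s => U g p.1 ⟨s, p.2.1⟩) (d / 8) (3 * d) p.2.2)
      (continuous_Pk_U hg _ _) (fun _ => Pk_nonneg _ _ _ _) (by norm_num) (by norm_num)
      (by norm_num)]
  simp only
  set cA : ℝ≥0∞ := ENNReal.ofReal (16 * d) * ENNReal.ofReal (C₀ * Real.sqrt d * BB g) with hcA
  have hline : ∀ y : ℝ, Continuous (fun s : ℝ => (⟨s, y⟩ : ℂ)) := fun y =>
    continuous_cmk continuous_id continuous_const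
  have hinner : ∀ τ ∈ Icc (1 : ℝ) 2, ∀ y ∈ Icc (-1 : ℝ) 1,
      ∫⁻ s in Icc (-3 : ℝ) 17, ENNReal.ofReal (Pk (fun s => U g τ ⟨s, y⟩) (d / 8) (3 * d) s) ≤
      (∫⁻ s in Icc (-3 : ℝ) 17, ENNReal.ofReal (d * cutf g d τ ⟨s, y⟩)) + cA := by
    intro τ hτ y hy
    have hcc : Continuous (fun s : ℝ => d * cutf g d τ ⟨s, y⟩) :=
      continuous_const.mul ((continuous_cutf hg d).comp (continuous_const.prodMk (hline y)))
    refine le_trans ?_ (add_le_add le_rfl (interior_line hC₁ hC₂ hK hg hd hd' hτ hy))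
    rw [← lintegral_add_left hcc.measurable.ennreal_ofReal]
    apply lintegral_mono
    intro s
    simp only
    by_cases hm : d * cutf g d τ ⟨s, y⟩ < Pk (fun s => U g τ ⟨s, y⟩) (d / 8) (3 * d) s
    · rw [indicator_of_mem (show s ∈ {s | d * cutf g d τ ⟨s, y⟩ <
        Pk (fun s => U g τ ⟨s, y⟩) (d / 8) (3 * d) s} from hm)]
      exact le_add_self
    · exact (ENNReal.ofReal_le_ofReal (not_lt.1 hm)).trans le_self_add
  calc ∫⁻ τ in Icc (1 : ℝ) 2, ∫⁻ y in Icc (-1 : ℝ) 1, ∫⁻ s in Icc (-3 : ℝ) 17,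
        ENNReal.ofReal (Pk (fun s => U g τ ⟨s, y⟩) (d / 8) (3 * d) s)
      ≤ ∫⁻ τ in Icc (1 : ℝ) 2, ((∫⁻ y in Icc (-1 : ℝ) 1, ∫⁻ s in Icc (-3 : ℝ) 17,
        ENNReal.ofReal (d * cutf g d τ ⟨s, y⟩)) + 2 * cA) := by
        apply setLIntegral_mono' measurableSet_Icc
        intro τ hτ
        calc ∫⁻ y in Icc (-1 : ℝ) 1, ∫⁻ s in Icc (-3 : ℝ) 17,
            ENNReal.ofReal (Pk (fun s => U g τ ⟨s, y⟩) (d / 8) (3 * d) s)
            ≤ ∫⁻ y in Icc (-1 : ℝ) 1, ((∫⁻ s in Icc (-3 : ℝ) 17,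
              ENNReal.ofReal (d * cutf g d τ ⟨s, y⟩)) + cA) :=
              setLIntegral_mono' measurableSet_Icc (fun y hy => hinner τ hτ y hy)
          _ = _ := by
              rw [lintegral_add_right _ measurable_const, setLIntegral_const, Real.volume_Icc]
              congr 1
              rw [mul_comm]
              norm_num
    _ = (∫⁻ τ in Icc (1 : ℝ) 2, ∫⁻ y in Icc (-1 : ℝ) 1, ∫⁻ s in Icc (-3 : ℝ) 17,
        ENNReal.ofReal (d * cutf g d τ ⟨s, y⟩)) + 2 * cA := by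
        rw [lintegral_add_right _ measurable_const, setLIntegral_const, Real.volume_Icc]
        norm_num
    _ ≤ ENNReal.ofReal (2720 * d ^ 2 * BB g) + 2 * cA := add_le_add (cut_total hg hd hd') le_rfl
    _ = ENNReal.ofReal (2720 * d ^ 2 * BB g + 2 * (16 * d * (C₀ * Real.sqrt d * BB g))) := by
        rw [hcA, ← ENNReal.ofReal_mul (by positivity), ENNReal.ofReal_add (by positivity)
          (by positivity), ENNReal.ofReal_mul (p := 2) (by norm_num)]
        norm_num
    _ ≤ ENNReal.ofReal ((32 * C₀ + 2720) * (d * Real.sqrt d) * BB g) := by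
        apply ENNReal.ofReal_le_ofReal
        have h1 : d ≤ Real.sqrt d := by
          have := Real.sqrt_le_sqrt (show d ^ 2 ≤ d by nlinarith)
          rwa [Real.sqrt_sq hd.le] at this
        have h2 : d * d * BB g ≤ d * Real.sqrt d * BB g :=
          mul_le_mul_of_nonneg_right (mul_le_mul_of_nonneg_left h1 hd.le) hB
        nlinarith

end Crest.Agent.R112
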