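import Crest.Agent.R112.KCore2

set_option autoImplicit false

namespace Crest.Agent.R112

open MeasureTheory Set Real intervalIntegral

variable {g : ℂ → ℝ}

/-- two concentric circle means differ by at most the mass of the ring (radii `≥ 1`) -/
theorem circle_diff (hg : ContDiff ℝ 1 g) (x : ℂ) (V : ℝ) {s t : ℝ} (hs : 1 ≤ s) (ht : 1 ≤ t) :
    |(∫ θ in (-π)..π, (g (pt x s θ) - V)) - ∫ θ in (-π)..π, (g (pt x t θ) - V)| ≤
      |mass g x s - mass g x t| := by
  have hgc := hg.continuous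
  have hnc := cont_nfd hg
  have hpi := Real.pi_pos
  wlog hst : s ≤ t generalizing s t
  · rw [abs_sub_comm, abs_sub_comm (mass g x s)]
    exact this ht hs (le_of_not_ge hst)
  have h1 := ring_le hg x (ρ₁ := s) (ρ₂ := t) (by linarith) hst
  have h0 : 0 ≤ ∫ θ in (-π)..π, ∫ u in s..t, ‖fderiv ℝ g (pt x u θ)‖ := by
    apply intervalIntegral.integral_nonneg (by linarith)
    intro θ _
    apply intervalIntegral.integral_nonneg hst
    intro u _
    exact norm_nonneg _
  have h2 : (∫ θ in (-π)..π, ∫ u in s..t, ‖fderiv ℝ g (pt x u θ)‖) ≤ mass g x t - mass g x s := by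
    nlinarith
  rw [abs_sub_comm, abs_sub_comm (mass g x s)]
  refine le_trans ?_ (h2.trans (le_abs_self _))
  rw [← intervalIntegral.integral_sub (Continuous.intervalIntegrable (by fun_prop) _ _)
    (Continuous.intervalIntegrable (by fun_prop) _ _)]
  apply (intervalIntegral.abs_integral_le_integral_abs (by linarith)).trans
  apply intervalIntegral.integral_mono_on (by linarith)
  · exact Continuous.intervalIntegrable (by fun_prop) _ _
  · exact Continuous.intervalIntegrable (by fun_prop) _ _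
  · intro θ _
    have := radial_diff hg x θ hst
    have e : g (pt x t θ) - V - (g (pt x s θ) - V) = g (pt x t θ) - g (pt x s θ) := by ring
    rw [e]
    exact this

/-- mean over the circle of radius `ρ₀` -/
theorem circle_small (hg : ContDiff ℝ 1 g) {x : ℂ} {r V s : ℝ} (hr : 1 ≤ r) (hs : 1 ≤ s)
    (hmax : IsLocalMax (fun r => A g r x) r) (hV : A g r x = V) :
    |∫ θ in (-π)..π, (g (pt x s θ) - V)| ≤ |mass g x s - mass g x r| := by
  have h := circle_diff hg x V hs hr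
  rw [opt_circle hg (by linarith) hmax hV, sub_zero] at h
  exact h

/-- integral over the ball of radius `ρ₀` -/
theorem ball_small (hg : ContDiff ℝ 1 g) {x : ℂ} {r V s : ℝ} (hr : 1 ≤ r) (hs : 1 ≤ s)
    (hr8 : r ≤ 8) (hs8 : s ≤ 8)
    (hmax : IsLocalMax (fun r => A g r x) r) (hV : A g r x = V) :
    |∫ z in Metric.ball x s, (g z - V)| ≤ 8 * |s - r| * |mass g x s - mass g x r| := by
  have hgc := hg.continuous
  have hpi := Real.pi_pos
  have hh : Continuous fun z => g z - V := by fun_prop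
  have h0 : ∫ z in Metric.ball x r, (g z - V) = 0 := by
    rw [A_eq (by linarith)] at hV
    have h2 : ∫ z in Metric.ball x r, g z = V * (π * r ^ 2) := by
      rw [← hV]; field_simp
    rw [MeasureTheory.integral_sub (integrableOn_ball' hgc _ _)
      (integrableOn_ball' continuous_const _ _), h2]
    rw [MeasureTheory.setIntegral_const, smul_eq_mul, MeasureTheory.measureReal_def,
      Complex.volume_ball]
    simp only [ENNReal.toReal_mul, ENNReal.toReal_pow, ENNReal.coe_toReal, NNReal.coe_real_pi]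
    rw [ENNReal.toReal_ofReal (by linarith)]
    ring
  have h1 := int_ball_sub hh x (ρ₁ := r) (ρ₂ := s) (by linarith) (by linarith)
  rw [h0, sub_zero, polar_swap hh] at h1
  rw [h1]
  have h3 : ‖∫ u in r..s, u * ∫ θ in (-π)..π, (g (pt x u θ) - V)‖ ≤
      (8 * |mass g x s - mass g x r|) * |s - r| := by
    apply intervalIntegral.norm_integral_le_of_norm_le_const
    intro u hu
    have hu1 : u ∈ uIcc r s := uIoc_subset_uIcc hu
    have hu2 : 1 ≤ u := by
      rcases le_total r s with h | h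
      · rw [uIcc_of_le h] at hu1; linarith [hu1.1]
      · rw [uIcc_of_ge h] at hu1; linarith [hu1.1]
    have hu3 : u ≤ 8 := by
      rcases le_total r s with h | h
      · rw [uIcc_of_le h] at hu1; linarith [hu1.2]
      · rw [uIcc_of_ge h] at hu1; linarith [hu1.2]
    have h4 := circle_small hg hr hu2 hmax hV
    have h5 : |mass g x u - mass g x r| ≤ |mass g x s - mass g x r| := by
      rcases le_total r s with h | h
      · rw [uIcc_of_le h] at hu1
        have a1 := mass_mono hg x hu1.1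
        have a2 := mass_mono hg x hu1.2
        rw [abs_of_nonneg (by linarith), abs_of_nonneg (by linarith)]
        linarith
      · rw [uIcc_of_ge h] at hu1
        have a1 := mass_mono hg x hu1.1
        have a2 := mass_mono hg x hu1.2
        rw [abs_of_nonpos (by linarith), abs_of_nonpos (by linarith)]
        linarith
    rw [norm_mul, Real.norm_eq_abs, Real.norm_eq_abs, abs_of_nonneg (by linarith : (0:ℝ) ≤ u)]
    exact mul_le_mul hu3 (h4.trans h5) (abs_nonneg _) (by norm_num)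
  rw [Real.norm_eq_abs] at h3
  linarith

/-- a ball on which the average is at most `V - Δ` -/
theorem ball_neg (hg : ContDiff ℝ 1 g) {y : ℂ} {ρ V Δ : ℝ} (hρ : 1 ≤ ρ) (hΔ : 0 ≤ Δ)
    (h : A g ρ y ≤ V - Δ) : ∫ z in Metric.ball y ρ, (g z - V) ≤ -π * Δ := by
  have hgc := hg.continuous
  have hpi := Real.pi_pos
  rw [A_eq (by linarith)] at h
  have hp : 0 < π * ρ ^ 2 := by positivity
  have h2 : ∫ z in Metric.ball y ρ, g z ≤ (V - Δ) * (π * ρ ^ 2) := by
    have := mul_le_mul_of_nonneg_right h hp.le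
    have e : 1 / (π * ρ ^ 2) * (∫ z in Metric.ball y ρ, g z) * (π * ρ ^ 2)
      = ∫ z in Metric.ball y ρ, g z := by field_simp
    rwa [e] at this
  rw [MeasureTheory.integral_sub (integrableOn_ball' hgc _ _)
      (integrableOn_ball' continuous_const _ _)]
  rw [MeasureTheory.setIntegral_const, smul_eq_mul, MeasureTheory.measureReal_def,
      Complex.volume_ball]
  simp only [ENNReal.toReal_mul, ENNReal.toReal_pow, ENNReal.coe_toReal, NNReal.coe_real_pi]
  rw [ENNReal.toReal_ofReal (by linarith)]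
  have h3 : 1 ≤ ρ ^ 2 := by nlinarith
  have h4 : 0 ≤ π * Δ * (ρ ^ 2 - 1) := by
    apply mul_nonneg (by positivity) (by linarith)
  nlinarith

theorem K_arith {a b d Δ m η D : ℝ} (hd : 0 < d) (hd' : d ≤ 1/64)
    (ha : 0 < a) (ha3 : a ≤ 3*d) (hb : 0 < b) (hb3 : b ≤ 3*d) (hΔ : 0 ≤ Δ)
    (hη0 : 0 ≤ η) (hη : η ≤ (1/200) * (Δ/d)) (hm0 : 0 ≤ m) (hD0 : 0 ≤ D)
    (hmain : π * (a + b) * Δ ≤ (a + b) * (24 * d * η) + (2 * (a * b * (a + b)) * η
      + 34 * (a * b * (a + b)) * m) + 17 * (a * b) * η + 2 * (a * b) * D) :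
    Δ/d ≤ 150*d*m + 2*D := by
  have hab : a * b ≤ 3/2 * d * (a + b) := by
    have e1 : (a + b) * (a + b) ≤ (6 * d) * (a + b) :=
      mul_le_mul_of_nonneg_right (by linarith) (by linarith)
    have e2 := sq_nonneg (a - b)
    have e3 : (a - b)^2 = (a + b) * (a + b) - 4 * (a * b) := by ring
    linarith
  have hab2 : a * b ≤ 9 * d ^ 2 := by
    have e1 : a * b ≤ (3 * d) * (3 * d) := mul_le_mul ha3 hb3 hb.le (by linarith)
    linarith
  have hs : 0 < a + b := by positivity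
  have h1 : (a + b) * (π * Δ) ≤ (a + b) * (24 * d * η + (2 * (9 * d ^ 2) * η + 34 * (9 * d ^ 2) * m)
      + 17 * (3/2 * d) * η + 2 * (3/2 * d) * D) := by
    have e1 : (a * b) * ((a + b) * η) ≤ (9 * d ^ 2) * ((a + b) * η) :=
      mul_le_mul_of_nonneg_right hab2 (by positivity)
    have e2 : (a * b) * ((a + b) * m) ≤ (9 * d ^ 2) * ((a + b) * m) :=
      mul_le_mul_of_nonneg_right hab2 (by positivity)
    have e3 : (a * b) * η ≤ (3/2 * d * (a + b)) * η := mul_le_mul_of_nonneg_right hab hη0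
    have e4 : (a * b) * D ≤ (3/2 * d * (a + b)) * D :=
      mul_le_mul_of_nonneg_right hab hD0
    linarith
  have h2 := le_of_mul_le_mul_left h1 hs
  have h3 : d * η ≤ Δ / 200 := by
    have := mul_le_mul_of_nonneg_left hη hd.le
    have e : d * (1 / 200 * (Δ / d)) = Δ / 200 := by field_simp
    linarith
  have h4 : d * (d * η) ≤ (1/64) * (Δ / 200) :=
    mul_le_mul hd' h3 (by positivity) (by norm_num)
  have hpi3 := Real.pi_gt_three
  have h5 : 3 * Δ ≤ π * Δ := mul_le_mul_of_nonneg_right hpi3.le hΔ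
  have h6 : Δ ≤ d * (150 * d * m + 2 * D) := by
    have e1 : 0 ≤ d ^ 2 * m := by positivity
    have e2 : 0 ≤ d * D := by positivity
    linarith
  rw [div_le_iff₀ hd]
  linarith

theorem K_arith2 {a b ρq ρp ρ₀ : ℝ} (ha : 0 < a) (hb : 0 < b) (ha1 : a ≤ 1) (hb1 : b ≤ 1)
    (hqb : |ρq - ρ₀| ≤ b) (hpa : |ρp - ρ₀| ≤ a) (hρ1 : 1 ≤ ρ₀) (hρ8 : ρ₀ ≤ 8)
    (hρq1 : 0 ≤ ρq) (hρq : ρq ≤ 8) (hρp1 : 0 ≤ ρp) (hρp : ρp ≤ 8) :
    |(a * (ρq ^ 2 - b ^ 2 - ρ₀ ^ 2) + b * (ρp ^ 2 - a ^ 2 - ρ₀ ^ 2)) / 2| ≤ 17 * (a * b) := by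
  have e1 : |ρq ^ 2 - b ^ 2 - ρ₀ ^ 2| ≤ 17 * b := by
    have h1 : |ρq ^ 2 - ρ₀ ^ 2| ≤ b * 16 := by
      have : ρq ^ 2 - ρ₀ ^ 2 = (ρq - ρ₀) * (ρq + ρ₀) := by ring
      rw [this, abs_mul]
      apply mul_le_mul hqb _ (abs_nonneg _) hb.le
      rw [abs_of_nonneg (by linarith)]; linarith
    have h2 : b ^ 2 ≤ b := by
      have := mul_le_mul_of_nonneg_left hb1 hb.le
      linarith
    have h3 := abs_le.1 h1
    have h4 : 0 ≤ b ^ 2 := sq_nonneg b
    rw [abs_le]
    constructor <;> linarith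
  have e2 : |ρp ^ 2 - a ^ 2 - ρ₀ ^ 2| ≤ 17 * a := by
    have h1 : |ρp ^ 2 - ρ₀ ^ 2| ≤ a * 16 := by
      have : ρp ^ 2 - ρ₀ ^ 2 = (ρp - ρ₀) * (ρp + ρ₀) := by ring
      rw [this, abs_mul]
      apply mul_le_mul hpa _ (abs_nonneg _) ha.le
      rw [abs_of_nonneg (by linarith)]; linarith
    have h2 : a ^ 2 ≤ a := by
      have := mul_le_mul_of_nonneg_left ha1 ha.le
      linarith
    have h3 := abs_le.1 h1
    have h4 : 0 ≤ a ^ 2 := sq_nonneg a
    rw [abs_le]
    constructor <;> linarith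
  have e3 : |(a * (ρq ^ 2 - b ^ 2 - ρ₀ ^ 2) + b * (ρp ^ 2 - a ^ 2 - ρ₀ ^ 2))|
      ≤ a * (17 * b) + b * (17 * a) := by
    refine (abs_add_le _ _).trans ?_
    rw [abs_mul, abs_mul, abs_of_pos ha, abs_of_pos hb]
    gcongr
  rw [abs_div, abs_two]
  linarith

set_option maxHeartbeats 400000 in
/-- the K lemma -/
theorem K_core (hg : ContDiff ℝ 1 g) {x : ℂ} {τ r d a b V Δ m ρ₀ : ℝ} (hτ : 1 ≤ τ) (hτ2 : τ ≤ 2)
    (hd : 0 < d) (hd' : d ≤ 1/64)
    (ha : 0 < a) (ha3 : a ≤ 3*d) (hb : 0 < b) (hb3 : b ≤ 3*d)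
    (hr1 : τ + 6*d ≤ r) (hr2 : r ≤ 4*τ - 6*d)
    (hmax : IsLocalMax (fun r => A g r x) r) (hV : A g r x = V) (hΔ : 0 ≤ Δ)
    (hq : ∀ ρ ∈ Icc τ (4*τ), A g ρ (x + b) ≤ V - Δ) (hp : ∀ ρ ∈ Icc τ (4*τ), A g ρ (x - a) ≤ V - Δ)
    (hρ₀ : |ρ₀ - r| ≤ 3*d) (hm : mass g x ρ₀ = m) (hm' : |m - mass g x r| ≤ (1/200) * (Δ/d)) :
    ∃ ρp ρq, ρp ∈ Icc (1:ℝ) 8 ∧ ρq ∈ Icc (1:ℝ) 8 ∧ mass g (x - a) ρp = m ∧ mass g (x + b) ρq = m ∧
      Δ/d ≤ 150*d*m + 2*(beta g (x + b) ρq - beta g (x - a) ρp) := by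
  have hpi := Real.pi_pos
  have hgc := hg.continuous
  have hρ₀' := abs_le.1 hρ₀
  have hρ1 : 1 ≤ ρ₀ := by linarith [hρ₀'.1]
  have hρ8 : ρ₀ ≤ 8 := by linarith [hρ₀'.2]
  -- the two radii
  have hdistb : dist x (x + b) = b := by
    rw [dist_eq_norm]; simp [abs_of_pos hb]
  have hdistb' : dist (x + b) x = b := by
    rw [dist_eq_norm]; simp [abs_of_pos hb]
  have hdista : dist x (x - a) = a := by
    rw [dist_eq_norm]; simp [abs_of_pos ha]
  have hdista' : dist (x - a) x = a := by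
    rw [dist_eq_norm]; simp [abs_of_pos ha]
  obtain ⟨ρq, hρq, hmq⟩ := exists_radius hg (x + b) (ρ₁ := ρ₀ - b) (ρ₂ := ρ₀ + b) (m := m)
    (by linarith) (by linarith)
    (by rw [← hm]; exact mass_subset hg (by rw [hdistb']; linarith))
    (by rw [← hm]; exact mass_subset hg (by rw [hdistb]))
  obtain ⟨ρp, hρp, hmp⟩ := exists_radius hg (x - a) (ρ₁ := ρ₀ - a) (ρ₂ := ρ₀ + a) (m := m)
    (by linarith) (by linarith)
    (by rw [← hm]; exact mass_subset hg (by rw [hdista']; linarith))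
    (by rw [← hm]; exact mass_subset hg (by rw [hdista]))
  have hqb : |ρq - ρ₀| ≤ b := abs_le.2 ⟨by linarith [hρq.1], by linarith [hρq.2]⟩
  have hpa : |ρp - ρ₀| ≤ a := abs_le.2 ⟨by linarith [hρp.1], by linarith [hρp.2]⟩
  have hq1 : τ ≤ ρq := by linarith [hρq.1, hρ₀'.1]
  have hq2 : ρq ≤ 4*τ := by linarith [hρq.2, hρ₀'.2]
  have hp1 : τ ≤ ρp := by linarith [hρp.1, hρ₀'.1]
  have hp2 : ρp ≤ 4*τ := by linarith [hρp.2, hρ₀'.2]
  refine ⟨ρp, ρq, ⟨by linarith, by linarith⟩, ⟨by linarith, by linarith⟩, hmp, hmq, ?_⟩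
  -- shift comparison
  have habsb : |b| = b := abs_of_pos hb
  have habsa : |-a| = a := by rw [abs_neg, abs_of_pos ha]
  have hcast : x + ((-a : ℝ) : ℂ) = x - a := by push_cast; ring
  obtain ⟨Eq, hEq, hJq⟩ := shift_compare hg (x := x) (b := b) (ρ := ρq) (ρ₀ := ρ₀) (V := V)
    (by rw [habsb]; linarith) hρ1 (by rw [habsb]; exact hqb) (by rw [hmq, hm])
  obtain ⟨Ep, hEp, hJp⟩ := shift_compare hg (x := x) (b := -a) (ρ := ρp) (ρ₀ := ρ₀) (V := V)
    (by rw [habsa]; linarith) hρ1 (by rw [habsa]; exact hpa) (by rw [hcast, hmp, hm])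
  rw [hcast] at hEp hJp
  set βq := beta g (x + b) ρq with hβq
  set βp := beta g (x - a) ρp with hβp
  set β0 := beta g x ρ₀ with hβ0
  set Jq := ∫ z in Metric.ball (x + (b:ℂ)) ρq, (g z - V) with hJq'
  set Jp := ∫ z in Metric.ball (x - (a:ℂ)) ρp, (g z - V) with hJp'
  set J0 := ∫ z in Metric.ball x ρ₀, (g z - V) with hJ0'
  set G : ℝ → ℝ := fun θ => g (pt x ρ₀ θ) - V with hG
  have hGc : Continuous G := by rw [hG]; fun_prop
  set M := ∫ θ in (-π)..π, G θ with hM
  set η := |m - mass g x r| with hη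
  have hη0 : 0 ≤ η := abs_nonneg _
  have hMle : |M| ≤ η := by
    rw [hM, hη, ← hm]
    exact circle_small hg (by linarith) hρ1 hmax hV
  have hJ0le : |J0| ≤ 24 * d * η := by
    have := ball_small hg (s := ρ₀) (by linarith) hρ1 (by linarith) hρ8 hmax hV
    rw [hm] at this
    refine this.trans ?_
    rw [← hη]
    have := mul_le_mul_of_nonneg_right hρ₀ hη0
    linarith
  have hJqle : Jq ≤ -π * Δ := ball_neg hg (by linarith) hΔ (hq ρq ⟨hq1, hq2⟩)
  have hJple : Jp ≤ -π * Δ := ball_neg hg (by linarith) hΔ (hp ρp ⟨hp1, hp2⟩)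
  have hbq : |b| < ρq := by rw [habsb]; linarith
  have hap : |-a| < ρp := by rw [habsa]; linarith
  -- weights
  set Sq := Sx b ρq with hSq
  set Sp := Sx (-a) ρp with hSp
  have hSqc : Continuous Sq := continuous_Sx b ρq
  have hSpc : Continuous Sp := continuous_Sx (-a) ρp
  set K₀ := a * (ρq ^ 2 - b ^ 2 - ρ₀ ^ 2) + b * (ρp ^ 2 - a ^ 2 - ρ₀ ^ 2) with hK₀
  have hw : ∀ θ, a * ((Sq θ ^ 2 - ρ₀ ^ 2) / 2) + b * ((Sp θ ^ 2 - ρ₀ ^ 2) / 2)
      = a * b * cos θ * (Sq θ - Sp θ) + K₀ / 2 := by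
    intro θ
    have e1 := Sx_sq hbq θ
    have e2 := Sx_sq hap θ
    rw [← hSq] at e1
    rw [← hSp] at e2
    rw [hK₀]
    linear_combination (a / 2) * e1 + (b / 2) * e2
  have hK₀le : |K₀ / 2| ≤ 17 * (a * b) :=
    K_arith2 ha hb (by linarith) (by linarith) hqb hpa hρ1 hρ8 (by linarith) (by linarith)
      (by linarith) (by linarith)
  have hκ : ∀ θ, |a * b * cos θ * (Sq θ - Sp θ)| ≤ 2 * (a * b * (a + b)) := by
    intro θ
    have e1 := abs_le.1 (Sx_dist hbq θ)
    have e2 := abs_le.1 (Sx_dist hap θ)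
    rw [← hSq, habsb] at e1
    rw [← hSp, habsa] at e2
    have q1 := abs_le.1 hqb
    have p1 := abs_le.1 hpa
    have e3 : |Sq θ - Sp θ| ≤ 2 * (a + b) := by
      rw [abs_le]
      constructor <;> linarith
    rw [abs_mul, abs_mul, abs_of_pos (mul_pos ha hb)]
    have e4 := abs_cos_le_one θ
    calc a * b * |cos θ| * |Sq θ - Sp θ| ≤ a * b * 1 * (2 * (a + b)) := by
          gcongr
      _ = _ := by ring
  have htr := trace_weight hg x (ρ := ρ₀) (by linarith) (κ := fun θ => a * b * cos θ * (Sq θ - Sp θ))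
    (by fun_prop) hκ V
  have hcomb : a * Jq + b * Jp = (a + b) * J0 + (∫ θ in (-π)..π, G θ * (a * b * cos θ * (Sq θ - Sp θ)))
      + (K₀ / 2) * M + (a * Eq + b * Ep) := by
    have e1 : a * (∫ θ in (-π)..π, G θ * ((Sq θ ^ 2 - ρ₀ ^ 2) / 2)) +
        b * (∫ θ in (-π)..π, G θ * ((Sp θ ^ 2 - ρ₀ ^ 2) / 2)) =
        (∫ θ in (-π)..π, G θ * (a * b * cos θ * (Sq θ - Sp θ))) + (K₀ / 2) * M := by
      rw [hM, ← intervalIntegral.integral_const_mul, ← intervalIntegral.integral_const_mul,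
        ← intervalIntegral.integral_const_mul, ← intervalIntegral.integral_add
          (Continuous.intervalIntegrable (by fun_prop) _ _)
          (Continuous.intervalIntegrable (by fun_prop) _ _), ← intervalIntegral.integral_add
          (Continuous.intervalIntegrable (by fun_prop) _ _)
          (Continuous.intervalIntegrable (by fun_prop) _ _)]
      apply intervalIntegral.integral_congr
      intro θ _
      simp only
      linear_combination (G θ) * (hw θ)
    linear_combination a * hJq + b * hJp + e1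
  -- collect
  have hD0 : 0 ≤ βq - βp := by
    have h1 : 0 ≤ 2 * b * (βq - β0) := (abs_nonneg _).trans hEq
    have h2 : 0 ≤ 2 * -a * (βp - β0) := (abs_nonneg _).trans hEp
    have h3 : 0 ≤ βq - β0 := nonneg_of_mul_nonneg_right h1 (by positivity)
    have h4 : 0 ≤ β0 - βp := by
      have : 0 ≤ 2 * a * (β0 - βp) := by linarith
      exact nonneg_of_mul_nonneg_right this (by positivity)
    linarith
  have hE : |a * Eq + b * Ep| ≤ 2 * (a * b) * (βq - βp) := by
    refine (abs_add_le _ _).trans ?_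
    rw [abs_mul, abs_mul, abs_of_pos ha, abs_of_pos hb]
    have h1 := mul_le_mul_of_nonneg_left hEq ha.le
    have h2 := mul_le_mul_of_nonneg_left hEp hb.le
    linarith
  have hm0 : 0 ≤ m := by rw [← hm]; exact mass_nonneg _ _
  have htr' : |∫ θ in (-π)..π, G θ * (a * b * cos θ * (Sq θ - Sp θ))| ≤
      2 * (a * b * (a + b)) * η + 34 * (a * b * (a + b)) * m := by
    refine htr.trans ?_
    rw [hm]
    have h1 : 2 * (a * b * (a + b)) * |∫ θ in (-π)..π, (g (pt x ρ₀ θ) - V)| ≤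
      2 * (a * b * (a + b)) * η := mul_le_mul_of_nonneg_left hMle (by positivity)
    have h2 : 17 * (2 * (a * b * (a + b))) / ρ₀ * m ≤ 34 * (a * b * (a + b)) * m := by
      apply mul_le_mul_of_nonneg_right _ hm0
      rw [div_le_iff₀ (by linarith)]
      have e0 : 0 ≤ 34 * (a * b * (a + b)) := by positivity
      have e1 := mul_le_mul_of_nonneg_left hρ1 e0
      linarith
    linarith
  have hKM : |(K₀ / 2) * M| ≤ 17 * (a * b) * η := by
    rw [abs_mul]
    exact mul_le_mul hK₀le hMle (abs_nonneg _) (by positivity)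
  have hmain : π * (a + b) * Δ ≤ (a + b) * (24 * d * η) + (2 * (a * b * (a + b)) * η
      + 34 * (a * b * (a + b)) * m) + 17 * (a * b) * η + 2 * (a * b) * (βq - βp) := by
    have h1 := mul_le_mul_of_nonneg_left hJqle ha.le
    have h2 := mul_le_mul_of_nonneg_left hJple hb.le
    have h3 := mul_le_mul_of_nonneg_left hJ0le (by positivity : 0 ≤ a + b)
    have h4 := mul_le_mul_of_nonneg_left (neg_abs_le J0) (by positivity : 0 ≤ a + b)
    have h5 := neg_abs_le (∫ θ in (-π)..π, G θ * (a * b * cos θ * (Sq θ - Sp θ)))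
    have h6 := neg_abs_le ((K₀ / 2) * M)
    have h7 := neg_abs_le (a * Eq + b * Ep)
    linarith
  exact K_arith hd hd' ha ha3 hb hb3 hΔ hη0 hm' hm0 hD0 hmain

end Crest.Agent.R112
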