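import Mathlib
import Crest.Agent.R112.KB
import Crest.Agent.R112.KCore3

/-!
# Row 112 (S0147): the K lemma for peaks; Proposition K_b
-/

set_option autoImplicit false

namespace Crest.Agent.R112

open MeasureTheory Metric Set Filter Topology

theorem kMainStmt : KMainStmt 150 2 := by
  intro g τ d x Δ a b r m ρ₀ h h1 h2 h3 h4 h5
  have hd := h.hd
  have hmax : IsLocalMax (fun t => A g t x) r := by
    have h3 : ∀ᶠ t in 𝓝 r, t ∈ Ioo τ (4 * τ) := Ioo_mem_nhds (by linarith) (by linarith)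
    filter_upwards [h3] with t ht
    rw [h.hr]
    exact A_le_U' h.hg (by linarith [h.hτ]) ht.1.le ht.2.le x
  exact K_core h.hg.1 h.hτ h.hτ' h.hd h.hd' h.a_pos h.ha2 h.b_pos h.hb2 h1 h2 hmax rfl h.hΔ.le
    (fun ρ hρ => h.Aq hρ.1 hρ.2) (fun ρ hρ => h.Ap hρ.1 hρ.2) h3 h4 h5

theorem K_b : ∃ C, 0 ≤ C ∧ KbProp C := KbProp_of_main (by norm_num) (by norm_num) kMainStmt

end Crest.Agent.R112
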