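import Crest.Agent.R112.Lines2

/-! R112: the horizontal lines theorem. -/

set_option autoImplicit false

namespace Crest.Agent.R112

open MeasureTheory Set Filter Topology Metric
open scoped ENNReal NNReal

theorem lines {C : ℝ≥0} (hC : CORE2 C) {F : ℂ → ℝ} {G : ℂ → (ℂ →L[ℝ] ℝ)} (hF : Integrable F)
    (hG : Integrable G)
    (happ : ∀ ε : ℝ, 0 < ε → ∃ φ : ℂ → ℝ, Nice φ ∧ ∫ z, |φ z - F z| ≤ ε ∧
      ∫ z, ‖fderiv ℝ φ z - G z‖ ≤ ε) :
    (∀ᵐ y : ℝ, (∀ s : ℝ, Mc F ⟨s, y⟩ < ⊤) ∧ GoodLine (fun s => (Mc F ⟨s, y⟩).toReal)) ∧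
    ∫⁻ y : ℝ, eVariationOn (fun s => (Mc F ⟨s, y⟩).toReal) univ ≤ C * ∫⁻ z, ‖G z‖ₑ := by
  choose φ hφ hφF hφG using fun n : ℕ => happ ((1 / 2 : ℝ) ^ n) (by positivity)
  have hpow : Tendsto (fun n : ℕ => (1 / 2 : ℝ) ^ n) atTop (𝓝 0) :=
    tendsto_pow_atTop_nhds_zero_of_lt_one (by norm_num) (by norm_num)
  have hFφ : Tendsto (fun n => ∫ z, |φ n z - F z|) atTop (𝓝 0) :=
    squeeze_zero (fun n => integral_nonneg fun _ => abs_nonneg _) hφF hpow
  set K : ℝ := (∫ z, ‖G z‖) + 1 with hK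
  have hKn : ∀ n, ∫ z, ‖fderiv ℝ (φ n) z‖ ≤ (∫ z, ‖G z‖) + (1 / 2 : ℝ) ^ n := by
    intro n
    have h1 : ∫ z, ‖fderiv ℝ (φ n) z‖ ≤ ∫ z, (‖G z‖ + ‖fderiv ℝ (φ n) z - G z‖) := by
      apply integral_mono (hφ n).integrable_fderiv.norm
        (hG.norm.add ((hφ n).integrable_fderiv.sub hG).norm)
      intro z
      have := norm_add_le (G z) (fderiv ℝ (φ n) z - G z)
      rw [add_sub_cancel] at this
      exact this
    have i2 : Integrable (fun z => ‖fderiv ℝ (φ n) z - G z‖) :=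
      ((hφ n).integrable_fderiv.sub hG).norm
    rw [integral_add hG.norm i2] at h1
    linarith [hφG n]
  have hKK : ∀ n, ∫ z, ‖fderiv ℝ (φ n) z‖ ≤ K := by
    intro n
    have : (1 / 2 : ℝ) ^ n ≤ 1 := pow_le_one₀ (by norm_num) (by norm_num)
    linarith [hKn n]
  set g : ℕ → ℂ → ℝ := fun n z => φ (n + 1) z - φ n z with hgdef
  have hg : ∀ n, Nice (g n) := fun n => (hφ (n + 1)).sub (hφ n)
  have hgd : ∀ n z, fderiv ℝ (g n) z = fderiv ℝ (φ (n + 1)) z - fderiv ℝ (φ n) z := by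
    intro n z
    exact fderiv_sub ((hφ (n + 1)).differentiable z) ((hφ n).differentiable z)
  have hgint : ∀ n, ∫⁻ z, ‖fderiv ℝ (g n) z‖ₑ ≤ ENNReal.ofReal (2 * (1 / 2 : ℝ) ^ n) := by
    intro n
    rw [← ofReal_integral_norm_eq_lintegral_enorm (hg n).integrable_fderiv]
    apply ENNReal.ofReal_le_ofReal
    have i1 : Integrable (fun z => ‖fderiv ℝ (φ (n + 1)) z - G z‖) :=
      ((hφ (n + 1)).integrable_fderiv.sub hG).norm
    have i2 : Integrable (fun z => ‖fderiv ℝ (φ n) z - G z‖) :=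
      ((hφ n).integrable_fderiv.sub hG).norm
    have h1 : ∫ z, ‖fderiv ℝ (g n) z‖ ≤
        ∫ z, (‖fderiv ℝ (φ (n + 1)) z - G z‖ + ‖fderiv ℝ (φ n) z - G z‖) := by
      apply integral_mono (hg n).integrable_fderiv.norm (i1.add i2)
      intro z
      simp only [hgd]
      have := norm_sub_le (fderiv ℝ (φ (n + 1)) z - G z) (fderiv ℝ (φ n) z - G z)
      rw [sub_sub_sub_cancel_right] at this
      exact this
    rw [integral_add i1 i2] at h1
    have h2 := hφG (n + 1)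
    have h3 := hφG n
    have h4 : (1 / 2 : ℝ) ^ (n + 1) = (1 / 2 : ℝ) ^ n * (1 / 2) := pow_succ _ _
    have h5 : 0 < (1 / 2 : ℝ) ^ n := by positivity
    linarith
  have hsum2 : Summable fun n : ℕ => 2 * (1 / 2 : ℝ) ^ n :=
    (summable_geometric_of_lt_one (by norm_num) (by norm_num)).mul_left 2
  have hsumE : ∑' n : ℕ, ENNReal.ofReal (2 * (1 / 2 : ℝ) ^ n) ≠ ⊤ := by
    rw [← ENNReal.ofReal_tsum_of_nonneg (fun n => by positivity) hsum2]
    exact ENNReal.ofReal_ne_top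
  choose W hWm hWv hWi using fun n => hC (g n) (hg n)
  choose W' hWm' hWv' hWi' using fun n => hC (φ n) (hφ n)
  -- (1)
  have h1 : ∫⁻ y, ∑' n, W n y ≠ ⊤ := by
    rw [lintegral_tsum fun n => (hWm n).aemeasurable]
    have : ∑' n, ∫⁻ y, W n y ≤ ∑' n : ℕ, C * ENNReal.ofReal (2 * (1 / 2 : ℝ) ^ n) := by
      apply ENNReal.tsum_le_tsum
      intro n
      exact (hWi n).trans (by gcongr; exact hgint n)
    refine ne_top_of_le_ne_top ?_ this
    rw [ENNReal.tsum_mul_left]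
    exact ENNReal.mul_ne_top ENNReal.coe_ne_top hsumE
  have ae1 : ∀ᵐ y, ∑' n, W n y < ⊤ := ae_lt_top (Measurable.tsum hWm) h1
  -- (2)
  have hmeasJ : ∀ n, Measurable fun z => ‖fderiv ℝ (g n) z‖ₑ := fun n =>
    (hg n).continuous_fderiv.measurable.enorm
  have hmk : Measurable (fun p : ℝ × ℝ => (⟨p.2, p.1⟩ : ℂ)) := by
    have : (fun p : ℝ × ℝ => (⟨p.2, p.1⟩ : ℂ)) = fun p : ℝ × ℝ => (p.2 : ℂ) + p.1 * Complex.I := by
      ext p
      exact Complex.mk_eq_add_mul_I p.2 p.1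
    rw [this]
    fun_prop
  have hmJ : ∀ n, Measurable fun y : ℝ => ∫⁻ s : ℝ, ‖fderiv ℝ (g n) ⟨s, y⟩‖ₑ := by
    intro n
    exact Measurable.lintegral_prod_right' (f := fun p : ℝ × ℝ => ‖fderiv ℝ (g n) ⟨p.2, p.1⟩‖ₑ)
      ((hmeasJ n).comp hmk)
  have h2 : ∫⁻ y, ∑' n, ∫⁻ s : ℝ, ‖fderiv ℝ (g n) ⟨s, y⟩‖ₑ ≠ ⊤ := by
    rw [lintegral_tsum fun n => (hmJ n).aemeasurable]
    refine ne_top_of_le_ne_top hsumE (ENNReal.tsum_le_tsum fun n => ?_)
    rw [← lint_slice (hmeasJ n)]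
    exact hgint n
  have ae2 : ∀ᵐ y, ∑' n, ∫⁻ s : ℝ, ‖fderiv ℝ (g n) ⟨s, y⟩‖ₑ < ⊤ :=
    ae_lt_top (Measurable.tsum hmJ) h2
  -- (3)
  have hWlim : ∫⁻ y, liminf (fun n => W' n y) atTop ≤ C * ∫⁻ z, ‖G z‖ₑ := by
    refine (lintegral_liminf_le hWm').trans ?_
    have hb : ∀ n, ∫⁻ y, W' n y ≤ C * (ENNReal.ofReal (∫ z, ‖G z‖) + ENNReal.ofReal ((1 / 2 : ℝ) ^ n)) := by
      intro n
      refine (hWi' n).trans ?_
      gcongr
      rw [← ofReal_integral_norm_eq_lintegral_enorm (hφ n).integrable_fderiv,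
        ← ENNReal.ofReal_add (integral_nonneg fun _ => norm_nonneg _) (by positivity)]
      exact ENNReal.ofReal_le_ofReal (hKn n)
    have hlim : Tendsto (fun n : ℕ => (C : ℝ≥0∞) * (ENNReal.ofReal (∫ z, ‖G z‖) +
        ENNReal.ofReal ((1 / 2 : ℝ) ^ n))) atTop (𝓝 (C * (ENNReal.ofReal (∫ z, ‖G z‖) + 0))) := by
      apply ENNReal.Tendsto.const_mul _ (Or.inr ENNReal.coe_ne_top)
      apply Tendsto.add tendsto_const_nhds
      have := ENNReal.tendsto_ofReal hpow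
      rwa [ENNReal.ofReal_zero] at this
    rw [add_zero] at hlim
    calc liminf (fun n => ∫⁻ y, W' n y) atTop
        ≤ liminf (fun n : ℕ => (C : ℝ≥0∞) * (ENNReal.ofReal (∫ z, ‖G z‖) +
            ENNReal.ofReal ((1 / 2 : ℝ) ^ n))) atTop := by
          apply liminf_le_liminf (Eventually.of_forall hb)
      _ = C * ∫⁻ z, ‖G z‖ₑ := by
          rw [hlim.liminf_eq, ofReal_integral_norm_eq_lintegral_enorm hG]
  have hGfin : (C : ℝ≥0∞) * ∫⁻ z, ‖G z‖ₑ ≠ ⊤ := by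
    apply ENNReal.mul_ne_top ENNReal.coe_ne_top
    exact hG.hasFiniteIntegral.ne
  have hWlm : Measurable fun y => liminf (fun n => W' n y) atTop := Measurable.liminf hWm'
  have ae3 : ∀ᵐ y, liminf (fun n => W' n y) atTop < ⊤ :=
    ae_lt_top hWlm (ne_top_of_le_ne_top hGfin hWlim)
  have hlw : ∀ y, liminf (fun n => eVariationOn (fun s : ℝ => Mz (φ n) ⟨s, y⟩) univ) atTop ≤
      liminf (fun n => W' n y) atTop := fun y =>
    liminf_le_liminf (Eventually.of_forall fun n => hWv' n y)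
  have main : ∀ᵐ y : ℝ, (∀ s : ℝ, Mc F ⟨s, y⟩ < ⊤) ∧ GoodLine (fun s => (Mc F ⟨s, y⟩).toReal) ∧
      eVariationOn (fun s => (Mc F ⟨s, y⟩).toReal) univ ≤
      liminf (fun n => eVariationOn (fun s : ℝ => Mz (φ n) ⟨s, y⟩) univ) atTop := by
    filter_upwards [ae1, ae2, ae3] with y hy1 hy2 hy3
    apply line_good hF hφ hFφ hKK y (w := fun n => (W n y).toReal)
    · exact ENNReal.summable_toReal hy1.ne
    · intro n s
      have hne : W n y ≠ ⊤ := ne_top_of_le_ne_top hy1.ne (ENNReal.le_tsum n)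
      have h3 := (Mz_le_eVar (hg n) y s).trans (hWv n y)
      have h4 := ENNReal.toReal_mono hne h3
      rwa [ENNReal.toReal_ofReal (Mz_nonneg (hg n) _)] at h4
    · have h5 := ENNReal.summable_toReal hy2.ne
      apply Summable.of_nonneg_of_le (fun n => integral_nonneg fun _ => abs_nonneg _) _ h5
      intro n
      have hne : ∫⁻ s : ℝ, ‖fderiv ℝ (g n) ⟨s, y⟩‖ₑ ≠ ⊤ :=
        ne_top_of_le_ne_top hy2.ne (ENNReal.le_tsum n)
      rw [← ENNReal.ofReal_le_ofReal_iff ENNReal.toReal_nonneg, ENNReal.ofReal_toReal hne]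
      calc ENNReal.ofReal (∫ s : ℝ, |fderiv ℝ (g n) ⟨s, y⟩ 1|)
          ≤ ∫⁻ s : ℝ, ENNReal.ofReal |fderiv ℝ (g n) ⟨s, y⟩ 1| := by
            rw [integral_eq_lintegral_of_nonneg_ae (Eventually.of_forall fun _ => abs_nonneg _)]
            · exact ENNReal.ofReal_toReal_le
            · have hline : Continuous (fun s : ℝ => (⟨s, y⟩ : ℂ)) := by
                have : (fun s : ℝ => (⟨s, y⟩ : ℂ)) = fun s : ℝ => (s : ℂ) + y * Complex.I := by
                  ext s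
                  exact Complex.mk_eq_add_mul_I s y
                rw [this]
                fun_prop
              exact (((hg n).continuous_fderiv.comp hline).clm_apply
                continuous_const).abs.aestronglyMeasurable
        _ ≤ ∫⁻ s : ℝ, ‖fderiv ℝ (g n) ⟨s, y⟩‖ₑ := by
            apply lintegral_mono
            intro s
            show ENNReal.ofReal |fderiv ℝ (g n) ⟨s, y⟩ 1| ≤ ‖fderiv ℝ (g n) ⟨s, y⟩‖ₑ
            rw [← ofReal_norm]
            exact ENNReal.ofReal_le_ofReal (abs_apply_one_le _)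
    · exact lt_of_le_of_lt (hlw y) hy3
  constructor
  · filter_upwards [main] with y hy
    exact ⟨hy.1, hy.2.1⟩
  · calc ∫⁻ y : ℝ, eVariationOn (fun s => (Mc F ⟨s, y⟩).toReal) univ
        ≤ ∫⁻ y, liminf (fun n => W' n y) atTop := by
          apply lintegral_mono_ae
          filter_upwards [main] with y hy
          exact hy.2.2.trans (hlw y)
      _ ≤ _ := hWlim

end Crest.Agent.R112
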