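import Crest.Agent.R112.Chain
import Crest.Agent.R112.Final
import Crest.Agent.R112.Lines
import Crest.Agent.R112.KMain

/-!
# R112 (S0147), module All: the unconditional lines theorem.
-/

set_option autoImplicit false

namespace Crest.Agent.R112

open MeasureTheory Set
open scoped ENNReal NNReal

theorem linesProp : ∃ C : ℝ≥0, LinesProp C := by
  obtain ⟨C0, hC0, hK⟩ := K_b
  obtain ⟨C, hC⟩ := core1_of_kb hC0 hK
  refine ⟨C, fun F G hF hG happ => ?_⟩
  exact lines (C := C) (fun f hf => core2_of_core1 hC hf) hF hG happ

end Crest.Agent.R112
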