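import Crest.Agent.R112.Resc

/-!
Row 112 (S0147), module Assembly: the abstract averaging argument of section 4.
-/

set_option autoImplicit false

namespace Crest.Agent.R112

open MeasureTheory Set Filter Topology
open scoped NNReal ENNReal

theorem ofReal_abs_eq (a : ℝ) : ENNReal.ofReal |a| = ENNReal.ofReal a + ENNReal.ofReal (-a) := by
  rcases le_total 0 a with h | h
  · rw [abs_of_nonneg h, ENNReal.ofReal_of_nonpos (by linarith : -a ≤ 0), add_zero]
  · rw [abs_of_nonpos h, ENNReal.ofReal_of_nonpos h, zero_add]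

theorem enorm_eq_ofReal_norm (L : ℂ →L[ℝ] ℝ) : ‖L‖ₑ = ENNReal.ofReal ‖L‖ := (ofReal_norm L).symm

section
variable (f u V : ℂ → ℝ) (e : ℂ)

/-- the set where `V` realises `u` and `u` is not attached in direction `e` -/
def NN : Set ℂ := {x | u x = V x ∧ ¬ AttP e f u x}

/-- detached weight -/
noncomputable def WdetW (x : ℂ) : ℝ≥0∞ :=
  (NN f u V e).indicator (fun x => ENNReal.ofReal (fderiv ℝ V x e)) x +
    ENNReal.ofReal (-(fderiv ℝ V x e))

/-- attached weight -/
noncomputable def aa (x : ℂ) : ℝ≥0∞ :=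
  {x | AttP e f u x}.indicator (fun x => ENNReal.ofReal (fderiv ℝ u x e)) x

variable {f u V}

theorem measurableSet_NN (hf : Continuous f) (hu : Continuous u) (hV : Continuous V) :
    MeasurableSet (NN f u V e) :=
  (isClosed_eq hu hV).measurableSet.inter (measurableSet_attP e hf hu).compl

theorem measurable_WdetW (hf : Continuous f) (hu : Continuous u) (hV : Continuous V) :
    Measurable (WdetW f u V e) := by
  have h1 : Measurable fun x => fderiv ℝ V x e := measurable_fderiv_apply_const ℝ _ _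
  exact (h1.ennreal_ofReal.indicator (measurableSet_NN e hf hu hV)).add h1.neg.ennreal_ofReal

theorem measurable_aa (hf : Continuous f) (hu : Continuous u) : Measurable (aa f u e) := by
  have h1 : Measurable fun x => fderiv ℝ u x e := measurable_fderiv_apply_const ℝ _ _
  exact h1.ennreal_ofReal.indicator (measurableSet_attP e hf hu)

theorem abs_le_aa_WdetW {x : ℂ} (h1 : u x = V x) (h2 : fderiv ℝ u x = fderiv ℝ V x) :
    ENNReal.ofReal |fderiv ℝ u x e| ≤ aa f u e x + WdetW f u V e x := by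
  rw [ofReal_abs_eq]
  unfold aa WdetW
  by_cases h : AttP e f u x
  · rw [indicator_of_mem (show x ∈ {x | AttP e f u x} from h)]
    apply add_le_add le_rfl
    rw [h2]
    exact le_add_self
  · rw [indicator_of_notMem (show x ∉ {x | AttP e f u x} from h),
      indicator_of_mem (show x ∈ NN f u V e from ⟨h1, h⟩), zero_add, h2]

end

/-- the abstract averaging argument -/
theorem assembly {f u : ℂ → ℝ} (hf : Nice f) {K : ℝ≥0} (hfK : LipschitzWith K f)
    (huK : LipschitzWith K u) {V : ℕ → ℂ → ℝ} (hVK : ∀ k, LipschitzWith K (V k))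
    (hfu : ∀ x, f x ≤ u x) (hf0 : ∀ x, 0 ≤ f x)
    (hex : ∀ x, f x < u x → ∃ k, u x = V k x)
    {E : ℕ → ℂ} (hE : ∀ n, ‖E n‖ = 1)
    {G : ℕ → ℕ → Set ℂ} (hG : ∀ k n, MeasurableSet (G k n))
    (hV5 : ∀ k x₀ (L : ℂ →L[ℝ] ℝ), ENNReal.ofReal ‖L‖ ≤
      3 * ∑ n ∈ Finset.range 16, (G k n).indicator (fun _ => ENNReal.ofReal |L (E n)|) x₀)
    {t : ℕ → ℝ} (ht : ∀ k, 0 < t k) {J : ℕ → ℕ → ℂ → ℝ≥0∞}
    (hloc : ∀ k n x₀, x₀ ∈ G k n →
      ∫⁻ x in Metric.ball x₀ (t k), WdetW f u (V k) (E n) x ≤ J k n x₀) :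
    ∫⁻ x, ‖fderiv ℝ u x‖ₑ ≤ 49 * (∫⁻ x, ‖fderiv ℝ f x‖ₑ) +
      ∑' k, (volume (Metric.ball (0 : ℂ) (t k)))⁻¹ *
        (3 * ∑ n ∈ Finset.range 16, ∫⁻ x₀ in G k n, J k n x₀) := by
  have hfc := hfK.continuous
  have huc := huK.continuous
  have hVc : ∀ k, Continuous (V k) := fun k => (hVK k).continuous
  set c : ℕ → ℝ≥0∞ := fun k => (volume (Metric.ball (0 : ℂ) (t k)))⁻¹ with hc
  -- the kernel
  set P : ℕ → ℕ → ℂ × ℂ → ℝ≥0∞ := fun k n p =>
    {p : ℂ × ℂ | p.2 ∈ G k n ∧ dist p.1 p.2 < t k}.indicator (fun p => WdetW f u (V k) (E n) p.1) p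
    with hP
  have hPset : ∀ k n, MeasurableSet {p : ℂ × ℂ | p.2 ∈ G k n ∧ dist p.1 p.2 < t k} := by
    intro k n
    have h1 : MeasurableSet {p : ℂ × ℂ | dist p.1 p.2 < t k} :=
      (isOpen_lt (by fun_prop) continuous_const).measurableSet
    exact (measurable_snd (hG k n)).inter h1
  have hPm : ∀ k n, Measurable (P k n) := fun k n =>
    ((measurable_WdetW (E n) hfc huc (hVc k)).comp measurable_fst).indicator (hPset k n)
  have hPm' : ∀ k n, Measurable fun x => ∫⁻ x₀, P k n (x, x₀) := fun k n =>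
    (hPm k n).lintegral_prod_right'
  -- pointwise
  have hpt : ∀ᵐ x, ‖fderiv ℝ u x‖ₑ ≤ ‖fderiv ℝ f x‖ₑ +
      3 * ∑ n ∈ Finset.range 16, aa f u (E n) x +
      ∑' k, c k * (3 * ∑ n ∈ Finset.range 16, ∫⁻ x₀, P k n (x, x₀)) := by
    have hall : ∀ᵐ x, ∀ k, u x = V k x → fderiv ℝ u x = fderiv ℝ (V k) x := by
      rw [ae_all_iff]
      intro k
      exact ae_fderiv_eq_of_eqOn huK (hVK k)
    filter_upwards [hall, ae_fderiv_eq_of_eqOn huK hfK] with x h1 h2
    rcases (hfu x).eq_or_lt with h | h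
    · rw [h2 h.symm, add_assoc]
      exact le_self_add
    · obtain ⟨k, hk⟩ := hex x h
      have hd := h1 k hk
      set L := fderiv ℝ u x with hL
      have hx0 : ∀ x₀ ∈ Metric.ball x (t k), ENNReal.ofReal ‖L‖ ≤
          3 * ∑ n ∈ Finset.range 16, aa f u (E n) x +
          3 * ∑ n ∈ Finset.range 16, P k n (x, x₀) := by
        intro x₀ hx₀
        refine (hV5 k x₀ L).trans ?_
        rw [← mul_add, ← Finset.sum_add_distrib]
        gcongr with n _
        by_cases hg : x₀ ∈ G k n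
        · rw [indicator_of_mem hg]
          refine (abs_le_aa_WdetW (f := f) (E n) hk hd).trans ?_
          have hmem : (x, x₀) ∈ {p : ℂ × ℂ | p.2 ∈ G k n ∧ dist p.1 p.2 < t k} := by
            refine ⟨hg, ?_⟩
            rw [dist_comm]; exact hx₀
          have : P k n (x, x₀) = WdetW f u (V k) (E n) x := by
            rw [hP]; exact indicator_of_mem hmem _
          rw [this]
        · rw [indicator_of_notMem hg]
          exact bot_le
      have hvol : volume (Metric.ball x (t k)) = volume (Metric.ball (0 : ℂ) (t k)) :=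
        Measure.addHaar_ball_center _ _ _
      have hvpos : volume (Metric.ball (0 : ℂ) (t k)) ≠ 0 :=
        (Metric.measure_ball_pos _ _ (ht k)).ne'
      have hvfin : volume (Metric.ball (0 : ℂ) (t k)) ≠ ⊤ := measure_ball_lt_top.ne
      have hkk : ENNReal.ofReal ‖L‖ ≤ 3 * ∑ n ∈ Finset.range 16, aa f u (E n) x +
          c k * (3 * ∑ n ∈ Finset.range 16, ∫⁻ x₀, P k n (x, x₀)) := by
        have hcv : c k * volume (Metric.ball x (t k)) = 1 := by
          rw [hvol]; exact ENNReal.inv_mul_cancel hvpos hvfin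
        calc ENNReal.ofReal ‖L‖ = c k * ∫⁻ _x₀ in Metric.ball x (t k), ENNReal.ofReal ‖L‖ := by
              rw [setLIntegral_const, mul_left_comm, hcv, mul_one]
          _ ≤ c k * ∫⁻ x₀ in Metric.ball x (t k),
              (3 * ∑ n ∈ Finset.range 16, aa f u (E n) x +
                3 * ∑ n ∈ Finset.range 16, P k n (x, x₀)) := by
              exact mul_le_mul_right (setLIntegral_mono' measurableSet_ball hx0) _
          _ = 3 * ∑ n ∈ Finset.range 16, aa f u (E n) x + c k *
              ∫⁻ x₀ in Metric.ball x (t k), 3 * ∑ n ∈ Finset.range 16, P k n (x, x₀) := by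
              rw [lintegral_add_left measurable_const, setLIntegral_const, mul_add, mul_left_comm,
                hcv, mul_one]
          _ ≤ 3 * ∑ n ∈ Finset.range 16, aa f u (E n) x + c k *
              ∫⁻ x₀, 3 * ∑ n ∈ Finset.range 16, P k n (x, x₀) := by
              gcongr
              exact Measure.restrict_le_self
          _ = _ := by
              have hsec : ∀ n, Measurable fun x₀ => P k n (x, x₀) := fun n =>
                (hPm k n).comp measurable_prodMk_left
              rw [lintegral_const_mul _ (Finset.measurable_fun_sum _ fun n _ => hsec n),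
                lintegral_finsetSum _ fun n _ => hsec n]
      rw [enorm_eq_ofReal_norm]
      refine hkk.trans ?_
      rw [add_assoc]
      refine le_trans ?_ le_add_self
      gcongr
      exact ENNReal.le_tsum k
  have hA : ∀ n, ∫⁻ x, aa f u (E n) x ≤ ∫⁻ x, ‖fderiv ℝ f x‖ₑ := by
    intro n
    have hm := measurableSet_attP (E n) hfc huc
    have : ∫⁻ x, aa f u (E n) x =
        ∫⁻ x in {x | AttP (E n) f u x}, ENNReal.ofReal (fderiv ℝ u x (E n)) :=
      lintegral_indicator hm _
    rw [this]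
    exact lint_attP (hE n) hf hfu hf0 hfK huK
  have hB : ∀ k n, ∫⁻ x, ∫⁻ x₀, P k n (x, x₀) ≤ ∫⁻ x₀ in G k n, J k n x₀ := by
    intro k n
    have hswap : ∫⁻ x, ∫⁻ x₀, P k n (x, x₀) = ∫⁻ x₀, ∫⁻ x, P k n (x, x₀) :=
      lintegral_lintegral_swap (hPm k n).aemeasurable
    rw [hswap, ← lintegral_indicator (hG k n)]
    apply lintegral_mono
    intro x₀
    show ∫⁻ x, P k n (x, x₀) ≤ (G k n).indicator (J k n) x₀
    by_cases hg : x₀ ∈ G k n
    · rw [indicator_of_mem hg]
      refine le_trans (le_of_eq ?_) (hloc k n x₀ hg)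
      rw [← lintegral_indicator measurableSet_ball]
      congr 1
      ext x
      by_cases hx : x ∈ Metric.ball x₀ (t k)
      · rw [indicator_of_mem hx]
        have hmem : (x, x₀) ∈ {p : ℂ × ℂ | p.2 ∈ G k n ∧ dist p.1 p.2 < t k} := ⟨hg, hx⟩
        rw [hP]; exact indicator_of_mem hmem _
      · rw [indicator_of_notMem hx]
        have hmem : (x, x₀) ∉ {p : ℂ × ℂ | p.2 ∈ G k n ∧ dist p.1 p.2 < t k} :=
          fun h => hx h.2
        rw [hP]; exact indicator_of_notMem hmem _
    · have : ∀ x, P k n (x, x₀) = 0 := by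
        intro x
        have hmem : (x, x₀) ∉ {p : ℂ × ℂ | p.2 ∈ G k n ∧ dist p.1 p.2 < t k} :=
          fun h => hg h.1
        rw [hP]; exact indicator_of_notMem hmem _
      simp only [this, lintegral_zero]
      exact bot_le
  -- integrate
  have hm1 : Measurable fun x => ‖fderiv ℝ f x‖ₑ := (measurable_fderiv ℝ f).enorm
  have hm2 : Measurable fun x => 3 * ∑ n ∈ Finset.range 16, aa f u (E n) x :=
    (Finset.measurable_fun_sum _ fun n _ => measurable_aa (E n) hfc huc).const_mul _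
  have hm12 : Measurable fun x => ‖fderiv ℝ f x‖ₑ +
      3 * ∑ n ∈ Finset.range 16, aa f u (E n) x := hm1.add hm2
  have hm3 : ∀ k, Measurable fun x => c k *
      (3 * ∑ n ∈ Finset.range 16, ∫⁻ x₀, P k n (x, x₀)) := fun k =>
    ((Finset.measurable_fun_sum _ fun n _ => hPm' k n).const_mul _).const_mul _
  calc ∫⁻ x, ‖fderiv ℝ u x‖ₑ ≤ ∫⁻ x, (‖fderiv ℝ f x‖ₑ +
      3 * ∑ n ∈ Finset.range 16, aa f u (E n) x +
      ∑' k, c k * (3 * ∑ n ∈ Finset.range 16, ∫⁻ x₀, P k n (x, x₀))) := lintegral_mono_ae hpt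
    _ = (∫⁻ x, ‖fderiv ℝ f x‖ₑ) + 3 * ∑ n ∈ Finset.range 16, (∫⁻ x, aa f u (E n) x) +
      ∑' k, c k * (3 * ∑ n ∈ Finset.range 16, ∫⁻ x, ∫⁻ x₀, P k n (x, x₀)) := by
        rw [lintegral_add_left hm12, lintegral_add_left hm1,
          lintegral_const_mul _ (Finset.measurable_fun_sum _ fun n _ =>
            measurable_aa (E n) hfc huc),
          lintegral_finsetSum _ fun n _ => measurable_aa (E n) hfc huc,
          lintegral_tsum fun k => (hm3 k).aemeasurable]
        congr 2
        ext k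
        rw [lintegral_const_mul _ ((Finset.measurable_fun_sum _ fun n _ =>
            hPm' k n).const_mul _), lintegral_const_mul _ (Finset.measurable_fun_sum _ fun n _ =>
            hPm' k n), lintegral_finsetSum _ fun n _ => hPm' k n]
    _ ≤ (∫⁻ x, ‖fderiv ℝ f x‖ₑ) + 3 * ∑ n ∈ Finset.range 16, (∫⁻ x, ‖fderiv ℝ f x‖ₑ) +
      ∑' k, c k * (3 * ∑ n ∈ Finset.range 16, ∫⁻ x₀ in G k n, J k n x₀) := by
        refine add_le_add (add_le_add le_rfl ?_) (ENNReal.tsum_le_tsum fun k => ?_)
        · exact mul_le_mul_right (Finset.sum_le_sum fun n _ => hA n) 3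
        · exact mul_le_mul_right (mul_le_mul_right (Finset.sum_le_sum fun n _ => hB k n) 3) _
    _ = _ := by
        congr 1
        rw [Finset.sum_const, Finset.card_range, nsmul_eq_mul, ← mul_assoc]
        nth_rewrite 1 [← one_mul (∫⁻ x, ‖fderiv ℝ f x‖ₑ)]
        rw [← add_mul]
        congr 1
        norm_num

end Crest.Agent.R112
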