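import Crest.Agent.R112.PlaneO1
import Crest.Agent.R112.Defs

/-!
Row 112 (S0147), module AttPlane: attached points in the plane, direction `e`.
-/

set_option autoImplicit false

namespace Crest.Agent.R112

open MeasureTheory Set Filter Topology
open scoped NNReal ENNReal

/-- attached in direction `e`, with travel at most `R` -/
def AttR (R : ℝ) (e : ℂ) (f u : ℂ → ℝ) (z : ℂ) : Prop :=
  ∃ σ ∈ Icc (0 : ℝ) R, u z ≤ f (z + σ * e) ∧ ∀ t ∈ Icc (0 : ℝ) σ, u z ≤ u (z + t * e)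

/-- attached in direction `e` -/
def AttP (e : ℂ) (f u : ℂ → ℝ) (z : ℂ) : Prop :=
  ∃ σ : ℝ, 0 ≤ σ ∧ u z ≤ f (z + σ * e) ∧ ∀ t ∈ Icc (0 : ℝ) σ, u z ≤ u (z + t * e)

theorem attP_of_attR {R : ℝ} {e : ℂ} {f u : ℂ → ℝ} {z : ℂ} (h : AttR R e f u z) : AttP e f u z := by
  obtain ⟨σ, h1, h2, h3⟩ := h
  exact ⟨σ, h1.1, h2, h3⟩

theorem isClosed_attR (R : ℝ) (e : ℂ) {f u : ℂ → ℝ} (hf : Continuous f) (hu : Continuous u) :
    IsClosed {z | AttR R e f u z} := by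
  have hcl : IsClosed {p : ℂ × Icc (0 : ℝ) R | u p.1 ≤ f (p.1 + (p.2 : ℝ) * e) ∧
      ∀ θ ∈ Icc (0 : ℝ) 1, u p.1 ≤ u (p.1 + ((θ * (p.2 : ℝ) : ℝ) : ℂ) * e)} := by
    have h1 : IsClosed {p : ℂ × Icc (0 : ℝ) R | u p.1 ≤ f (p.1 + (p.2 : ℝ) * e)} := by
      apply isClosed_le <;> fun_prop
    have h2 : IsClosed (⋂ θ ∈ Icc (0 : ℝ) 1, {p : ℂ × Icc (0 : ℝ) R |
        u p.1 ≤ u (p.1 + ((θ * (p.2 : ℝ) : ℝ) : ℂ) * e)}) := by
      apply isClosed_biInter
      intro θ _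
      apply isClosed_le <;> fun_prop
    convert h1.inter h2 using 1
    ext p
    simp
  have := isClosedMap_fst_of_compactSpace (X := ℂ) (Y := Icc (0 : ℝ) R) _ hcl
  convert this using 1
  ext z
  simp only [mem_image, mem_ofPred_eq, Prod.exists, exists_and_right, exists_eq_right]
  constructor
  · rintro ⟨σ, h1, h2, h3⟩
    refine ⟨⟨σ, h1⟩, h2, fun θ hθ => ?_⟩
    exact h3 _ ⟨mul_nonneg hθ.1 h1.1, mul_le_of_le_one_left h1.1 hθ.2⟩
  · rintro ⟨⟨σ, h1⟩, h2, h3⟩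
    refine ⟨σ, h1, h2, fun t ht => ?_⟩
    rcases eq_or_lt_of_le h1.1 with h0 | h0
    · have : t = 0 := le_antisymm (h0 ▸ ht.2) ht.1
      subst this
      simp
    · have := h3 (t / σ) ⟨div_nonneg ht.1 h1.1, div_le_one_of_le₀ ht.2 h1.1⟩
      rwa [div_mul_cancel₀ _ h0.ne'] at this

theorem measurableSet_attP (e : ℂ) {f u : ℂ → ℝ} (hf : Continuous f) (hu : Continuous u) :
    MeasurableSet {z | AttP e f u z} := by
  have : {z | AttP e f u z} = ⋃ n : ℕ, {z | AttR n e f u z} := by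
    ext z
    simp only [mem_ofPred_eq, mem_iUnion]
    constructor
    · rintro ⟨σ, h1, h2, h3⟩
      obtain ⟨n, hn⟩ := exists_nat_ge σ
      exact ⟨n, σ, ⟨h1, hn⟩, h2, h3⟩
    · rintro ⟨n, h⟩
      exact attP_of_attR h
  rw [this]
  exact MeasurableSet.iUnion fun n => (isClosed_attR n e hf hu).measurableSet

theorem fderiv_aff (f : ℂ → ℝ) (x0 : ℂ) {c : ℂ} (hc : c ≠ 0) (z v : ℂ) :
    fderiv ℝ (fun z => f (x0 + c * z)) z v = fderiv ℝ f (x0 + c * z) (c * v) := by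
  have h1 : (fun z => f (x0 + c * z)) = (fun w => f (x0 + w)) ∘
      (ContinuousLinearEquiv.restrictScalars ℝ
        (ContinuousLinearEquiv.unitsEquivAut ℂ (Units.mk0 c hc))) := by
    ext z
    simp [mul_comm]
  rw [h1, ContinuousLinearEquiv.comp_right_fderiv, fderiv_comp_add_left]
  simp [mul_comm]

theorem line_lipschitz (y : ℝ) : LipschitzWith 1 (fun s : ℝ => (⟨s, y⟩ : ℂ)) := by
  refine LipschitzWith.of_dist_le_mul fun a b => ?_
  rw [Complex.dist_eq, Real.dist_eq]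
  have : (⟨a, y⟩ : ℂ) - ⟨b, y⟩ = ((a - b : ℝ) : ℂ) := by
    apply Complex.ext <;> simp
  rw [this, Complex.norm_real]
  simp

theorem line_hasDerivAt (y s : ℝ) : HasDerivAt (fun s : ℝ => (⟨s, y⟩ : ℂ)) 1 s := by
  have h : (fun s : ℝ => (⟨s, y⟩ : ℂ)) = fun s : ℝ => (s : ℂ) + y * Complex.I := by
    ext s; apply Complex.ext <;> simp
  rw [h]
  exact (Complex.ofRealCLM.hasDerivAt (x := s)).add_const _

theorem ofReal_fderiv_one_le (u : ℂ → ℝ) (s y : ℝ) :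
    ENNReal.ofReal (fderiv ℝ u ⟨s, y⟩ 1) ≤ ENNReal.ofReal (deriv (fun s : ℝ => u ⟨s, y⟩) s) := by
  by_cases h : DifferentiableAt ℝ u ⟨s, y⟩
  · have : HasDerivAt (fun s : ℝ => u ⟨s, y⟩) (fderiv ℝ u ⟨s, y⟩ 1) s :=
      h.hasFDerivAt.comp_hasDerivAt s (line_hasDerivAt y s)
    rw [this.deriv]
  · rw [fderiv_zero_of_not_differentiableAt h]; simp

theorem ofReal_neg_fderiv_one_le (u : ℂ → ℝ) (s y : ℝ) :
    ENNReal.ofReal (-(fderiv ℝ u ⟨s, y⟩ 1)) ≤
      ENNReal.ofReal (-(deriv (fun s : ℝ => u ⟨s, y⟩) s)) := by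
  by_cases h : DifferentiableAt ℝ u ⟨s, y⟩
  · have : HasDerivAt (fun s : ℝ => u ⟨s, y⟩) (fderiv ℝ u ⟨s, y⟩ 1) s :=
      h.hasFDerivAt.comp_hasDerivAt s (line_hasDerivAt y s)
    rw [this.deriv]
  · rw [fderiv_zero_of_not_differentiableAt h]; simp

theorem enorm_deriv_line_le {f : ℂ → ℝ} (hf : Differentiable ℝ f) (s y : ℝ) :
    ‖deriv (fun s : ℝ => f ⟨s, y⟩) s‖ₑ ≤ ‖fderiv ℝ f ⟨s, y⟩‖ₑ := by
  have : HasDerivAt (fun s : ℝ => f ⟨s, y⟩) (fderiv ℝ f ⟨s, y⟩ 1) s :=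
    (hf _).hasFDerivAt.comp_hasDerivAt s (line_hasDerivAt y s)
  rw [this.deriv, ← ofReal_norm, ← ofReal_norm]
  apply ENNReal.ofReal_le_ofReal
  simpa using (fderiv ℝ f ⟨s, y⟩).le_opNorm 1

/-- O2 in the plane, direction `1` -/
theorem lint_attP_one {f u : ℂ → ℝ} (hN : Nice f) (hfu : ∀ x, f x ≤ u x) (hf0 : ∀ x, 0 ≤ f x)
    {K : ℝ≥0} (hf : LipschitzWith K f) (hu : LipschitzWith K u) :
    ∫⁻ z in {z | AttP 1 f u z}, ENNReal.ofReal (fderiv ℝ u z 1) ≤ ∫⁻ z, ‖fderiv ℝ f z‖ₑ := by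
  have hm := measurableSet_attP 1 hf.continuous hu.continuous
  rw [← lintegral_indicator hm]
  have hd : Differentiable ℝ f := hN.1.differentiable (by norm_num)
  rw [lint_slice, lint_slice]
  rotate_left
  · exact (measurable_fderiv ℝ f).enorm
  · exact ((measurable_fderiv_apply_const ℝ u 1).ennreal_ofReal).indicator hm
  apply lintegral_mono
  intro y
  obtain ⟨b, hb⟩ : ∃ b : ℝ, ∀ x : ℝ, b ≤ x → f ⟨x, y⟩ = 0 := by
    obtain ⟨R, hR⟩ := hN.2.isCompact.isBounded.subset_closedBall 0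
    refine ⟨R + 1, fun x hx => ?_⟩
    by_contra hne
    have h1 : (⟨x, y⟩ : ℂ) ∈ tsupport f := subset_tsupport f hne
    have h2 := hR h1
    rw [mem_closedBall_zero_iff] at h2
    have h3 : |x| ≤ ‖(⟨x, y⟩ : ℂ)‖ := Complex.abs_re_le_norm ⟨x, y⟩
    have h4 : x ≤ |x| := le_abs_self x
    linarith
  have hf' : LipschitzWith K (fun s : ℝ => f ⟨s, y⟩) := by
    simpa [Function.comp_def] using hf.comp (line_lipschitz y)
  have hu' : LipschitzWith K (fun s : ℝ => u ⟨s, y⟩) := by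
    simpa [Function.comp_def] using hu.comp (line_lipschitz y)
  have key := lintegral_attached_le (f := fun s : ℝ => f ⟨s, y⟩) (u := fun s : ℝ => u ⟨s, y⟩)
    (fun x => hfu _) (fun x => hf0 _) hf' hu' hb
  have hms : MeasurableSet {x : ℝ | att (fun s : ℝ => f ⟨s, y⟩) (fun s : ℝ => u ⟨s, y⟩) x =
      u ⟨x, y⟩} :=
    (isClosed_eq (att_lipschitz (f := fun s : ℝ => f ⟨s, y⟩) (u := fun s : ℝ => u ⟨s, y⟩)
      (fun x => hfu _) hf' hu').continuous hu'.continuous).measurableSet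
  calc ∫⁻ s : ℝ, ({z | AttP 1 f u z}.indicator (fun z => ENNReal.ofReal (fderiv ℝ u z 1)))
        ⟨s, y⟩
      ≤ ∫⁻ s : ℝ, ({x : ℝ | att (fun s : ℝ => f ⟨s, y⟩) (fun s : ℝ => u ⟨s, y⟩) x =
          u ⟨x, y⟩}.indicator (fun s => ENNReal.ofReal (deriv (fun s : ℝ => u ⟨s, y⟩) s))) s := by
        apply lintegral_mono
        intro s
        by_cases hs : AttP 1 f u ⟨s, y⟩
        · have hs' : att (fun s : ℝ => f ⟨s, y⟩) (fun s : ℝ => u ⟨s, y⟩) s = u ⟨s, y⟩ := by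
            apply att_eq_of_attached (f := fun s : ℝ => f ⟨s, y⟩) (u := fun s : ℝ => u ⟨s, y⟩)
              (fun x => hfu _)
            obtain ⟨σ, h1, h2, h3⟩ := hs
            have e1 : ∀ t : ℝ, (⟨s, y⟩ : ℂ) + (t : ℂ) * 1 = ⟨s + t, y⟩ := by
              intro t; apply Complex.ext <;> simp
            rw [e1] at h2
            refine ⟨s + σ, by linarith, h2, fun t ht => ?_⟩
            have := h3 (t - s) ⟨by linarith [ht.1], by linarith [ht.2]⟩
            rw [e1] at this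
            simpa using this
          show indicator _ _ (⟨s, y⟩ : ℂ) ≤ indicator _ _ s
          rw [indicator_of_mem (show (⟨s, y⟩ : ℂ) ∈ {z | AttP 1 f u z} from hs),
            indicator_of_mem (by exact hs')]
          exact ofReal_fderiv_one_le u s y
        · show indicator _ _ (⟨s, y⟩ : ℂ) ≤ indicator _ _ s
          rw [indicator_of_notMem (show (⟨s, y⟩ : ℂ) ∉ {z | AttP 1 f u z} from hs)]
          exact bot_le
    _ = ∫⁻ s in {x : ℝ | att (fun s : ℝ => f ⟨s, y⟩) (fun s : ℝ => u ⟨s, y⟩) x =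
          u ⟨x, y⟩}, ENNReal.ofReal (deriv (fun s : ℝ => u ⟨s, y⟩) s) :=
        lintegral_indicator hms _
    _ ≤ _ := key
    _ ≤ _ := lintegral_mono fun s => enorm_deriv_line_le hd s y

theorem nice_aff {f : ℂ → ℝ} (hN : Nice f) (x0 : ℂ) {c : ℂ} (hc : c ≠ 0) :
    Nice (fun z => f (x0 + c * z)) := by
  constructor
  · exact hN.1.comp (by fun_prop)
  · have : (fun z => f (x0 + c * z)) = f ∘ ((Homeomorph.mulLeft₀ c hc).trans
      (Homeomorph.addLeft x0)) := by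
      ext z; simp
    rw [this]
    exact hN.2.comp_homeomorph _

theorem norm_clm_rot {e : ℂ} (he : ‖e‖ = 1) (L M : ℂ →L[ℝ] ℝ) (h : ∀ v, M v = L (e * v)) :
    ‖M‖ = ‖L‖ := by
  apply le_antisymm
  · apply M.opNorm_le_bound (norm_nonneg _)
    intro v
    rw [h]
    calc ‖L (e * v)‖ ≤ ‖L‖ * ‖e * v‖ := L.le_opNorm _
      _ = ‖L‖ * ‖v‖ := by rw [norm_mul, he, one_mul]
  · apply L.opNorm_le_bound (norm_nonneg _)
    intro v
    have hc : e ≠ 0 := by rintro rfl; simp at he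
    have : L v = M (e⁻¹ * v) := by rw [h, ← mul_assoc, mul_inv_cancel₀ hc, one_mul]
    rw [this]
    calc ‖M (e⁻¹ * v)‖ ≤ ‖M‖ * ‖e⁻¹ * v‖ := M.le_opNorm _
      _ = ‖M‖ * ‖v‖ := by rw [norm_mul, norm_inv, he, inv_one, one_mul]

/-- O2 in the plane -/
theorem lint_attP {e : ℂ} (he : ‖e‖ = 1) {f u : ℂ → ℝ} (hN : Nice f) (hfu : ∀ x, f x ≤ u x)
    (hf0 : ∀ x, 0 ≤ f x) {K : ℝ≥0} (hf : LipschitzWith K f) (hu : LipschitzWith K u) :
    ∫⁻ z in {z | AttP e f u z}, ENNReal.ofReal (fderiv ℝ u z e) ≤ ∫⁻ z, ‖fderiv ℝ f z‖ₑ := by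
  have hc : e ≠ 0 := by rintro rfl; simp at he
  have hm := measurableSet_attP e hf.continuous hu.continuous
  have hlip : LipschitzWith 1 (fun z : ℂ => 0 + e * z) := by
    refine LipschitzWith.of_dist_le_mul fun a b => ?_
    rw [dist_add_left, dist_eq_norm, ← mul_sub, norm_mul, he, dist_eq_norm]
    simp
  have hf' : LipschitzWith K (fun z : ℂ => f (0 + e * z)) := by
    simpa [Function.comp_def] using hf.comp hlip
  have hu' : LipschitzWith K (fun z : ℂ => u (0 + e * z)) := by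
    simpa [Function.comp_def] using hu.comp hlip
  have key := lint_attP_one (f := fun z => f (0 + e * z)) (u := fun z => u (0 + e * z))
    (nice_aff hN 0 hc) (fun x => hfu _) (fun x => hf0 _) hf' hu'
  rw [← lintegral_indicator hm]
  have hm1 := measurableSet_attP 1 hf'.continuous hu'.continuous
  rw [← lintegral_indicator hm1] at key
  rw [← lint_rot he (indicator _ _), ← lint_rot he (fun z => ‖fderiv ℝ f z‖ₑ)]
  refine le_trans (le_of_eq ?_) (key.trans (le_of_eq ?_))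
  · congr 1
    ext z
    have hiff : AttP e f u (e * z) ↔ AttP 1 (fun z => f (0 + e * z)) (fun z => u (0 + e * z)) z := by
      unfold AttP
      have e1 : ∀ t : ℝ, e * z + (t : ℂ) * e = 0 + e * (z + (t : ℂ) * 1) := by intro t; ring
      simp only [e1, zero_add]
    simp only [indicator, mem_ofPred_eq]
    rw [fderiv_aff u 0 hc, zero_add, mul_one]
    by_cases hA : AttP e f u (e * z)
    · rw [if_pos hA, if_pos (hiff.mp hA)]
    · rw [if_neg hA, if_neg (fun h => hA (hiff.mpr h))]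
  · congr 1
    ext z
    rw [← ofReal_norm, ← ofReal_norm]
    congr 1
    apply norm_clm_rot he
    intro v
    rw [fderiv_aff f 0 hc, zero_add]

end Crest.Agent.R112
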