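import Mathlib

/-!
Row 112 (S0147), module Attached (O1/O2): one-dimensional lemmas.
* `ae_deriv_eq_of_eqOn` (O1): two a.e. differentiable functions equal on `Z` have equal
  derivatives a.e. on `Z`.
* `Attached f u x`: some `y ≥ x` has `u x ≤ f y` and `u ≥ u x` on `[x, y]`.
* `lintegral_attached_le` (O2): the positive part of `u'` on attached points integrates to at most
  `∫ |f'|`.
-/

set_option autoImplicit false

namespace Crest.Agent.R112

open MeasureTheory Set Filter Topology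
open scoped NNReal ENNReal

/-- (O1) -/
theorem ae_deriv_eq_of_eqOn {h k : ℝ → ℝ} (hh : ∀ᵐ x, DifferentiableAt ℝ h x)
    (hk : ∀ᵐ x, DifferentiableAt ℝ k x) :
    ∀ᵐ x, h x = k x → deriv h x = deriv k x := by
  set Z : Set ℝ := {x | h x = k x}
  have hc : ({x ∈ Z | 𝓝[Z ∩ Ioi x] x = ⊥} : Set ℝ).Countable :=
    countable_setOfPred_isolated_right_within
  have hnull : ∀ᵐ x : ℝ, x ∉ {x ∈ Z | 𝓝[Z ∩ Ioi x] x = ⊥} := hc.ae_notMem volume
  filter_upwards [hh, hk, hnull] with x hx1 hx2 hx3 hx4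
  by_contra hne
  apply hx3
  refine ⟨hx4, ?_⟩
  have hd : HasDerivAt (fun t => h t - k t) (deriv h x - deriv k x) x :=
    hx1.hasDerivAt.sub hx2.hasDerivAt
  have hev := hd.eventually_ne (c := (0 : ℝ)) (sub_ne_zero.mpr hne)
  rw [← Filter.empty_mem_iff_bot, mem_nhdsWithin_iff_exists_mem_nhds_inter]
  rw [eventually_nhdsWithin_iff] at hev
  refine ⟨{z | z ∈ ({x}ᶜ : Set ℝ) → h z - k z ≠ 0}, hev, ?_⟩
  rintro z ⟨hz1, hz2, hz3⟩
  exact hz1 (by simpa using (ne_of_gt hz3)) (sub_eq_zero.mpr hz2)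

/-- `x` is attached: some `y ≥ x` has `u x ≤ f y` and `u ≥ u x` on `[x, y]`. -/
def Attached (f u : ℝ → ℝ) (x : ℝ) : Prop :=
  ∃ y, x ≤ y ∧ u x ≤ f y ∧ ∀ t ∈ Icc x y, u x ≤ u t

def attSet (f u : ℝ → ℝ) (x : ℝ) : Set ℝ := {c | ∃ y, x ≤ y ∧ c ≤ f y ∧ ∀ t ∈ Icc x y, c ≤ u t}

/-- The attached envelope. -/
noncomputable def att (f u : ℝ → ℝ) (x : ℝ) : ℝ := sSup (attSet f u x)

section
variable {f u : ℝ → ℝ}

theorem self_mem_attSet (hfu : ∀ x, f x ≤ u x) (x : ℝ) : f x ∈ attSet f u x :=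
  ⟨x, le_rfl, le_rfl, fun t ht => by
    have : t = x := le_antisymm ht.2 ht.1
    subst this; exact hfu t⟩

theorem attSet_le {x c : ℝ} (hc : c ∈ attSet f u x) : c ≤ u x := by
  obtain ⟨y, hxy, _, h⟩ := hc
  exact h x ⟨le_rfl, hxy⟩

theorem attSet_bdd (f u : ℝ → ℝ) (x : ℝ) : BddAbove (attSet f u x) := ⟨u x, fun _ hc => attSet_le hc⟩

theorem le_att (hfu : ∀ x, f x ≤ u x) (x : ℝ) : f x ≤ att f u x :=
  le_csSup (attSet_bdd f u x) (self_mem_attSet hfu x)

theorem att_le (hfu : ∀ x, f x ≤ u x) (x : ℝ) : att f u x ≤ u x :=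
  csSup_le ⟨_, self_mem_attSet hfu x⟩ fun _ hc => attSet_le hc

theorem att_eq_of_attached (hfu : ∀ x, f x ≤ u x) {x : ℝ} (h : Attached f u x) :
    att f u x = u x := by
  apply le_antisymm (att_le hfu x)
  obtain ⟨y, hxy, h1, h2⟩ := h
  exact le_csSup (attSet_bdd f u x) ⟨y, hxy, h1, h2⟩

theorem att_lipschitz (hfu : ∀ x, f x ≤ u x) {K : ℝ≥0} (hf : LipschitzWith K f)
    (hu : LipschitzWith K u) : LipschitzWith K (att f u) := by
  have key : ∀ x x', x ≤ x' → att f u x' - K * (x' - x) ≤ att f u x := by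
    intro x x' hxx
    rw [sub_le_iff_le_add]
    apply csSup_le ⟨_, self_mem_attSet hfu x'⟩
    rintro c ⟨y, hy, hcf, hcu⟩
    have h1 : c - K * (x' - x) ≤ att f u x := by
      apply le_csSup (attSet_bdd f u x)
      have hK : 0 ≤ (K : ℝ) * (x' - x) := mul_nonneg K.2 (sub_nonneg.mpr hxx)
      refine ⟨y, hxx.trans hy, by linarith, fun t ht => ?_⟩
      by_cases htx : x' ≤ t
      · have := hcu t ⟨htx, ht.2⟩; linarith
      · push Not at htx
        have h3 : u x' - u t ≤ K * (x' - t) := by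
          have := hu.dist_le_mul x' t
          rw [Real.dist_eq, Real.dist_eq, abs_of_pos (sub_pos.mpr htx)] at this
          exact (le_abs_self _).trans this
        have h4 := hcu x' ⟨le_rfl, hy⟩
        have h5 : (K : ℝ) * (x' - t) ≤ K * (x' - x) :=
          mul_le_mul_of_nonneg_left (by linarith [ht.1]) K.2
        linarith
    linarith
  have key2 : ∀ x x', x ≤ x' → att f u x - K * (x' - x) ≤ att f u x' := by
    intro x x' hxx
    rw [sub_le_iff_le_add]
    apply csSup_le ⟨_, self_mem_attSet hfu x⟩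
    rintro c ⟨y, hy, hcf, hcu⟩
    have hK : 0 ≤ (K : ℝ) * (x' - x) := mul_nonneg K.2 (sub_nonneg.mpr hxx)
    by_cases hyx : x' ≤ y
    · have : c ≤ att f u x' := le_csSup (attSet_bdd f u x')
        ⟨y, hyx, hcf, fun t ht => hcu t ⟨hxx.trans ht.1, ht.2⟩⟩
      linarith
    · push Not at hyx
      have h3 : f y - f x' ≤ K * (x' - y) := by
        have := hf.dist_le_mul y x'
        rw [Real.dist_eq, Real.dist_eq, abs_sub_comm y x', abs_of_pos (sub_pos.mpr hyx)] at this
        exact (le_abs_self _).trans this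
      have h5 : (K : ℝ) * (x' - y) ≤ K * (x' - x) :=
        mul_le_mul_of_nonneg_left (by linarith) K.2
      have := le_att hfu x'
      linarith
  apply LipschitzWith.of_dist_le_mul
  intro x x'
  rw [Real.dist_eq, Real.dist_eq]
  rcases le_total x x' with h | h
  · have h1 := key x x' h
    have h2 := key2 x x' h
    rw [abs_sub_comm x x', abs_of_nonneg (sub_nonneg.mpr h), abs_le]
    constructor <;> linarith
  · have h1 := key x' x h
    have h2 := key2 x' x h
    rw [abs_of_nonneg (sub_nonneg.mpr h), abs_le]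
    constructor <;> linarith

/-- right of the support of `f` the envelope vanishes -/
theorem att_eq_zero (hfu : ∀ x, f x ≤ u x) (hf0 : ∀ x, 0 ≤ f x) {b : ℝ}
    (hb : ∀ x, b ≤ x → f x = 0) {x : ℝ} (hx : b ≤ x) : att f u x = 0 := by
  apply le_antisymm
  · apply csSup_le ⟨_, self_mem_attSet hfu x⟩
    rintro c ⟨y, hy, hcf, _⟩
    rw [hb y (hx.trans hy)] at hcf
    exact hcf
  · exact (hf0 x).trans (le_att hfu x)

/-- where the envelope is above `f`, it is locally nondecreasing to the right -/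
theorem att_mono_right (hfu : ∀ x, f x ≤ u x) (hf : Continuous f) {x : ℝ}
    (h : f x < att f u x) : ∃ δ > 0, ∀ x' ∈ Icc x (x + δ), att f u x ≤ att f u x' := by
  obtain ⟨m, hm1, hm2⟩ := exists_between h
  have hev : ∀ᶠ t in 𝓝 x, f t < m := hf.continuousAt.eventually (gt_mem_nhds hm1)
  obtain ⟨δ, hδ, hball⟩ := Metric.eventually_nhds_iff.mp hev
  refine ⟨δ / 2, by positivity, fun x' hx' => ?_⟩
  apply csSup_le ⟨_, self_mem_attSet hfu x⟩
  rintro c ⟨y, hy, hcf, hcu⟩
  by_cases hcm : c ≤ m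
  · -- some candidate above m exists
    obtain ⟨c', hc', hmc'⟩ := exists_lt_of_lt_csSup ⟨_, self_mem_attSet hfu x⟩ hm2
    obtain ⟨y', hy', hcf', hcu'⟩ := hc'
    have hyx : x' ≤ y' := by
      by_contra hlt
      push Not at hlt
      have : f y' < m := hball (by
        rw [Real.dist_eq, abs_of_nonneg (sub_nonneg.mpr hy')]
        linarith [hx'.2])
      linarith
    have : c' ≤ att f u x' := le_csSup (attSet_bdd f u x')
      ⟨y', hyx, hcf', fun t ht => hcu' t ⟨hx'.1.trans ht.1, ht.2⟩⟩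
    linarith
  · push Not at hcm
    have hyx : x' ≤ y := by
      by_contra hlt
      push Not at hlt
      have : f y < m := hball (by
        rw [Real.dist_eq, abs_of_nonneg (sub_nonneg.mpr hy)]
        linarith [hx'.2])
      linarith
    exact le_csSup (attSet_bdd f u x')
      ⟨y, hyx, hcf, fun t ht => hcu t ⟨hx'.1.trans ht.1, ht.2⟩⟩

theorem deriv_att_nonneg (hfu : ∀ x, f x ≤ u x) (hf : Continuous f) {x : ℝ}
    (h : f x < att f u x) (hd : DifferentiableAt ℝ (att f u) x) : 0 ≤ deriv (att f u) x := by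
  obtain ⟨δ, hδ, hmono⟩ := att_mono_right hfu hf h
  have hs := hd.hasDerivAt.hasDerivWithinAt (s := Ioi x)
  rw [hasDerivWithinAt_iff_tendsto_slope' (by simp)] at hs
  apply ge_of_tendsto hs
  have : Ioc x (x + δ) ∈ 𝓝[>] x := Ioc_mem_nhdsGT (by linarith)
  filter_upwards [this] with t ht
  rw [slope_def_field]
  apply div_nonneg
  · have := hmono t ⟨ht.1.le, ht.2⟩; linarith
  · linarith [ht.1]

/-- (O2) with the envelope -/
theorem lintegral_deriv_att_le (hfu : ∀ x, f x ≤ u x) (hf0 : ∀ x, 0 ≤ f x) {K : ℝ≥0}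
    (hf : LipschitzWith K f) (hu : LipschitzWith K u) {b : ℝ} (hb : ∀ x, b ≤ x → f x = 0) :
    ∫⁻ x, ENNReal.ofReal (deriv (att f u) x) ≤ ∫⁻ x, ‖deriv f x‖ₑ := by
  have hL := att_lipschitz hfu hf hu
  have hdv : ∀ᵐ x, DifferentiableAt ℝ (att f u) x := hL.ae_differentiableAt_real
  have hdf : ∀ᵐ x, DifferentiableAt ℝ f x := hf.ae_differentiableAt_real
  have hO1 := ae_deriv_eq_of_eqOn hdv hdf
  have hneg : ∀ᵐ x, ENNReal.ofReal (-(deriv (att f u) x)) ≤ ‖deriv f x‖ₑ := by
    filter_upwards [hdv, hO1] with x h1 h2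
    rcases (le_att hfu x).eq_or_lt with h | h
    · rw [h2 h.symm, ← ofReal_norm]
      apply ENNReal.ofReal_le_ofReal
      rw [Real.norm_eq_abs]; exact neg_le_abs _
    · have := deriv_att_nonneg hfu hf.continuous h h1
      rw [ENNReal.ofReal_of_nonpos (by linarith)]
      exact bot_le
  -- reduce to intervals
  have hint : ∀ n : ℕ, ∫⁻ x in Ioc (-(n : ℝ)) n, ENNReal.ofReal (deriv (att f u) x) ≤
      ∫⁻ x, ‖deriv f x‖ₑ := by
    intro n
    set B : ℝ := max b n with hB
    have hab : -(n : ℝ) ≤ B := by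
      have : (n : ℝ) ≤ B := le_max_right _ _
      have : (0 : ℝ) ≤ n := Nat.cast_nonneg n
      linarith
    have hAC : AbsolutelyContinuousOnInterval (att f u) (-(n : ℝ)) B :=
      hL.lipschitzOnWith.absolutelyContinuousOnInterval
    have hftc := hAC.integral_deriv_eq_sub
    have hii := hAC.intervalIntegrable_deriv
    have hB0 : att f u B = 0 := att_eq_zero hfu hf0 hb (le_max_left _ _)
    have hA0 : 0 ≤ att f u (-(n : ℝ)) := (hf0 _).trans (le_att hfu _)
    rw [hB0, intervalIntegral.integral_of_le hab] at hftc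
    have hii' : IntegrableOn (deriv (att f u)) (Ioc (-(n : ℝ)) B) :=
      (intervalIntegrable_iff_integrableOn_Ioc_of_le hab).mp hii
    have hle : ∫⁻ x in Ioc (-(n : ℝ)) B, ENNReal.ofReal (deriv (att f u) x) ≤
        ∫⁻ x in Ioc (-(n : ℝ)) B, ENNReal.ofReal (-(deriv (att f u) x)) := by
      have hsplit : ∫ x in Ioc (-(n : ℝ)) B, deriv (att f u) x =
          (∫⁻ x in Ioc (-(n : ℝ)) B, ENNReal.ofReal (deriv (att f u) x)).toReal -
          (∫⁻ x in Ioc (-(n : ℝ)) B, ENNReal.ofReal (-(deriv (att f u) x))).toReal :=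
        integral_eq_lintegral_pos_part_sub_lintegral_neg_part hii'
      have hfin1 : ∫⁻ x in Ioc (-(n : ℝ)) B, ENNReal.ofReal (deriv (att f u) x) ≠ ⊤ := by
        have := hii'.hasFiniteIntegral
        apply ne_of_lt
        refine lt_of_le_of_lt (lintegral_mono fun x => ?_) this
        rw [← ofReal_norm]; exact ENNReal.ofReal_le_ofReal (le_abs_self _)
      have hfin2 : ∫⁻ x in Ioc (-(n : ℝ)) B, ENNReal.ofReal (-(deriv (att f u) x)) ≠ ⊤ := by
        have := hii'.hasFiniteIntegral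
        apply ne_of_lt
        refine lt_of_le_of_lt (lintegral_mono fun x => ?_) this
        rw [← ofReal_norm]; exact ENNReal.ofReal_le_ofReal (neg_le_abs _)
      rw [hsplit] at hftc
      rw [← ENNReal.toReal_le_toReal hfin1 hfin2]
      linarith
    calc ∫⁻ x in Ioc (-(n : ℝ)) n, ENNReal.ofReal (deriv (att f u) x)
        ≤ ∫⁻ x in Ioc (-(n : ℝ)) B, ENNReal.ofReal (deriv (att f u) x) :=
          lintegral_mono_set (Ioc_subset_Ioc_right (le_max_right _ _))
      _ ≤ _ := hle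
      _ ≤ ∫⁻ x in Ioc (-(n : ℝ)) B, ‖deriv f x‖ₑ := lintegral_mono_ae (ae_restrict_of_ae hneg)
      _ ≤ _ := setLIntegral_le_lintegral _ _
  have hmono : Monotone fun n : ℕ => Ioc (-(n : ℝ)) n := by
    intro n m hnm
    have : (n : ℝ) ≤ m := by exact_mod_cast hnm
    exact Ioc_subset_Ioc (by linarith) this
  have hU : ⋃ n : ℕ, Ioc (-(n : ℝ)) n = univ := by
    apply eq_univ_of_forall
    intro x
    obtain ⟨n, hn⟩ := exists_nat_gt |x|
    have := abs_lt.mp hn
    exact mem_iUnion.mpr ⟨n, this.1, this.2.le⟩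
  have hmeas : ∀ n : ℕ, MeasurableSet (Ioc (-(n : ℝ)) n) := fun n => measurableSet_Ioc
  have hsup : ∫⁻ x, ENNReal.ofReal (deriv (att f u) x) =
      ⨆ n : ℕ, ∫⁻ x in Ioc (-(n : ℝ)) n, ENNReal.ofReal (deriv (att f u) x) := by
    rw [← setLIntegral_univ, ← hU]
    exact setLIntegral_iUnion_of_directed _ hmono.directed_le
  rw [hsup]
  exact iSup_le hint

/-- (O2) positive part of `u'` on attached points. -/
theorem lintegral_attached_le (hfu : ∀ x, f x ≤ u x) (hf0 : ∀ x, 0 ≤ f x) {K : ℝ≥0}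
    (hf : LipschitzWith K f) (hu : LipschitzWith K u) {b : ℝ} (hb : ∀ x, b ≤ x → f x = 0) :
    ∫⁻ x in {x | att f u x = u x}, ENNReal.ofReal (deriv u x) ≤ ∫⁻ x, ‖deriv f x‖ₑ := by
  have hL := att_lipschitz hfu hf hu
  have hdv : ∀ᵐ x, DifferentiableAt ℝ (att f u) x := hL.ae_differentiableAt_real
  have hdu : ∀ᵐ x, DifferentiableAt ℝ u x := hu.ae_differentiableAt_real
  have hO1 := ae_deriv_eq_of_eqOn hdv hdu
  have hms : MeasurableSet {x | att f u x = u x} :=
    (isClosed_eq hL.continuous hu.continuous).measurableSet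
  calc ∫⁻ x in {x | att f u x = u x}, ENNReal.ofReal (deriv u x)
      ≤ ∫⁻ x in {x | att f u x = u x}, ENNReal.ofReal (deriv (att f u) x) := by
        apply setLIntegral_mono_ae' hms
        filter_upwards [hO1] with x hx hx2
        rw [hx hx2]
    _ ≤ ∫⁻ x, ENNReal.ofReal (deriv (att f u) x) := setLIntegral_le_lintegral _ _
    _ ≤ _ := lintegral_deriv_att_le hfu hf0 hf hu hb

end

end Crest.Agent.R112
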