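import Crest.Agent.R112.Basic

/-!
# R112: the truncated maximal function `uT`
-/

set_option autoImplicit false

namespace Crest.Agent.R112

open MeasureTheory Set Metric Filter Topology

/-- truncated maximal function -/
noncomputable def uT (f : ℂ → ℝ) (τ : ℝ) (x : ℂ) : ℝ := max (f x) (⨆ r : Set.Ici τ, A f r x)

theorem le_uT (f : ℂ → ℝ) (τ : ℝ) (x : ℂ) : f x ≤ uT f τ x := le_max_left _ _

theorem bddAbove_uT {f : ℂ → ℝ} (hf : Nice f) (τ : ℝ) (x : ℂ) :
    BddAbove (range fun r : Set.Ici τ => A f r x) := by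
  obtain ⟨K, _, hK⟩ := hf.exists_bound
  refine ⟨K, ?_⟩
  rintro _ ⟨r, rfl⟩
  exact (abs_le.mp (abs_A_le hf.continuous hK _ _)).2

theorem A_le_uT {f : ℂ → ℝ} (hf : Nice f) {τ r : ℝ} (hr : τ ≤ r) (x : ℂ) :
    A f r x ≤ uT f τ x :=
  (le_ciSup (bddAbove_uT hf τ x) ⟨r, hr⟩).trans (le_max_right _ _)

theorem uT_le {f : ℂ → ℝ} {τ c : ℝ} {x : ℂ} (h0 : f x ≤ c) (h : ∀ r, τ ≤ r → A f r x ≤ c) :
    uT f τ x ≤ c := by
  haveI : Nonempty (Set.Ici τ) := ⟨⟨τ, Set.mem_Ici.2 le_rfl⟩⟩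
  exact max_le h0 (ciSup_le fun r => h r r.2)

theorem abs_uT_le {f : ℂ → ℝ} (hf : Nice f) {K : ℝ} (hK : ∀ x, |f x| ≤ K) (τ : ℝ) (x : ℂ) :
    |uT f τ x| ≤ K := by
  refine abs_le.mpr ⟨(abs_le.mp (hK x)).1.trans (le_uT f τ x), uT_le (abs_le.mp (hK x)).2 ?_⟩
  intro r _
  exact (abs_le.mp (abs_A_le hf.continuous hK _ _)).2

theorem U_le_uT {f : ℂ → ℝ} (hf : Nice f) {τ : ℝ} (hτ : 0 < τ) (k : ℕ) (x : ℂ) :
    U f (4 ^ k * τ) x ≤ uT f τ x := by
  apply U_le
  intro u hu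
  apply A_le_uT hf
  have h1 : (1 : ℝ) ≤ 4 ^ k := one_le_pow₀ (by norm_num)
  have h2 : (1 : ℝ) ≤ 4 ^ k * u := by nlinarith [hu.1]
  calc τ = 1 * τ := (one_mul _).symm
    _ ≤ (4 ^ k * u) * τ := mul_le_mul_of_nonneg_right h2 hτ.le
    _ = 4 ^ k * τ * u := by ring

theorem lipschitz_uT {f : ℂ → ℝ} (hf : Nice f) {K : NNReal} (hK : LipschitzWith K f) (τ : ℝ) :
    LipschitzWith K (uT f τ) := by
  apply LipschitzWith.of_le_add_mul
  intro x y
  apply uT_le
  · have h1 := hK.dist_le_mul x y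
    rw [Real.dist_eq] at h1
    have h2 := (abs_le.mp h1).2
    have h3 := le_uT f τ y
    linarith
  · intro r hr
    have h1 := (abs_le.mp (abs_A_sub_le hf hK r x y)).2
    rw [← dist_eq_norm] at h1
    have h3 := A_le_uT hf hr y
    linarith

theorem continuous_uT {f : ℂ → ℝ} (hf : Nice f) (τ : ℝ) : Continuous (uT f τ) := by
  obtain ⟨K, hK⟩ := hf.lipschitz
  exact (lipschitz_uT hf hK τ).continuous

/-- decay of the averages -/
theorem A_le_decay {f : ℂ → ℝ} (hf : Nice f) {r : ℝ} (hr : 0 < r) (x : ℂ) :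
    A f r x ≤ (1 / (Real.pi * r ^ 2)) * ∫ z, ‖f z‖ := by
  have hi : Integrable f := hf.continuous.integrable_of_hasCompactSupport hf.2
  rw [A_eq hr]
  apply mul_le_mul_of_nonneg_left _ (by positivity)
  calc ∫ z in ball x r, f z ≤ ∫ z in ball x r, ‖f z‖ :=
        integral_mono hi.integrableOn hi.norm.integrableOn fun z => Real.le_norm_self _
    _ ≤ ∫ z, ‖f z‖ := setIntegral_le_integral hi.norm (Eventually.of_forall fun _ => norm_nonneg _)

theorem exists_A_le {f : ℂ → ℝ} (hf : Nice f) {c : ℝ} (hc : 0 < c) (x : ℂ) :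
    ∃ R : ℝ, 0 < R ∧ ∀ r, R ≤ r → A f r x ≤ c := by
  set I := ∫ z, ‖f z‖ with hI
  have hI0 : 0 ≤ I := integral_nonneg fun _ => norm_nonneg _
  refine ⟨max 1 (I / c), by positivity, fun r hr => ?_⟩
  have h1 : 1 ≤ r := (le_max_left _ _).trans hr
  have h2 : I / c ≤ r := (le_max_right _ _).trans hr
  have h3 : I ≤ r * c := by rwa [div_le_iff₀ hc] at h2
  refine (A_le_decay hf (by linarith) x).trans ?_
  rw [← hI, one_div, inv_mul_le_iff₀ (by positivity)]
  have h4 : (1 : ℝ) ≤ Real.pi := by linarith [Real.pi_gt_three]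
  have h5 : r * c ≤ r ^ 2 * c := by
    apply mul_le_mul_of_nonneg_right _ hc.le
    nlinarith
  have h6 : r ^ 2 * c ≤ Real.pi * r ^ 2 * c := by
    have : 0 ≤ r ^ 2 * c := by positivity
    nlinarith
  linarith

theorem exists_U_eq {f : ℂ → ℝ} (hf : Nice f) {τ : ℝ} (hτ : 0 < τ) (h0 : ∀ x, 0 ≤ f x) {x : ℂ}
    (hx : f x < uT f τ x) : ∃ k : ℕ, uT f τ x = U f (4 ^ k * τ) x := by
  by_contra hne
  push Not at hne
  set S := uT f τ x with hS
  have hS0 : 0 < S := (h0 x).trans_lt hx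
  have hlt : ∀ k : ℕ, U f (4 ^ k * τ) x < S := fun k =>
    lt_of_le_of_ne (U_le_uT hf hτ k x) (hne k).symm
  obtain ⟨R, hR0, hR⟩ := exists_A_le hf (half_pos hS0) x
  obtain ⟨N, hN⟩ := pow_unbounded_of_one_lt (R / τ) (by norm_num : (1 : ℝ) < 4)
  have hN' : R < 4 ^ N * τ := by rwa [div_lt_iff₀ hτ] at hN
  have hfin : ∀ n : ℕ, ∃ c, c < S ∧ ∀ k < n, U f (4 ^ k * τ) x ≤ c := by
    intro n
    induction n with
    | zero => exact ⟨0, hS0, fun k hk => absurd hk (Nat.not_lt_zero _)⟩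
    | succ n ih =>
      obtain ⟨c, hc, hc'⟩ := ih
      refine ⟨max c (U f (4 ^ n * τ) x), max_lt hc (hlt n), fun k hk => ?_⟩
      rcases Nat.lt_succ_iff_lt_or_eq.mp hk with h | rfl
      · exact (hc' k h).trans (le_max_left _ _)
      · exact le_max_right _ _
  obtain ⟨c, hc, hc'⟩ := hfin N
  have hle : S ≤ max (f x) (max c (S / 2)) := by
    rw [hS]
    apply uT_le (le_max_left _ _)
    intro r hr
    apply le_trans _ (le_max_right _ _)
    rcases lt_or_ge r (4 ^ N * τ) with h | h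
    · apply le_trans _ (le_max_left _ _)
      obtain ⟨k, hk1, hk2⟩ := exists_nat_pow_near (x := r / τ) (y := 4)
        (by rwa [le_div_iff₀ hτ, one_mul]) (by norm_num)
      rw [le_div_iff₀ hτ] at hk1
      rw [div_lt_iff₀ hτ] at hk2
      have hkN : k < N := by
        by_contra hcon
        push Not at hcon
        have : (4 : ℝ) ^ N * τ ≤ 4 ^ k * τ :=
          mul_le_mul_of_nonneg_right (pow_le_pow_right₀ (by norm_num) hcon) hτ.le
        linarith
      refine le_trans (A_le_U' hf (by positivity) hk1 ?_ x) (hc' k hkN)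
      rw [pow_succ] at hk2
      linarith
    · exact (hR r (by linarith)).trans (le_max_right _ _)
  have : max (f x) (max c (S / 2)) < S := max_lt hx (max_lt hc (half_lt_self hS0))
  linarith

end Crest.Agent.R112
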