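import Mathlib

/-!
# R112: sixteen directions
-/

set_option autoImplicit false

namespace Crest.Agent.R112

open Real Finset

/-- the sixteen directions -/
noncomputable def dirE (n : ℕ) : ℂ := Complex.exp ((2*Real.pi*n/16 : ℝ) * Complex.I)

theorem norm_dirE (n : ℕ) : ‖dirE n‖ = 1 := Complex.norm_exp_ofReal_mul_I _

/-- the directions indexed by integers -/
noncomputable def V5.d (k : ℤ) : ℂ := Complex.exp ((2*Real.pi*k/16 : ℝ) * Complex.I)

theorem V5.d_eq (k : ℤ) : dirE (k % 16).toNat = V5.d k := by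
  have h0 : 0 ≤ k % 16 := Int.emod_nonneg _ (by norm_num)
  have h1 : (((k % 16).toNat : ℕ) : ℝ) = ((k % 16 : ℤ) : ℝ) := by
    exact_mod_cast Int.toNat_of_nonneg h0
  have h2 : (k : ℝ) = ((k % 16 : ℤ) : ℝ) + 16 * ((k / 16 : ℤ) : ℝ) := by
    exact_mod_cast (Int.emod_add_mul_ediv k 16).symm
  unfold dirE V5.d
  rw [h1]
  have h3 : ((2*Real.pi*k/16 : ℝ) * Complex.I : ℂ) =
      (2*Real.pi*((k % 16 : ℤ) : ℝ)/16 : ℝ) * Complex.I + (k / 16 : ℤ) * (2 * π * Complex.I) := by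
    rw [h2]; push_cast; ring
  rw [h3, Complex.exp_add, Complex.exp_int_mul_two_pi_mul_I, mul_one]

theorem V5.apply_eq (L : ℂ →L[ℝ] ℝ) (θ : ℝ) :
    L (Complex.exp (θ * Complex.I)) = L 1 * Real.cos θ + L Complex.I * Real.sin θ := by
  have h : Complex.exp (θ * Complex.I) = (Real.cos θ : ℝ) • (1 : ℂ) + (Real.sin θ : ℝ) • Complex.I := by
    rw [Complex.exp_mul_I]
    simp [Complex.ofReal_cos, Complex.ofReal_sin]
  rw [h, map_add, map_smul, map_smul, smul_eq_mul, smul_eq_mul]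
  ring

theorem V5.norm_le (L : ℂ →L[ℝ] ℝ) : ‖L‖ ≤ √((L 1)^2 + (L Complex.I)^2) := by
  refine L.opNorm_le_bound (Real.sqrt_nonneg _) fun z => ?_
  have h : L z = L 1 * z.re + L Complex.I * z.im := by
    have h1 : z = (z.re : ℝ) • (1 : ℂ) + (z.im : ℝ) • Complex.I := by
      apply Complex.ext <;> simp
    conv_lhs => rw [h1]
    rw [map_add, map_smul, map_smul, smul_eq_mul, smul_eq_mul]; ring
  rw [h, Real.norm_eq_abs, ← Real.sqrt_sq (norm_nonneg z), ← Real.sqrt_mul (by positivity)]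
  apply Real.abs_le_sqrt
  rw [Complex.sq_norm, Complex.normSq_apply]
  nlinarith [sq_nonneg (L 1 * z.im - L Complex.I * z.re)]

theorem V5.cos_ge : (23 : ℝ) / 25 ≤ Real.cos (π / 8) := by
  rw [Real.cos_pi_div_eight]
  have h2 : (1.4141 : ℝ) ≤ √2 := by
    apply Real.le_sqrt_of_sq_le; norm_num
  have h3 : (1.84 : ℝ) ≤ √(2 + √2) := by
    apply Real.le_sqrt_of_sq_le
    nlinarith
  linarith

theorem V5.sin_ge : (1 : ℝ) / 3 ≤ Real.sin (π / 8) := by
  rw [Real.sin_pi_div_eight]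
  have h2 : √2 ≤ (1.4143 : ℝ) := by
    rw [Real.sqrt_le_left (by norm_num)]; norm_num
  have h3 : (2 / 3 : ℝ) ≤ √(2 - √2) := by
    apply Real.le_sqrt_of_sq_le
    nlinarith
  linarith

/-- two neighbouring directions -/
theorem V5.pair (G : ℂ →L[ℝ] ℝ) : ∃ k : ℤ, 23/25*‖G‖ ≤ G (V5.d k) ∧ 23/25*‖G‖ ≤ G (V5.d (k+1)) := by
  set w : ℂ := ⟨G 1, G Complex.I⟩ with hw
  set φ : ℝ := Complex.arg w with hφ
  set ρ : ℝ := ‖w‖ with hρ
  have hre : G 1 = ρ * Real.cos φ := (Complex.norm_mul_cos_arg w).symm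
  have him : G Complex.I = ρ * Real.sin φ := (Complex.norm_mul_sin_arg w).symm
  have hρ0 : 0 ≤ ρ := norm_nonneg _
  have hG : ‖G‖ ≤ ρ := by
    refine (V5.norm_le G).trans (le_of_eq ?_)
    rw [hρ, ← Real.sqrt_sq (norm_nonneg w), Complex.sq_norm, Complex.normSq_apply]
    congr 1
    simp only [hw]; ring
  have hpi := Real.pi_pos
  refine ⟨⌊φ / (π/8)⌋, ?_, ?_⟩
  · have h1 := Int.floor_le (φ / (π/8))
    have h2 := Int.lt_floor_add_one (φ / (π/8))
    set k := ⌊φ / (π/8)⌋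
    rw [le_div_iff₀ (by positivity)] at h1
    rw [div_lt_iff₀ (by positivity)] at h2
    have e : G (V5.d k) = ρ * Real.cos (φ - 2*π*k/16) := by
      unfold V5.d
      rw [V5.apply_eq, hre, him, Real.cos_sub]; ring
    have hc : 23/25 ≤ Real.cos (φ - 2*π*k/16) := by
      refine V5.cos_ge.trans (Real.cos_le_cos_of_nonneg_of_le_pi ?_ (by linarith) ?_)
      · nlinarith
      · nlinarith
    rw [e]
    nlinarith [norm_nonneg G]
  · have h1 := Int.floor_le (φ / (π/8))
    have h2 := Int.lt_floor_add_one (φ / (π/8))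
    set k := ⌊φ / (π/8)⌋
    rw [le_div_iff₀ (by positivity)] at h1
    rw [div_lt_iff₀ (by positivity)] at h2
    have e : G (V5.d (k+1)) = ρ * Real.cos (2*π*(k+1)/16 - φ) := by
      unfold V5.d
      rw [V5.apply_eq, hre, him, Real.cos_sub]; push_cast; ring
    have hc : 23/25 ≤ Real.cos (2*π*(k+1)/16 - φ) := by
      refine V5.cos_ge.trans (Real.cos_le_cos_of_nonneg_of_le_pi ?_ (by linarith) ?_)
      · nlinarith
      · nlinarith
    rw [e]
    nlinarith [norm_nonneg G]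

theorem V5.two (L : ℂ →L[ℝ] ℝ) (k : ℤ) : ‖L‖ ≤ 3 * (|L (V5.d k)| + |L (V5.d (k+1))|) := by
  set w : ℂ := ⟨L 1, L Complex.I⟩ with hw
  set ψ : ℝ := Complex.arg w with hψ
  set σ : ℝ := ‖w‖ with hσ
  have hre : L 1 = σ * Real.cos ψ := (Complex.norm_mul_cos_arg w).symm
  have him : L Complex.I = σ * Real.sin ψ := (Complex.norm_mul_sin_arg w).symm
  have hσ0 : 0 ≤ σ := norm_nonneg _
  have hL : ‖L‖ ≤ σ := by
    refine (V5.norm_le L).trans (le_of_eq ?_)
    rw [hσ, ← Real.sqrt_sq (norm_nonneg w), Complex.sq_norm, Complex.normSq_apply]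
    congr 1
    simp only [hw]; ring
  set α : ℝ := ψ - 2*π*k/16 with hα
  have e1 : L (V5.d k) = σ * Real.cos α := by
    unfold V5.d
    rw [V5.apply_eq, hre, him, hα, Real.cos_sub]; ring
  have e2 : L (V5.d (k+1)) = σ * Real.cos (α - π/8) := by
    have : α - π/8 = ψ - 2*π*(k+1)/16 := by rw [hα]; ring
    unfold V5.d
    rw [V5.apply_eq, hre, him, this, Real.cos_sub]; push_cast; ring
  rw [e1, e2, abs_mul, abs_mul, abs_of_nonneg hσ0]
  have hkey : (1:ℝ)/3 ≤ |Real.cos α| + |Real.cos (α - π/8)| := by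
    have hs := V5.sin_ge
    have h1 : Real.sin (π/8) = Real.sin α * Real.cos (α - π/8) - Real.cos α * Real.sin (α - π/8) := by
      rw [← Real.sin_sub]; congr 1; ring
    have h2 : |Real.sin α * Real.cos (α - π/8)| ≤ |Real.cos (α - π/8)| := by
      rw [abs_mul]
      have := Real.abs_sin_le_one α
      nlinarith [abs_nonneg (Real.cos (α - π/8))]
    have h3 : |Real.cos α * Real.sin (α - π/8)| ≤ |Real.cos α| := by
      rw [abs_mul]
      have := Real.abs_sin_le_one (α - π/8)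
      nlinarith [abs_nonneg (Real.cos α)]
    have h4 := abs_sub (Real.sin α * Real.cos (α - π/8)) (Real.cos α * Real.sin (α - π/8))
    have h5 := le_abs_self (Real.sin α * Real.cos (α - π/8) - Real.cos α * Real.sin (α - π/8))
    linarith
  nlinarith

theorem V5 (G L : ℂ →L[ℝ] ℝ) :
    ‖L‖ ≤ 3 * ∑ n ∈ Finset.range 16, (if 23/25*‖G‖ ≤ G (dirE n) then |L (dirE n)| else 0) := by
  obtain ⟨k, h1, h2⟩ := V5.pair G
  refine (V5.two L k).trans ?_
  have hn1 : (k % 16).toNat < 16 := by omega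
  have hn2 : ((k+1) % 16).toNat < 16 := by omega
  have hne : (k % 16).toNat ≠ ((k+1) % 16).toNat := by omega
  have hsub : ({(k % 16).toNat, ((k+1) % 16).toNat} : Finset ℕ) ⊆ Finset.range 16 := by
    intro x hx
    simp only [Finset.mem_insert, Finset.mem_singleton] at hx
    rw [Finset.mem_range]
    rcases hx with rfl | rfl <;> assumption
  have hs := Finset.sum_le_sum_of_subset_of_nonneg (f := fun n =>
    (if 23/25*‖G‖ ≤ G (dirE n) then |L (dirE n)| else 0)) hsub (fun i _ _ => by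
      split_ifs
      · exact abs_nonneg _
      · exact le_rfl)
  rw [Finset.sum_pair hne] at hs
  simp only [V5.d_eq, if_pos h1, if_pos h2] at hs
  linarith

end Crest.Agent.R112
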