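import Crest.Agent.R112.Global
import Crest.Agent.R112.UT
import Crest.Agent.R112.V5

/-!
Row 112 (S0147), module Core1: CORE1 from the unit scale theorem.
-/

set_option autoImplicit false

namespace Crest.Agent.R112

open MeasureTheory Set
open scoped NNReal ENNReal

/-- the statement of CORE1 -/
def CORE1 : Prop :=
  ∃ C : ℝ≥0, ∀ f, Nice f → (∀ x, 0 ≤ f x) →
    ∃ τ ∈ Icc (1 : ℝ) 2, ∫⁻ x, ‖fderiv ℝ (uT f τ) x‖ₑ ≤ C * ∫⁻ x, ‖fderiv ℝ f x‖ₑ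

theorem core1_of_unit {C : ℝ≥0} (hC : UnitBound C) : CORE1 := by
  refine ⟨49 + 48 * C * (25 * 4 ^ 8) * 100, fun f hf hf0 => ?_⟩
  obtain ⟨K, hK⟩ := hf.lipschitz
  obtain ⟨τ, hτ, h⟩ := core1_abstract hC hf hf0 hK (E := dirE) norm_dirE V5 (u := uT f)
    (fun τ => lipschitz_uT hf hK τ) (fun τ x => le_uT f τ x)
    (fun τ hτ k x => U_le_uT hf (by linarith [hτ.1]) k x)
    (fun τ hτ x hx => exists_U_eq hf (by linarith [hτ.1]) hf0 hx)
  refine ⟨τ, hτ, h.trans (le_of_eq ?_)⟩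
  push_cast
  rfl

end Crest.Agent.R112
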