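import Crest.Agent.R112.Local

/-!
Row 112 (S0147), module Resc: rescaling of LOCAL and of the chain, joint measurability of `Q`.
-/

set_option autoImplicit false

namespace Crest.Agent.R112

open MeasureTheory Set Filter Topology
open scoped NNReal ENNReal

/-- `b_e(L) = max(0, 0.9 |L| - L e)` -/
noncomputable def be (e : ℂ) (L : ℂ →L[ℝ] ℝ) : ℝ := max 0 (9 / 10 * ‖L‖ - L e)

section
variable {f : ℂ → ℝ} {e x₀ : ℂ} {t : ℝ}

theorem ne_zero_of_norm_one (he : ‖e‖ = 1) : e ≠ 0 := by rintro rfl; simp at he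

theorem te_ne (he : ‖e‖ = 1) (ht : 0 < t) : (t * e : ℂ) ≠ 0 :=
  mul_ne_zero (Complex.ofReal_ne_zero.mpr ht.ne') (ne_zero_of_norm_one he)

theorem norm_te (he : ‖e‖ = 1) (ht : 0 < t) : ‖(t * e : ℂ)‖ = t := by
  rw [norm_mul, he, mul_one, Complex.norm_real, Real.norm_eq_abs, abs_of_pos ht]

theorem clm_te (L : ℂ →L[ℝ] ℝ) : L ((t : ℂ) * e) = t * L e := by
  rw [← smul_eq_mul, Complex.coe_smul, map_smul, smul_eq_mul]

/-- derivative of a rescaled function -/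
theorem fderiv_te (h : ℂ → ℝ) (he : ‖e‖ = 1) (ht : 0 < t) (z : ℂ) :
    fderiv ℝ (fun z => h (x₀ + t * e * z)) z 1 = t * fderiv ℝ h (x₀ + t * e * z) e := by
  rw [fderiv_aff h x₀ (te_ne he ht), mul_one, clm_te]

theorem norm_fderiv_te (h : ℂ → ℝ) (he : ‖e‖ = 1) (ht : 0 < t) (z : ℂ) :
    ‖fderiv ℝ (fun z => h (x₀ + t * e * z)) z‖ = t * ‖fderiv ℝ h (x₀ + t * e * z)‖ := by
  have h1 : ‖fderiv ℝ (fun z => h (x₀ + t * e * z)) z‖ =
      ‖t • fderiv ℝ h (x₀ + t * e * z)‖ := by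
    apply norm_clm_rot he
    intro v
    rw [fderiv_aff h x₀ (te_ne he ht)]
    show _ = t • fderiv ℝ h (x₀ + t * e * z) (e * v)
    have h2 : (t : ℂ) * e * v = t * (e * v) := mul_assoc _ _ _
    rw [h2, clm_te, smul_eq_mul]
  rw [h1, norm_smul, Real.norm_eq_abs, abs_of_pos ht]

theorem bb_te (h : ℂ → ℝ) (he : ‖e‖ = 1) (ht : 0 < t) (z : ℂ) :
    bb (fderiv ℝ (fun z => h (x₀ + t * e * z)) z) = t * be e (fderiv ℝ h (x₀ + t * e * z)) := by
  unfold bb be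
  rw [fderiv_te h he ht, norm_fderiv_te h he ht, mul_max_of_nonneg _ _ ht.le, mul_zero]
  congr 1
  ring

theorem mem_ball_te (he : ‖e‖ = 1) (ht : 0 < t) (z : ℂ) (r : ℝ) :
    x₀ + t * e * z ∈ Metric.ball x₀ (t * r) ↔ z ∈ Metric.ball (0 : ℂ) r := by
  rw [Metric.mem_ball, Metric.mem_ball, dist_eq_norm, add_sub_cancel_left, norm_mul,
    norm_te he ht, dist_zero_right]
  exact mul_lt_mul_iff_right₀ ht

/-- change of variables on balls -/
theorem lint_ball_te (he : ‖e‖ = 1) (ht : 0 < t) (r : ℝ) (F : ℂ → ℝ≥0∞) :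
    ∫⁻ x in Metric.ball x₀ (t * r), F x =
      ENNReal.ofReal (t ^ 2) * ∫⁻ z in Metric.ball (0 : ℂ) r, F (x₀ + t * e * z) := by
  rw [← lintegral_indicator measurableSet_ball, ← lintegral_indicator measurableSet_ball,
    ← lint_aff x₀ (te_ne he ht), norm_te he ht]
  congr 2
  ext z
  by_cases hz : z ∈ Metric.ball (0 : ℂ) r
  · rw [indicator_of_mem hz, indicator_of_mem ((mem_ball_te he ht z r).mpr hz)]
  · rw [indicator_of_notMem hz, indicator_of_notMem (fun h => hz ((mem_ball_te he ht z r).mp h))]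

/-- LOCAL, rescaled and rotated -/
theorem LOCAL_te (hf : Nice f) (he : ‖e‖ = 1) (ht : 0 < t) (τ : ℝ) {N : Set ℂ}
    (hN : MeasurableSet N) (hN' : ∀ x ∈ N, ¬ AttR (14 * t) e f (U f (t * τ)) x) :
    ∫⁻ x in Metric.ball x₀ t,
      (N.indicator (fun x => ENNReal.ofReal (fderiv ℝ (U f (t * τ)) x e)) x +
        ENNReal.ofReal (-(fderiv ℝ (U f (t * τ)) x e))) ≤
      ENNReal.ofReal t * Q τ (fun z => f (x₀ + t * e * z)) := by
  set V := U f (t * τ) with hV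
  set g : ℂ → ℝ := fun z => f (x₀ + t * e * z) with hg
  have hgN : Nice g := nice_aff hf x₀ (te_ne he ht)
  have hUg : U g τ = fun z => V (x₀ + t * e * z) := by
    ext z; exact U_comp he τ z
  have hmeas : Measurable fun z : ℂ => x₀ + t * e * z := by fun_prop
  set S : Set ℂ := {z | z ∈ Metric.ball (0 : ℂ) 1 ∧ x₀ + t * e * z ∈ N} with hS
  have hSm : MeasurableSet S := measurableSet_ball.inter (hmeas hN)
  have key := LOCAL hgN τ hSm (fun z hz => hz.1) (by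
    rintro z ⟨_, hz⟩ ⟨σ, h1, h2, h3⟩
    apply hN' _ hz
    have e1 : ∀ s : ℝ, x₀ + t * e * (z + (s : ℂ) * 1) = x₀ + t * e * z + ((t * s : ℝ) : ℂ) * e := by
      intro s; push_cast; ring
    refine ⟨t * σ, ⟨mul_nonneg ht.le h1.1, by
      have := mul_le_mul_of_nonneg_left h1.2 ht.le; linarith⟩, ?_, ?_⟩
    · rw [hUg] at h2
      simp only [hg, e1] at h2
      exact h2
    · intro s hs
      have hs' : s / t ∈ Icc (0 : ℝ) σ := by
        refine ⟨div_nonneg hs.1 ht.le, ?_⟩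
        rw [div_le_iff₀ ht, mul_comm]; exact hs.2
      have h4 := h3 _ hs'
      rw [hUg] at h4
      simp only [e1] at h4
      rwa [mul_div_cancel₀ s ht.ne'] at h4)
  have hlhs : ∫⁻ x in Metric.ball x₀ t,
      (N.indicator (fun x => ENNReal.ofReal (fderiv ℝ V x e)) x +
        ENNReal.ofReal (-(fderiv ℝ V x e))) =
      ENNReal.ofReal t * ((∫⁻ z in S, ENNReal.ofReal (fderiv ℝ (U g τ) z 1)) +
      ∫⁻ z in Metric.ball (0 : ℂ) 1, ENNReal.ofReal (-(fderiv ℝ (U g τ) z 1))) := by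
    have h1 := lint_ball_te (x₀ := x₀) he ht 1 (fun x =>
      (N.indicator (fun x => ENNReal.ofReal (fderiv ℝ V x e)) x +
        ENNReal.ofReal (-(fderiv ℝ V x e))))
    rw [mul_one] at h1
    rw [h1, pow_two, ENNReal.ofReal_mul ht.le, mul_assoc]
    congr 1
    have hm1 : Measurable fun z => fderiv ℝ (U g τ) z 1 := measurable_fderiv_apply_const ℝ _ _
    have hm2 : Measurable (S.indicator fun z => ENNReal.ofReal (fderiv ℝ (U g τ) z 1)) :=
      hm1.ennreal_ofReal.indicator hSm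
    have h2 : ∫⁻ z in S, ENNReal.ofReal (fderiv ℝ (U g τ) z 1) =
        ∫⁻ z in Metric.ball (0 : ℂ) 1, S.indicator
          (fun z => ENNReal.ofReal (fderiv ℝ (U g τ) z 1)) z := by
      rw [← lintegral_indicator hSm, ← lintegral_indicator measurableSet_ball]
      congr 1
      ext z
      by_cases hz : z ∈ Metric.ball (0 : ℂ) 1
      · rw [indicator_of_mem hz]
      · rw [indicator_of_notMem hz, indicator_of_notMem (fun h => hz h.1)]
    rw [h2, ← lintegral_add_left hm2, ← lintegral_const_mul' _ _ ENNReal.ofReal_ne_top]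
    apply setLIntegral_congr_fun measurableSet_ball
    intro z hz
    show _ * (_ + _) = _ + _
    rw [mul_add, hUg]
    congr 1
    · by_cases hz' : x₀ + t * e * z ∈ N
      · rw [indicator_of_mem hz', indicator_of_mem (show z ∈ S from ⟨hz, hz'⟩),
          fderiv_te V he ht, ENNReal.ofReal_mul ht.le]
      · rw [indicator_of_notMem hz', indicator_of_notMem (fun h => hz' h.2), mul_zero]
    · rw [fderiv_te V he ht, ← mul_neg, ENNReal.ofReal_mul ht.le]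
  rw [hlhs]
  gcongr

/-- the chain of a rescaled function -/
theorem chain_te {F : ℕ → ℂ → ℝ} (h0 : F 0 = f)
    (hs : ∀ j, F (j + 1) = A (F j) ((4 : ℝ) ^ ((j : ℤ) - 6))) (he : ‖e‖ = 1) (k j : ℕ) :
    chain (fun z => f (x₀ + ((4 : ℝ) ^ k : ℝ) * e * z)) (k + 1) j =
      fun z => F j (x₀ + ((4 : ℝ) ^ k : ℝ) * e * z) := by
  induction j with
  | zero => rw [h0]; rfl
  | succ j ih =>
    show A (chain (fun z => f (x₀ + ((4 : ℝ) ^ k : ℝ) * e * z)) (k + 1) j) _ = _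
    rw [ih, hs]
    ext z
    rw [A_comp he]
    congr 1
    rw [← zpow_natCast, ← zpow_add₀ (by norm_num : (4 : ℝ) ≠ 0)]
    congr 1
    push_cast
    ring

theorem bb_chain_te {F : ℕ → ℂ → ℝ} (h0 : F 0 = f)
    (hs : ∀ j, F (j + 1) = A (F j) ((4 : ℝ) ^ ((j : ℤ) - 6))) (he : ‖e‖ = 1) (k j : ℕ) :
    ENNReal.ofReal ((4 : ℝ) ^ k) * ∫⁻ z in Metric.ball (0 : ℂ) 40, ENNReal.ofReal (bb (fderiv ℝ
      (chain (fun z => f (x₀ + ((4 : ℝ) ^ k : ℝ) * e * z)) (k + 1) j) z)) =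
    ∫⁻ x in Metric.ball x₀ ((4 : ℝ) ^ k * 40), ENNReal.ofReal (be e (fderiv ℝ (F j) x)) := by
  have ht : (0 : ℝ) < 4 ^ k := by positivity
  rw [chain_te h0 hs he, lint_ball_te he ht, pow_two, ENNReal.ofReal_mul ht.le, mul_assoc]
  congr 1
  rw [← lintegral_const_mul' _ _ ENNReal.ofReal_ne_top]
  congr 1
  ext z
  rw [bb_te _ he ht, ENNReal.ofReal_mul ht.le]

end

/-- joint measurability of `Q` -/
theorem measurable_Q {f : ℂ → ℝ} (hf : Nice f) {e : ℂ} (he : ‖e‖ = 1) {t : ℝ} :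
    Measurable (fun p : ℝ × ℂ => Q p.1 (fun z => f (p.2 + t * e * z))) := by
  have hU := continuous_U hf
  have hfc := hf.continuous
  have hmk : Continuous fun p : ℝ × ℝ => (⟨p.1, p.2⟩ : ℂ) := by
    have : (fun p : ℝ × ℝ => (⟨p.1, p.2⟩ : ℂ)) = fun p => (p.1 : ℂ) + p.2 * Complex.I := by
      ext p; apply Complex.ext <;> simp
    rw [this]; fun_prop
  have h1 : Continuous (Function.uncurry fun (q : (ℝ × ℂ) × ℝ) (s : ℝ) =>
      U f (t * q.1.1) (q.1.2 + t * e * (⟨s, q.2⟩ : ℂ))) := by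
    show Continuous fun p : ((ℝ × ℂ) × ℝ) × ℝ =>
      U f (t * p.1.1.1) (p.1.1.2 + t * e * (⟨p.2, p.1.2⟩ : ℂ))
    have h2 : Continuous fun p : ((ℝ × ℂ) × ℝ) × ℝ =>
        ((t * p.1.1.1, p.1.1.2 + t * e * (⟨p.2, p.1.2⟩ : ℂ)) : ℝ × ℂ) := by
      have h3 : Continuous fun p : ((ℝ × ℂ) × ℝ) × ℝ => (⟨p.2, p.1.2⟩ : ℂ) :=
        hmk.comp (by fun_prop : Continuous fun p : ((ℝ × ℂ) × ℝ) × ℝ => (p.2, p.1.2))
      fun_prop
    exact hU.comp h2
  have hd : Measurable fun p : ((ℝ × ℂ) × ℝ) × ℝ => deriv (fun s : ℝ =>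
      U f (t * p.1.1.1) (p.1.1.2 + t * e * (⟨s, p.1.2⟩ : ℂ))) p.2 :=
    measurable_deriv_with_param h1
  have hd2 : Measurable fun p : ((ℝ × ℂ) × ℝ) × ℝ => ENNReal.ofReal
      (U f (t * p.1.1.1) (p.1.1.2 + t * e * (⟨1, p.1.2⟩ : ℂ)) -
        f (p.1.1.2 + t * e * (⟨p.2, p.1.2⟩ : ℂ))) := by
    apply Measurable.ennreal_ofReal
    apply Continuous.measurable
    apply Continuous.sub
    · have h3 : Continuous fun p : ((ℝ × ℂ) × ℝ) × ℝ => (⟨1, p.1.2⟩ : ℂ) :=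
        hmk.comp (by fun_prop : Continuous fun p : ((ℝ × ℂ) × ℝ) × ℝ => ((1 : ℝ), p.1.2))
      have h2 : Continuous fun p : ((ℝ × ℂ) × ℝ) × ℝ =>
        ((t * p.1.1.1, p.1.1.2 + t * e * (⟨1, p.1.2⟩ : ℂ)) : ℝ × ℂ) := by fun_prop
      exact hU.comp h2
    · have h3 : Continuous fun p : ((ℝ × ℂ) × ℝ) × ℝ => (⟨p.2, p.1.2⟩ : ℂ) :=
        hmk.comp (by fun_prop : Continuous fun p : ((ℝ × ℂ) × ℝ) × ℝ => (p.2, p.1.2))
      fun_prop
  have hQ : (fun p : ℝ × ℂ => Q p.1 (fun z => f (p.2 + t * e * z))) = fun p : ℝ × ℂ =>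
      ∫⁻ y in Icc (-1 : ℝ) 1, (2 * (∫⁻ s in Icc (-1 : ℝ) 15, ENNReal.ofReal (-(deriv (fun s : ℝ =>
      U f (t * p.1) (p.2 + t * e * (⟨s, y⟩ : ℂ))) s))) + ∫⁻ s in Icc (11 : ℝ) 12, ENNReal.ofReal
      (U f (t * p.1) (p.2 + t * e * (⟨1, y⟩ : ℂ)) - f (p.2 + t * e * (⟨s, y⟩ : ℂ)))) := by
    ext p
    unfold Q
    simp only [U_comp he]
  rw [hQ]
  refine Measurable.lintegral_prod_right' (f := fun q : (ℝ × ℂ) × ℝ =>
    (2 * (∫⁻ s in Icc (-1 : ℝ) 15, ENNReal.ofReal (-(deriv (fun s : ℝ =>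
      U f (t * q.1.1) (q.1.2 + t * e * (⟨s, q.2⟩ : ℂ))) s))) + ∫⁻ s in Icc (11 : ℝ) 12,
      ENNReal.ofReal (U f (t * q.1.1) (q.1.2 + t * e * (⟨1, q.2⟩ : ℂ)) -
        f (q.1.2 + t * e * (⟨s, q.2⟩ : ℂ))))) ?_
  apply Measurable.add
  · apply Measurable.const_mul
    exact Measurable.lintegral_prod_right' (f := fun p : ((ℝ × ℂ) × ℝ) × ℝ =>
      ENNReal.ofReal (-(deriv (fun s : ℝ =>
      U f (t * p.1.1.1) (p.1.1.2 + t * e * (⟨s, p.1.2⟩ : ℂ))) p.2))) hd.neg.ennreal_ofReal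
  · exact Measurable.lintegral_prod_right' (f := fun p : ((ℝ × ℂ) × ℝ) × ℝ =>
      ENNReal.ofReal (U f (t * p.1.1.1) (p.1.1.2 + t * e * (⟨1, p.1.2⟩ : ℂ)) -
        f (p.1.1.2 + t * e * (⟨p.2, p.1.2⟩ : ℂ)))) hd2

end Crest.Agent.R112
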