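import Crest.Agent.R112.UT
import Crest.Agent.R112.AttPlane
import Crest.Agent.R112.Resc

/-!
# R112 (S0147), module Core2: from the truncated maximal function of nonnegative `C¹` functions
(scales `≥ τ`, `τ ∈ [1,2]`) to the line variation of the full maximal function of `C¹` functions.
-/

set_option autoImplicit false

namespace Crest.Agent.R112

open MeasureTheory Set Metric Filter Topology
open scoped ENNReal NNReal

/-! ### variation of Lipschitz functions -/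

theorem enorm_sub_le_lintegral {h : ℝ → ℝ} {K : ℝ≥0} (hh : LipschitzWith K h) {a b : ℝ}
    (hab : a ≤ b) : ‖h b - h a‖ₑ ≤ ∫⁻ s in Ioc a b, ‖deriv h s‖ₑ := by
  have h1 : ∫ s in a..b, deriv h s = h b - h a :=
    ((hh.lipschitzOnWith (s := uIcc a b)).absolutelyContinuousOnInterval).integral_deriv_eq_sub
  rw [← h1, intervalIntegral.integral_of_le hab]
  exact enorm_integral_le_lintegral_enorm _

theorem eVariationOn_le_lintegral {h : ℝ → ℝ} {K : ℝ≥0} (hh : LipschitzWith K h) :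
    eVariationOn h univ ≤ ∫⁻ s, ‖deriv h s‖ₑ := by
  unfold eVariationOn
  apply iSup_le
  rintro ⟨n, u, hu, -⟩
  have key : ∀ n : ℕ, ∑ i ∈ Finset.range n, edist (h (u (i + 1))) (h (u i)) ≤
      ∫⁻ s in Ioc (u 0) (u n), ‖deriv h s‖ₑ := by
    intro n
    induction n with
    | zero => simp
    | succ n ih =>
      rw [Finset.sum_range_succ]
      have h0 : u 0 ≤ u n := hu (Nat.zero_le n)
      have h1 : u n ≤ u (n + 1) := hu (Nat.le_succ n)
      have hun : Ioc (u 0) (u (n + 1)) = Ioc (u 0) (u n) ∪ Ioc (u n) (u (n + 1)) :=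
        (Ioc_union_Ioc_eq_Ioc h0 h1).symm
      rw [hun, lintegral_union measurableSet_Ioc (Ioc_disjoint_Ioc_of_le le_rfl)]
      apply add_le_add ih
      rw [edist_eq_enorm_sub]
      exact enorm_sub_le_lintegral hh h1
  exact (key n).trans (setLIntegral_le_lintegral _ _)

/-- the line integral of the derivative -/
noncomputable def lineW (u : ℂ → ℝ) (y : ℝ) : ℝ≥0∞ := ∫⁻ s, ‖deriv (fun s : ℝ => u ⟨s, y⟩) s‖ₑ

theorem continuous_mk : Continuous (fun p : ℝ × ℝ => (⟨p.2, p.1⟩ : ℂ)) := by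
  have : (fun p : ℝ × ℝ => (⟨p.2, p.1⟩ : ℂ)) = fun p : ℝ × ℝ => (p.2 : ℂ) + p.1 * Complex.I := by
    ext p; apply Complex.ext <;> simp
  rw [this]
  fun_prop

theorem measurable_line_deriv {u : ℂ → ℝ} (hu : Continuous u) :
    Measurable (fun p : ℝ × ℝ => deriv (fun s : ℝ => u ⟨s, p.1⟩) p.2) := by
  have h : Continuous (Function.uncurry fun (y s : ℝ) => u ⟨s, y⟩) := hu.comp continuous_mk
  exact measurable_deriv_with_param h

theorem measurable_lineW {u : ℂ → ℝ} (hu : Continuous u) : Measurable (lineW u) :=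
  (measurable_line_deriv hu).enorm.lintegral_prod_right'

theorem eVariationOn_le_lineW {u : ℂ → ℝ} {K : ℝ≥0} (hu : LipschitzWith K u) (y : ℝ) :
    eVariationOn (fun s : ℝ => u ⟨s, y⟩) univ ≤ lineW u y :=
  eVariationOn_le_lintegral (hu.comp (line_lipschitz y))

theorem lintegral_lineW_le {u : ℂ → ℝ} {K : ℝ≥0} (hu : LipschitzWith K u) :
    ∫⁻ y, lineW u y ≤ ∫⁻ z, ‖fderiv ℝ u z‖ₑ := by
  set F : ℂ → ℝ≥0∞ := fun z => ‖deriv (fun s : ℝ => u ⟨s, z.im⟩) z.re‖ₑ with hF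
  have hFm : Measurable F := by
    have h1 : Measurable (fun z : ℂ => ((z.im, z.re) : ℝ × ℝ)) :=
      Complex.measurable_im.prodMk Complex.measurable_re
    exact ((measurable_line_deriv hu.continuous).comp h1).enorm
  have h1 : ∫⁻ z, F z = ∫⁻ y, lineW u y := by
    rw [lint_slice hFm]
    rfl
  rw [← h1]
  apply lintegral_mono_ae
  filter_upwards [hu.ae_differentiableAt] with z hz
  have h2 : HasDerivAt (fun s : ℝ => u ⟨s, z.im⟩) (fderiv ℝ u ⟨z.re, z.im⟩ 1) z.re :=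
    HasFDerivAt.comp_hasDerivAt z.re (f := fun s : ℝ => (⟨s, z.im⟩ : ℂ)) hz.hasFDerivAt
      (line_hasDerivAt z.im z.re)
  rw [hF]
  simp only
  rw [h2.deriv, ← ofReal_norm, ← ofReal_norm]
  apply ENNReal.ofReal_le_ofReal
  simpa using (fderiv ℝ u z).le_opNorm 1

/-! ### scaling -/

theorem Nice.scale {f : ℂ → ℝ} (hf : Nice f) {c : ℝ} (hc : 0 < c) : Nice (fun z => f (c * z)) := by
  have := nice_aff hf 0 (c := (c : ℂ)) (Complex.ofReal_ne_zero.mpr hc.ne')
  simpa using this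

theorem A_scale (f : ℂ → ℝ) (c r : ℝ) (z : ℂ) :
    A (fun z => f (c * z)) r z = A f (c * r) (c * z) := by
  have := A_comp (f := f) (e := 1) (x₀ := 0) (by simp) (t := c) r z
  simpa using this

theorem uT_scale {f : ℂ → ℝ} (hf : Nice f) {c : ℝ} (hc : 0 < c) (τ : ℝ) (z : ℂ) :
    uT (fun z => f (c * z)) τ z = uT f (c * τ) (c * z) := by
  apply le_antisymm
  · apply uT_le
    · exact le_uT f _ _
    · intro r hr
      rw [A_scale]
      exact A_le_uT hf (mul_le_mul_of_nonneg_left hr hc.le) _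
  · apply uT_le
    · exact le_uT (fun z => f (c * z)) τ z
    · intro r hr
      have h1 : r = c * (r / c) := by field_simp
      rw [h1, ← A_scale]
      apply A_le_uT (hf.scale hc)
      rw [le_div_iff₀ hc]
      linarith

theorem lintegral_fderiv_scale (u : ℂ → ℝ) {c : ℝ} (hc : 0 < c) :
    ENNReal.ofReal c * ∫⁻ z, ‖fderiv ℝ (fun z => u (c * z)) z‖ₑ = ∫⁻ z, ‖fderiv ℝ u z‖ₑ := by
  have h0 : ∀ z, ‖fderiv ℝ (fun z => u (c * z)) z‖ₑ =
      ENNReal.ofReal c * ‖fderiv ℝ u (c * z)‖ₑ := by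
    intro z
    have := norm_fderiv_te (x₀ := 0) u (e := 1) (by simp) hc z
    simp only [mul_one, zero_add] at this
    rw [← ofReal_norm, ← ofReal_norm, ← ENNReal.ofReal_mul hc.le, this]
  simp_rw [h0]
  have hcne : (c : ℂ) ≠ 0 := Complex.ofReal_ne_zero.mpr hc.ne'
  have h2 := lint_aff 0 hcne (fun z => ‖fderiv ℝ u z‖ₑ)
  simp only [zero_add] at h2
  rw [lintegral_const_mul' _ _ ENNReal.ofReal_ne_top, ← mul_assoc, ← ENNReal.ofReal_mul hc.le, ← h2]
  congr 2
  rw [Complex.norm_real, Real.norm_eq_abs, abs_of_pos hc]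
  ring

/-- the core estimate for nonnegative `C¹` functions -/
def Core1 (C : ℝ≥0) : Prop := ∀ f : ℂ → ℝ, Nice f → (∀ z, 0 ≤ f z) → ∃ τ ∈ Icc (1 : ℝ) 2,
  ∫⁻ z, ‖fderiv ℝ (uT f τ) z‖ₑ ≤ C * ∫⁻ z, ‖fderiv ℝ f z‖ₑ

theorem Core1.scale {C : ℝ≥0} (h : Core1 C) {f : ℂ → ℝ} (hf : Nice f) (h0 : ∀ z, 0 ≤ f z) {ε : ℝ}
    (hε : 0 < ε) : ∃ τ ∈ Icc ε (2 * ε),
      ∫⁻ z, ‖fderiv ℝ (uT f τ) z‖ₑ ≤ C * ∫⁻ z, ‖fderiv ℝ f z‖ₑ := by
  obtain ⟨τ, hτ, h1⟩ := h (fun z => f (ε * z)) (hf.scale hε) (fun z => h0 _)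
  refine ⟨ε * τ, ⟨by nlinarith [hτ.1], by nlinarith [hτ.2]⟩, ?_⟩
  have h2 : uT (fun z => f (ε * z)) τ = fun z => uT f (ε * τ) (ε * z) := by
    ext z
    exact uT_scale hf hε τ z
  rw [h2] at h1
  rw [← lintegral_fderiv_scale (uT f (ε * τ)) hε, ← lintegral_fderiv_scale f hε]
  calc ENNReal.ofReal ε * ∫⁻ z, ‖fderiv ℝ (fun z => uT f (ε * τ) (ε * z)) z‖ₑ
      ≤ ENNReal.ofReal ε * (C * ∫⁻ z, ‖fderiv ℝ (fun z => f (ε * z)) z‖ₑ) := by gcongr
    _ = C * (ENNReal.ofReal ε * ∫⁻ z, ‖fderiv ℝ (fun z => f (ε * z)) z‖ₑ) := by ring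

/-! ### the smooth absolute value -/

/-- `√(t²+δ²) - δ` -/
noncomputable def sabs (δ t : ℝ) : ℝ := Real.sqrt (t ^ 2 + δ ^ 2) - δ

theorem sabs_nonneg {δ : ℝ} (hδ : 0 < δ) (t : ℝ) : 0 ≤ sabs δ t := by
  unfold sabs
  have : δ ≤ Real.sqrt (t ^ 2 + δ ^ 2) := Real.le_sqrt_of_sq_le (by nlinarith [sq_nonneg t])
  linarith

theorem sabs_le {δ : ℝ} (_hδ : 0 < δ) (t : ℝ) : sabs δ t ≤ |t| := by
  unfold sabs
  have : Real.sqrt (t ^ 2 + δ ^ 2) ≤ |t| + δ := by
    apply Real.sqrt_le_iff.mpr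
    constructor
    · positivity
    · nlinarith [abs_nonneg t, sq_abs t]
  linarith

theorem le_sabs {δ : ℝ} (_hδ : 0 < δ) (t : ℝ) : |t| - δ ≤ sabs δ t := by
  unfold sabs
  have : |t| ≤ Real.sqrt (t ^ 2 + δ ^ 2) := by
    apply Real.le_sqrt_of_sq_le
    rw [sq_abs]
    nlinarith [sq_nonneg δ]
  linarith

theorem hasDerivAt_sabs {δ : ℝ} (hδ : 0 < δ) (t : ℝ) :
    HasDerivAt (sabs δ) (t / Real.sqrt (t ^ 2 + δ ^ 2)) t := by
  have hpos : 0 < t ^ 2 + δ ^ 2 := by positivity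
  have h1 : HasDerivAt (fun t : ℝ => t ^ 2 + δ ^ 2) (2 * t) t := by
    have := (hasDerivAt_pow 2 t).add_const (δ ^ 2)
    simpa using this
  have h2 := (h1.sqrt hpos.ne').sub_const δ
  have h3 : 2 * t / (2 * Real.sqrt (t ^ 2 + δ ^ 2)) = t / Real.sqrt (t ^ 2 + δ ^ 2) := by
    rw [mul_div_mul_left _ _ (by norm_num)]
  rw [h3] at h2
  exact h2

theorem abs_deriv_sabs_le {δ : ℝ} (hδ : 0 < δ) (t : ℝ) :
    |t / Real.sqrt (t ^ 2 + δ ^ 2)| ≤ 1 := by
  have hpos : 0 < Real.sqrt (t ^ 2 + δ ^ 2) := Real.sqrt_pos.mpr (by positivity)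
  rw [abs_div, abs_of_pos hpos, div_le_one hpos]
  apply Real.le_sqrt_of_sq_le
  rw [sq_abs]
  nlinarith [sq_nonneg δ]

theorem nice_sabs {f : ℂ → ℝ} (hf : Nice f) {δ : ℝ} (hδ : 0 < δ) : Nice (fun z => sabs δ (f z)) := by
  constructor
  · have h1 : ContDiff ℝ 1 (fun z => f z ^ 2 + δ ^ 2) := (hf.1.pow 2).add contDiff_const
    exact (h1.sqrt (fun z => by positivity)).sub contDiff_const
  · apply hf.2.comp_left (g := sabs δ)
    unfold sabs
    rw [zero_pow (by norm_num), zero_add, Real.sqrt_sq hδ.le, sub_self]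

theorem enorm_fderiv_sabs_le {f : ℂ → ℝ} (hf : Nice f) {δ : ℝ} (hδ : 0 < δ) (z : ℂ) :
    ‖fderiv ℝ (fun z => sabs δ (f z)) z‖ₑ ≤ ‖fderiv ℝ f z‖ₑ := by
  have h1 := (hasDerivAt_sabs hδ (f z)).comp_hasFDerivAt z (hf.differentiable z).hasFDerivAt
  have h2 : fderiv ℝ (fun z => sabs δ (f z)) z =
      (f z / Real.sqrt (f z ^ 2 + δ ^ 2)) • fderiv ℝ f z := h1.fderiv
  rw [h2, ← ofReal_norm, ← ofReal_norm]
  apply ENNReal.ofReal_le_ofReal
  rw [norm_smul, Real.norm_eq_abs]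
  have := mul_le_mul_of_nonneg_right (abs_deriv_sabs_le hδ (f z)) (norm_nonneg (fderiv ℝ f z))
  linarith

/-! ### the limit -/

theorem continuous_abs_comp {f : ℂ → ℝ} (hf : Nice f) : Continuous (fun w => |f w|) :=
  hf.continuous.abs

theorem bddAbove_Mz {f : ℂ → ℝ} (hf : Nice f) (z : ℂ) :
    BddAbove ((fun r : ℝ => A (fun w => |f w|) r z) '' Ici 0) := by
  obtain ⟨K, hK0, hK⟩ := hf.exists_bound
  refine ⟨K, ?_⟩
  rintro _ ⟨r, _, rfl⟩
  apply A_le_of_le (continuous_abs_comp hf)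
  intro ξ _
  exact hK _

theorem tendsto_uT {f : ℂ → ℝ} (hf : Nice f) (z : ℂ) (δ τ : ℕ → ℝ) (hδ : ∀ n, 0 < δ n)
    (hτ : ∀ n, 0 < τ n) (hδ' : Tendsto δ atTop (𝓝 0)) (hτ' : Tendsto τ atTop (𝓝 0)) :
    Tendsto (fun n => uT (fun w => sabs (δ n) (f w)) (τ n) z) atTop
      (𝓝 (sSup ((fun r : ℝ => A (fun w => |f w|) r z) '' Ici 0))) := by
  set M : ℝ := sSup ((fun r : ℝ => A (fun w => |f w|) r z) '' Ici 0) with hM
  have hAM : ∀ r, 0 ≤ r → A (fun w => |f w|) r z ≤ M := fun r hr =>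
    le_csSup (bddAbove_Mz hf z) ⟨r, hr, rfl⟩
  have hcs : ∀ n, Continuous (fun w => sabs (δ n) (f w)) := fun n =>
    (nice_sabs hf (hδ n)).continuous
  -- comparison of averages
  have hA1 : ∀ n r, A (fun w => sabs (δ n) (f w)) r z ≤ A (fun w => |f w|) r z := by
    intro n r
    unfold A
    apply mul_le_mul_of_nonneg_left _ (by positivity)
    apply setIntegral_mono
    · exact integrableOn_disc ((hcs n).comp (by fun_prop))
    · exact integrableOn_disc ((continuous_abs_comp hf).comp (by fun_prop))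
    · intro ξ
      exact sabs_le (hδ n) _
  have hA2 : ∀ n r, A (fun w => |f w|) r z - δ n ≤ A (fun w => sabs (δ n) (f w)) r z := by
    intro n r
    have hc1 : Continuous (fun ξ : ℂ => |f (z + r * ξ)|) :=
      (hf.continuous.comp (by fun_prop : Continuous fun ξ : ℂ => z + r * ξ)).abs
    have h1 : A (fun w => |f w|) r z - δ n =
        (1 / Real.pi) * ∫ ξ in ball (0 : ℂ) 1, (|f (z + r * ξ)| - δ n) := by
      rw [integral_sub (integrableOn_disc hc1) (integrableOn_disc continuous_const), mul_sub,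
        disc_const]
      rfl
    rw [h1]
    unfold A
    apply mul_le_mul_of_nonneg_left _ (by positivity)
    apply setIntegral_mono
    · exact integrableOn_disc (hc1.sub continuous_const)
    · exact integrableOn_disc ((hcs n).comp (by fun_prop))
    · intro ξ
      exact le_sabs (hδ n) _
  have hup : ∀ n, uT (fun w => sabs (δ n) (f w)) (τ n) z ≤ M := by
    intro n
    apply uT_le
    · have h1 := hAM 0 le_rfl
      rw [A_zero] at h1
      exact (sabs_le (hδ n) _).trans h1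
    · intro r hr
      exact (hA1 n r).trans (hAM r ((hτ n).le.trans hr))
  rw [tendsto_order]
  constructor
  · intro a ha
    obtain ⟨_, ⟨r, hr, rfl⟩, har⟩ := exists_lt_of_lt_csSup
      ((nonempty_Ici (a := (0 : ℝ))).image _) ha
    simp only at har
    have hr' : (0 : ℝ) ≤ r := hr
    have hlim : ∀ᶠ n in atTop, δ n < A (fun w => |f w|) r z - a :=
      hδ'.eventually (gt_mem_nhds (sub_pos.mpr har))
    rcases hr'.eq_or_lt with h0 | hpos
    · filter_upwards [hlim] with n hn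
      rw [← h0, A_zero] at hn
      have h1 := le_uT (fun w => sabs (δ n) (f w)) (τ n) z
      have h2 := le_sabs (hδ n) (f z)
      linarith
    · filter_upwards [hlim, hτ'.eventually (gt_mem_nhds hpos)] with n hn hτn
      have h1 := A_le_uT (nice_sabs hf (hδ n)) hτn.le z
      have h2 := hA2 n r
      linarith
  · intro a ha
    exact Eventually.of_forall fun n => lt_of_le_of_lt (hup n) ha

theorem core2_of_core1 {C : ℝ≥0} (h : Core1 C) {f : ℂ → ℝ} (hf : Nice f) :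
    ∃ W : ℝ → ℝ≥0∞, Measurable W ∧
      (∀ y, eVariationOn (fun s : ℝ => sSup ((fun r : ℝ => A (fun w => |f w|) r ⟨s, y⟩) '' Ici 0))
        univ ≤ W y) ∧
      ∫⁻ y, W y ≤ C * ∫⁻ z, ‖fderiv ℝ f z‖ₑ := by
  set δ : ℕ → ℝ := fun n => 1 / ((n : ℝ) + 1) with hδdef
  have hδ : ∀ n, 0 < δ n := fun n => by rw [hδdef]; positivity
  have hδ' : Tendsto δ atTop (𝓝 0) := tendsto_one_div_add_atTop_nhds_zero_nat
  choose τ hτ hτint using fun n => h.scale (nice_sabs hf (hδ n))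
    (fun z => sabs_nonneg (hδ n) (f z)) (hδ n)
  have hτ0 : ∀ n, 0 < τ n := fun n => (hδ n).trans_le (hτ n).1
  have hτ' : Tendsto τ atTop (𝓝 0) := by
    have h2 : Tendsto (fun n => 2 * δ n) atTop (𝓝 0) := by simpa using hδ'.const_mul 2
    exact tendsto_of_tendsto_of_tendsto_of_le_of_le tendsto_const_nhds h2
      (fun n => (hτ0 n).le) (fun n => (hτ n).2)
  set u : ℕ → ℂ → ℝ := fun n => uT (fun w => sabs (δ n) (f w)) (τ n) with hu
  have hulip : ∀ n, ∃ K : ℝ≥0, LipschitzWith K (u n) := by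
    intro n
    obtain ⟨K, hK⟩ := (nice_sabs hf (hδ n)).lipschitz
    exact ⟨K, lipschitz_uT (nice_sabs hf (hδ n)) hK _⟩
  have hucont : ∀ n, Continuous (u n) := fun n => by
    obtain ⟨K, hK⟩ := hulip n
    exact hK.continuous
  refine ⟨fun y => liminf (fun n => lineW (u n) y) atTop, ?_, ?_, ?_⟩
  · exact Measurable.liminf fun n => measurable_lineW (hucont n)
  · intro y
    refine le_of_forall_lt fun v hv => ?_
    obtain ⟨v', hv1, hv2⟩ := exists_between hv
    refine lt_of_lt_of_le hv1 ?_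
    apply le_liminf_of_le
    · isBoundedDefault
    have := eVariationOn.lowerSemicontinuous_aux (F := fun n => fun s : ℝ => u n ⟨s, y⟩) (p := atTop)
      (fun s _ => tendsto_uT hf ⟨s, y⟩ δ τ hδ hτ0 hδ' hτ') hv2
    filter_upwards [this] with n hn
    obtain ⟨K, hK⟩ := hulip n
    exact hn.le.trans (eVariationOn_le_lineW hK y)
  · calc ∫⁻ y, liminf (fun n => lineW (u n) y) atTop
        ≤ liminf (fun n => ∫⁻ y, lineW (u n) y) atTop :=
          lintegral_liminf_le fun n => measurable_lineW (hucont n)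
      _ ≤ C * ∫⁻ z, ‖fderiv ℝ f z‖ₑ := by
          apply liminf_le_of_frequently_le'
          apply Frequently.of_forall
          intro n
          obtain ⟨K, hK⟩ := hulip n
          refine (lintegral_lineW_le hK).trans ((hτint n).trans ?_)
          gcongr with z
          exact enorm_fderiv_sabs_le hf (hδ n) z

end Crest.Agent.R112
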