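import Crest.Agent.R112.Unit
import Crest.Agent.R112.Core1
import Crest.Agent.R112.Core2

/-!
# R112 (S0147), module Chain: from `K_b` to the core estimate.
-/

set_option autoImplicit false

namespace Crest.Agent.R112

open MeasureTheory Set Metric Filter Topology
open scoped ENNReal NNReal

theorem core1_of_kb {C : ℝ} (hC : 0 ≤ C) (hK : KbProp C) : ∃ C' : ℝ≥0, Core1 C' := by
  obtain ⟨C1, h1⟩ := UNIT_of_Kb hC hK
  obtain ⟨C2, h2⟩ := core1_of_unit (C := C1) h1
  exact ⟨C2, h2⟩

end Crest.Agent.R112
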