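import Mathlib
import Crest.Prelude.Def_MaximalSobolev
import Crest.Agent.R112.Defs

/-!
# R112: density of `C¹` compactly supported functions in `W^{1,1}(ℝ²)`
-/

set_option autoImplicit false

namespace Crest.Agent.R112

open MeasureTheory Set Metric Filter Topology
open scoped ENNReal NNReal ContDiff Convolution RealInnerProductSpace

section L1

variable {G : Type*} [NormedAddCommGroup G] [InnerProductSpace ℝ G] [FiniteDimensional ℝ G]
  [MeasurableSpace G] [BorelSpace G]
variable {F : Type*} [NormedAddCommGroup F] [NormedSpace ℝ F] [CompleteSpace F]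

omit [CompleteSpace F] in
open ContinuousLinearMap in
/-- the mollification does not increase the `L¹` norm -/
theorem Density.integral_norm_conv_le {ρ : G → ℝ} (hρ0 : ∀ x, 0 ≤ ρ x) (hρ : Integrable ρ)
    (hρ1 : ∫ x, ρ x = 1) {h : G → F} (hh : Integrable h) :
    ∫ x, ‖(ρ ⋆[lsmul ℝ ℝ, volume] h) x‖ ≤ ∫ x, ‖h x‖ := by
  have h1 : ∫ x, (ρ ⋆[lsmul ℝ ℝ, volume] (fun x => ‖h x‖)) x = ∫ x, ‖h x‖ := by
    rw [integral_convolution (lsmul ℝ ℝ) hρ hh.norm, hρ1]
    simp
  rw [← h1]
  refine integral_mono_of_nonneg (Eventually.of_forall fun x => norm_nonneg _)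
    (hρ.integrable_convolution _ hh.norm) (Eventually.of_forall fun x => ?_)
  simp only [convolution_def, lsmul_apply]
  refine (norm_integral_le_integral_norm _).trans (le_of_eq ?_)
  refine integral_congr_ae (Eventually.of_forall fun t => ?_)
  simp only [norm_smul, Real.norm_eq_abs, abs_of_nonneg (hρ0 t), smul_eq_mul]

open ContinuousLinearMap in
/-- mollifications converge in `L¹` -/
theorem Density.exists_radius {h : G → F} (hh : Integrable h) {ε : ℝ} (hε : 0 < ε) :
    ∃ δ > 0, ∀ φ : ContDiffBump (0 : G), φ.rOut ≤ δ →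
      ∫ x, ‖(φ.normed volume ⋆[lsmul ℝ ℝ, volume] h) x - h x‖ ≤ ε := by
  obtain ⟨k, hkc, hk1, hkcont, hkint⟩ :=
    hh.exists_hasCompactSupport_integral_sub_le (ε := ε / 3) (by positivity)
  obtain ⟨R, hR⟩ := hkc.isCompact.isBounded.subset_closedBall (0 : G)
  set V : ℝ := (volume (closedBall (0 : G) (R + 1))).toReal with hV
  have hV0 : 0 ≤ V := ENNReal.toReal_nonneg
  have huc : UniformContinuous k := hkcont.uniformContinuous_of_tendsto_cocompact (x := 0) (by
    exact hkc.is_zero_at_infty)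
  obtain ⟨δ, hδ, hδk⟩ := Metric.uniformContinuous_iff.1 huc (ε / (3 * (V + 1))) (by positivity)
  refine ⟨min (δ / 2) 1, by positivity, fun φ hφ => ?_⟩
  have hφ1 : φ.rOut ≤ 1 := hφ.trans (min_le_right _ _)
  have hφδ : φ.rOut ≤ δ / 2 := hφ.trans (min_le_left _ _)
  set ρ : G → ℝ := φ.normed volume with hρdef
  have hρ0 : ∀ x, 0 ≤ ρ x := φ.nonneg_normed
  have hρi : Integrable ρ := φ.integrable_normed
  have hρ1 : ∫ x, ρ x = 1 := φ.integral_normed
  have hρc : HasCompactSupport ρ := φ.hasCompactSupport_normed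
  have hρcont : Continuous ρ := φ.continuous_normed
  have hdec : ∀ x, (ρ ⋆[lsmul ℝ ℝ, volume] h) x - h x =
      (ρ ⋆[lsmul ℝ ℝ, volume] (fun x => h x - k x)) x + ((ρ ⋆[lsmul ℝ ℝ, volume] k) x - k x)
        + (k x - h x) := by
    intro x
    have e1 : ConvolutionExistsAt ρ (fun x => h x - k x) x (lsmul ℝ ℝ) volume :=
      (hρc.convolutionExists_left (lsmul ℝ ℝ) hρcont (hh.sub hkint).locallyIntegrable) x
    have e2 : ConvolutionExistsAt ρ k x (lsmul ℝ ℝ) volume :=
      (hρc.convolutionExists_left (lsmul ℝ ℝ) hρcont hkint.locallyIntegrable) x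
    have := e1.distrib_add e2
    have h3 : ((fun x => h x - k x) + k) = h := by ext y; simp
    rw [h3] at this
    rw [this]; abel
  have hi1 : Integrable (ρ ⋆[lsmul ℝ ℝ, volume] (fun x => h x - k x)) :=
    hρi.integrable_convolution _ (hh.sub hkint)
  have hi2 : Integrable (ρ ⋆[lsmul ℝ ℝ, volume] k) := hρi.integrable_convolution _ hkint
  have hmid : ∫ x, ‖(ρ ⋆[lsmul ℝ ℝ, volume] k) x - k x‖ ≤ ε / 3 := by
    have hpt : ∀ x, ‖(ρ ⋆[lsmul ℝ ℝ, volume] k) x - k x‖ ≤
        (closedBall (0 : G) (R + 1)).indicator (fun _ => ε / (3 * (V + 1))) x := by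
      intro x
      by_cases hx : x ∈ closedBall (0 : G) (R + 1)
      · rw [indicator_of_mem hx, ← dist_eq_norm]
        refine φ.dist_normed_convolution_le hkcont.aestronglyMeasurable fun y hy => ?_
        refine (hδk ?_).le
        have := mem_ball.1 hy
        linarith
      · rw [indicator_of_notMem hx]
        have hx' : R + 1 < ‖x‖ := by
          simpa [mem_closedBall, dist_zero_right] using hx
        have hk0 : ∀ y ∈ ball x φ.rOut, k y = k x := by
          have hz : ∀ y, R < ‖y‖ → k y = 0 := fun y hy => by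
            by_contra hne
            have := hR (subset_tsupport _ (Function.mem_support.2 hne))
            rw [mem_closedBall, dist_zero_right] at this
            linarith
          intro y hy
          have hy' : ‖x‖ ≤ ‖y‖ + 1 := by
            have h1 := mem_ball.1 hy
            rw [dist_comm, dist_eq_norm] at h1
            have h2 : ‖x‖ ≤ ‖x - y‖ + ‖y‖ := by
              simpa using norm_add_le (x - y) y
            linarith
          rw [hz y (by linarith), hz x (by linarith)]
        rw [hρdef, φ.normed_convolution_eq_right hk0, sub_self, norm_zero]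
    calc ∫ x, ‖(ρ ⋆[lsmul ℝ ℝ, volume] k) x - k x‖
        ≤ ∫ x, (closedBall (0 : G) (R + 1)).indicator (fun _ => ε / (3 * (V + 1))) x := by
          refine integral_mono_of_nonneg (Eventually.of_forall fun x => norm_nonneg _) ?_
            (Eventually.of_forall hpt)
          exact (integrable_indicator_iff measurableSet_closedBall).2
            (integrableOn_const (isCompact_closedBall _ _).measure_lt_top.ne)
      _ = V * (ε / (3 * (V + 1))) := by
          rw [integral_indicator measurableSet_closedBall, setIntegral_const]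
          simp [hV, Measure.real]
      _ ≤ ε / 3 := by
          rw [mul_div_assoc', div_le_div_iff₀ (by positivity) (by norm_num)]
          nlinarith
  have hfirst : ∫ x, ‖(ρ ⋆[lsmul ℝ ℝ, volume] (fun x => h x - k x)) x‖ ≤ ε / 3 :=
    (Density.integral_norm_conv_le hρ0 hρi hρ1 (hh.sub hkint)).trans hk1
  have hlast : ∫ x, ‖k x - h x‖ ≤ ε / 3 := by
    simpa only [norm_sub_rev] using hk1
  calc ∫ x, ‖(ρ ⋆[lsmul ℝ ℝ, volume] h) x - h x‖
      ≤ ∫ x, (‖(ρ ⋆[lsmul ℝ ℝ, volume] (fun x => h x - k x)) x‖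
          + ‖(ρ ⋆[lsmul ℝ ℝ, volume] k) x - k x‖ + ‖k x - h x‖) := by
        refine integral_mono_of_nonneg (Eventually.of_forall fun x => norm_nonneg _) ?_
          (Eventually.of_forall fun x => ?_)
        · exact (hi1.norm.add (hi2.sub hkint).norm).add (hkint.sub hh).norm
        · simp only [hdec x]
          exact norm_add₃_le
    _ = (∫ x, ‖(ρ ⋆[lsmul ℝ ℝ, volume] (fun x => h x - k x)) x‖)
          + (∫ x, ‖(ρ ⋆[lsmul ℝ ℝ, volume] k) x - k x‖) + ∫ x, ‖k x - h x‖ := by
        rw [integral_add, integral_add]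
        · exact hi1.norm
        · exact (hi2.sub hkint).norm
        · exact hi1.norm.add (hi2.sub hkint).norm
        · exact (hkint.sub hh).norm
    _ ≤ ε := by linarith

open ContinuousLinearMap in
theorem Density.aux1 {f : G → ℝ} {g : G → G}
    (hfg : ∀ φ : G → ℝ, ContDiff ℝ ∞ φ → HasCompactSupport φ →
      ∀ v : G, ∫ x, f x * fderiv ℝ φ x v = -∫ x, ⟪g x, v⟫ * φ x)
    {ρ : G → ℝ} (hρc : HasCompactSupport ρ) (hρs : ContDiff ℝ ∞ ρ) (x v : G) :
    ∫ y, f y * fderiv ℝ ρ (x - y) v = ∫ y, ⟪g y, v⟫ * ρ (x - y) := by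
  have hψ : ContDiff ℝ ∞ (fun y => ρ (x - y)) := hρs.comp (contDiff_const.sub contDiff_id)
  have hψc : HasCompactSupport (fun y => ρ (x - y)) :=
    hρc.comp_homeomorph (Homeomorph.subLeft x)
  have hψd : ∀ y, fderiv ℝ (fun y => ρ (x - y)) y v = - fderiv ℝ ρ (x - y) v := by
    intro y
    have h1 : HasFDerivAt (fun y : G => x - y) (-(ContinuousLinearMap.id ℝ G)) y := by
      simpa using (hasFDerivAt_id y).const_sub x
    have h2 := ((hρs.differentiable (by simp) (x - y)).hasFDerivAt).comp y h1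
    have h3 : fderiv ℝ (fun y => ρ (x - y)) y =
      (fderiv ℝ ρ (x - y)).comp (-(ContinuousLinearMap.id ℝ G)) := h2.fderiv
    rw [h3]; simp
  have key := hfg (fun y => ρ (x - y)) hψ hψc v
  simp only [hψd] at key
  have e3 : ∫ y, f y * -(fderiv ℝ ρ (x - y) v) = - ∫ y, f y * fderiv ℝ ρ (x - y) v := by
    rw [← integral_neg]
    simp
  rw [e3] at key
  linarith

open ContinuousLinearMap in
/-- the gradient of the mollification is the mollification of the weak gradient -/
theorem Density.hasFDerivAt_conv {f : G → ℝ} {g : G → G}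
    (hf : LocallyIntegrable f) (hg : LocallyIntegrable g)
    (hfg : ∀ φ : G → ℝ, ContDiff ℝ ∞ φ → HasCompactSupport φ →
      ∀ v : G, ∫ x, f x * fderiv ℝ φ x v = -∫ x, ⟪g x, v⟫ * φ x)
    {ρ : G → ℝ} (hρc : HasCompactSupport ρ) (hρs : ContDiff ℝ ∞ ρ) (x : G) :
    HasFDerivAt (ρ ⋆[lsmul ℝ ℝ, volume] f) (innerSL ℝ ((ρ ⋆[lsmul ℝ ℝ, volume] g) x)) x := by
  have hρ1 : ContDiff ℝ 1 ρ := hρs.of_le (by simp)
  have h := hρc.hasFDerivAt_convolution_left (lsmul ℝ ℝ) hρ1 hf x
  refine h.congr_fderiv ?_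
  ext v
  have hint := ((hρc.fderiv ℝ).convolutionExists_left
      (precompL G (lsmul ℝ ℝ : ℝ →L[ℝ] ℝ →L[ℝ] ℝ))
      (hρ1.continuous_fderiv one_ne_zero) hf) x
  have hint2 : Integrable (fun t => (lsmul ℝ ℝ) (ρ t) (g (x - t))) :=
    (hρc.convolutionExists_left (lsmul ℝ ℝ) hρ1.continuous hg) x
  have e1 : ((fderiv ℝ ρ ⋆[precompL G (lsmul ℝ ℝ), volume] f) x) v =
      ∫ y, f y * fderiv ℝ ρ (x - y) v := by
    rw [convolution_def, integral_apply hint, ← integral_sub_left_eq_self _ volume x]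
    refine integral_congr_ae (Eventually.of_forall fun t => ?_)
    simp [precompL_apply, mul_comm]
  have e2 : innerSL ℝ ((ρ ⋆[lsmul ℝ ℝ, volume] g) x) v = ∫ y, ⟪g y, v⟫ * ρ (x - y) := by
    rw [innerSL_apply_apply, convolution_def, real_inner_comm, ← integral_inner hint2,
      ← integral_sub_left_eq_self _ volume x]
    refine integral_congr_ae (Eventually.of_forall fun t => ?_)
    simp [inner_smul_right, real_inner_comm, mul_comm]
  rw [e1, e2]
  exact Density.aux1 hfg hρc hρs x v

/-- density of `C^∞` functions with compact support in `W^{1,1}` -/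
theorem Density.exists_smooth {f : G → ℝ} {g : G → G}
    (hf : Integrable f) (hg : Integrable g)
    (hfg : ∀ φ : G → ℝ, ContDiff ℝ ∞ φ → HasCompactSupport φ →
      ∀ v : G, ∫ x, f x * fderiv ℝ φ x v = -∫ x, ⟪g x, v⟫ * φ x) {ε : ℝ} (hε : 0 < ε) :
    ∃ φ : G → ℝ, ContDiff ℝ ∞ φ ∧ HasCompactSupport φ ∧ ∫ x, |φ x - f x| ≤ ε ∧
      ∫ x, ‖fderiv ℝ φ x - innerSL ℝ (g x)‖ ≤ ε := by
  obtain ⟨δ₁, hδ₁, h₁⟩ := Density.exists_radius hf (ε := ε / 2) (by positivity)
  obtain ⟨δ₂, hδ₂, h₂⟩ := Density.exists_radius hg (ε := ε / 4) (by positivity)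
  set δ := min δ₁ δ₂ with hδdef
  have hδ : 0 < δ := lt_min hδ₁ hδ₂
  let b : ContDiffBump (0 : G) := ⟨δ / 2, δ, by positivity, by linarith⟩
  have hb1 := h₁ b (min_le_left _ _)
  have hb2 := h₂ b (min_le_right _ _)
  set ρ : G → ℝ := b.normed volume with hρdef
  have hρi : Integrable ρ := b.integrable_normed
  have hρc : HasCompactSupport ρ := b.hasCompactSupport_normed
  have hρs : ContDiff ℝ ∞ ρ := b.contDiff_normed
  set F : G → ℝ := (ρ ⋆[ContinuousLinearMap.lsmul ℝ ℝ, volume] f) with hF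
  set Γ : G → G := (ρ ⋆[ContinuousLinearMap.lsmul ℝ ℝ, volume] g) with hΓ
  have hFi : Integrable F := hρi.integrable_convolution _ hf
  have hΓi : Integrable Γ := hρi.integrable_convolution _ hg
  have hFs : ContDiff ℝ ∞ F := hρc.contDiff_convolution_left _ hρs hf.locallyIntegrable
  have hFd : ∀ x, HasFDerivAt F (innerSL ℝ (Γ x)) x := fun x =>
    Density.hasFDerivAt_conv hf.locallyIntegrable hg.locallyIntegrable hfg hρc hρs x
  -- the cut-off
  let c : ContDiffBump (0 : G) := ⟨1, 2, by norm_num, by norm_num⟩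
  have hcs : ContDiff ℝ ∞ (c : G → ℝ) := c.contDiff
  have hcc : HasCompactSupport (c : G → ℝ) := c.hasCompactSupport
  obtain ⟨M, hM⟩ : ∃ M, ∀ x, ‖fderiv ℝ (c : G → ℝ) x‖ ≤ M :=
    (hcc.fderiv ℝ).exists_bound_of_continuous (hcs.continuous_fderiv (by simp))
  have hM0 : 0 ≤ M := (norm_nonneg _).trans (hM 0)
  let χ : ℕ → G → ℝ := fun n x => c (((n : ℝ) + 1)⁻¹ • x)
  have hχs : ∀ n, ContDiff ℝ ∞ (χ n) := fun n => hcs.comp (contDiff_const_smul _)
  have hχc : ∀ n, HasCompactSupport (χ n) := fun n =>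
    hcc.comp_smul (by positivity)
  have hχ0 : ∀ n x, 0 ≤ χ n x := fun n x => c.nonneg
  have hχ1 : ∀ n x, χ n x ≤ 1 := fun n x => c.le_one
  have hχd : ∀ n x, ‖fderiv ℝ (χ n) x‖ ≤ M * ((n : ℝ) + 1)⁻¹ := by
    intro n x
    have h1 : fderiv ℝ (χ n) x = ((n : ℝ) + 1)⁻¹ • fderiv ℝ (c : G → ℝ) (((n : ℝ) + 1)⁻¹ • x) := by
      have := ((hcs.differentiable (by simp) (((n : ℝ) + 1)⁻¹ • x)).hasFDerivAt).comp x
        ((hasFDerivAt_id x).const_smul ((n : ℝ) + 1)⁻¹)
      have h2 := this.fderiv
      have h3 : fderiv ℝ (χ n) x = (fderiv ℝ (c : G → ℝ) (((n : ℝ) + 1)⁻¹ • x)).comp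
        (((n : ℝ) + 1)⁻¹ • ContinuousLinearMap.id ℝ G) := h2
      rw [h3]; ext v; simp
    rw [h1, norm_smul, Real.norm_eq_abs, abs_of_nonneg (by positivity), mul_comm]
    exact mul_le_mul_of_nonneg_right (hM _) (by positivity)
  have hχlim : ∀ x, ∀ᶠ n : ℕ in atTop, χ n x = 1 := by
    intro x
    obtain ⟨N, hN⟩ := exists_nat_ge ‖x‖
    filter_upwards [eventually_ge_atTop N] with n hn
    apply c.one_of_mem_closedBall
    rw [mem_closedBall, dist_zero_right, norm_smul, Real.norm_eq_abs, abs_of_nonneg (by positivity)]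
    have : ‖x‖ ≤ (n : ℝ) + 1 := hN.trans (by
      have : (N : ℝ) ≤ n := by exact_mod_cast hn
      linarith)
    show _ ≤ (1 : ℝ)
    rw [inv_mul_le_iff₀ (by positivity)]
    linarith
  have hdct : ∀ h : G → ℝ, Integrable h → (∀ x, 0 ≤ h x) →
      Tendsto (fun n => ∫ x, (1 - χ n x) * h x) atTop (𝓝 0) := by
    intro h hh hp
    have := tendsto_integral_of_dominated_convergence (μ := volume)
      (F := fun (n : ℕ) x => (1 - χ n x) * h x) (f := fun _ => (0 : ℝ)) h
      (fun n => ((continuous_const.sub (hχs n).continuous).aestronglyMeasurable.mul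
        hh.aestronglyMeasurable)) hh
      (fun n => Eventually.of_forall fun x => by
        rw [Real.norm_eq_abs, abs_of_nonneg
          (mul_nonneg (by linarith [hχ1 n x]) (hp _))]
        have := hχ0 n x
        have := hp x
        nlinarith)
      (Eventually.of_forall fun x => by
        refine tendsto_const_nhds.congr' ?_
        filter_upwards [hχlim x] with n hn
        rw [hn]; simp)
    simpa using this
  have hl1 := hdct (fun x => ‖f x‖) hf.norm (fun x => norm_nonneg _)
  have hl2 := hdct (fun x => ‖g x‖) hg.norm (fun x => norm_nonneg _)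
  have hl3 : Tendsto (fun n : ℕ => (M * ((n : ℝ) + 1)⁻¹) * ∫ x, ‖F x‖) atTop (𝓝 0) := by
    have : Tendsto (fun n : ℕ => ((n : ℝ) + 1)⁻¹) atTop (𝓝 0) := by
      simpa using tendsto_one_div_add_atTop_nhds_zero_nat (𝕜 := ℝ)
    simpa using (this.const_mul M).mul_const (∫ x, ‖F x‖)
  obtain ⟨n, hn1, hn2, hn3⟩ := ((hl1.eventually_le_const (show (0 : ℝ) < ε / 2 by positivity)).and
    ((hl2.eventually_le_const (show (0 : ℝ) < ε / 4 by positivity)).and
      (hl3.eventually_le_const (show (0 : ℝ) < ε / 4 by positivity)))).exists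
  refine ⟨fun x => χ n x * F x, (hχs n).mul hFs, (hχc n).mul_right, ?_, ?_⟩
  · have hi1 : Integrable (fun x => ‖F x - f x‖) := (hFi.sub hf).norm
    have hi2 : Integrable (fun x => (1 - χ n x) * ‖f x‖) := by
      refine hf.norm.mono' ((continuous_const.sub (hχs n).continuous).aestronglyMeasurable.mul
        hf.norm.aestronglyMeasurable) (Eventually.of_forall fun x => ?_)
      rw [Real.norm_eq_abs, abs_of_nonneg (mul_nonneg (by linarith [hχ1 n x]) (norm_nonneg _))]
      have := hχ0 n x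
      have := norm_nonneg (f x)
      nlinarith
    calc ∫ x, |χ n x * F x - f x| ≤ ∫ x, (‖F x - f x‖ + (1 - χ n x) * ‖f x‖) := by
          refine integral_mono_of_nonneg (Eventually.of_forall fun x => abs_nonneg _) (hi1.add hi2)
            (Eventually.of_forall fun x => ?_)
          have e : χ n x * F x - f x = χ n x * (F x - f x) + -((1 - χ n x) * f x) := by ring
          have h0 := hχ0 n x
          have h1 := hχ1 n x
          simp only [e]
          refine (abs_add_le _ _).trans ?_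
          rw [abs_neg, abs_mul, abs_mul, abs_of_nonneg h0, abs_of_nonneg (by linarith : 0 ≤ 1 - χ n x)]
          simp only [Real.norm_eq_abs]
          have := abs_nonneg (F x - f x)
          nlinarith
      _ = (∫ x, ‖F x - f x‖) + ∫ x, (1 - χ n x) * ‖f x‖ := integral_add hi1 hi2
      _ ≤ ε := by linarith
  · have hi1 : Integrable (fun x => ‖Γ x - g x‖) := (hΓi.sub hg).norm
    have hi2 : Integrable (fun x => (1 - χ n x) * ‖g x‖) := by
      refine hg.norm.mono' ((continuous_const.sub (hχs n).continuous).aestronglyMeasurable.mul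
        hg.norm.aestronglyMeasurable) (Eventually.of_forall fun x => ?_)
      rw [Real.norm_eq_abs, abs_of_nonneg (mul_nonneg (by linarith [hχ1 n x]) (norm_nonneg _))]
      have := hχ0 n x
      have := norm_nonneg (g x)
      nlinarith
    have hi3 : Integrable (fun x => (M * ((n : ℝ) + 1)⁻¹) * ‖F x‖) := hFi.norm.const_mul _
    have hd : ∀ x, fderiv ℝ (fun x => χ n x * F x) x =
        χ n x • innerSL ℝ (Γ x) + F x • fderiv ℝ (χ n) x := by
      intro x
      have := (((hχs n).differentiable (by simp) x).hasFDerivAt).mul (hFd x)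
      exact this.fderiv
    calc ∫ x, ‖fderiv ℝ (fun x => χ n x * F x) x - innerSL ℝ (g x)‖
        ≤ ∫ x, (‖Γ x - g x‖ + (1 - χ n x) * ‖g x‖ + (M * ((n : ℝ) + 1)⁻¹) * ‖F x‖) := by
          refine integral_mono_of_nonneg (Eventually.of_forall fun x => norm_nonneg _)
            ((hi1.add hi2).add hi3) (Eventually.of_forall fun x => ?_)
          have e : fderiv ℝ (fun x => χ n x * F x) x - innerSL ℝ (g x) =
              χ n x • innerSL ℝ (Γ x - g x) + (-((1 - χ n x) • innerSL ℝ (g x)))
                + F x • fderiv ℝ (χ n) x := by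
            rw [hd x, map_sub]
            module
          have h0 := hχ0 n x
          have h1 := hχ1 n x
          simp only [e]
          refine (norm_add₃_le).trans ?_
          rw [norm_neg, norm_smul, norm_smul, norm_smul, innerSL_apply_norm, innerSL_apply_norm,
            Real.norm_eq_abs, Real.norm_eq_abs, abs_of_nonneg h0,
            abs_of_nonneg (by linarith : 0 ≤ 1 - χ n x)]
          have h5 : ‖F x‖ * ‖fderiv ℝ (χ n) x‖ ≤ (M * ((n : ℝ) + 1)⁻¹) * ‖F x‖ := by
            rw [mul_comm]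
            exact mul_le_mul_of_nonneg_right (hχd n x) (norm_nonneg _)
          have h6 := norm_nonneg (Γ x - g x)
          have h7 : χ n x * ‖Γ x - g x‖ ≤ ‖Γ x - g x‖ := by nlinarith
          linarith
      _ = (∫ x, ‖Γ x - g x‖) + (∫ x, (1 - χ n x) * ‖g x‖) +
            ∫ x, (M * ((n : ℝ) + 1)⁻¹) * ‖F x‖ := by
          rw [← integral_add hi1 hi2]
          exact integral_add (hi1.add hi2) hi3
      _ ≤ ε := by
          rw [integral_const_mul]
          linarith

end L1

/-- the Euclidean plane -/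
abbrev Density.E2 := EuclideanSpace ℝ (Fin 2)

/-- the standard isometry `ℂ ≃ EuclideanSpace ℝ (Fin 2)` -/
noncomputable abbrev Density.iso : ℂ ≃ₗᵢ[ℝ] Density.E2 := Complex.orthonormalBasisOneI.repr

open Crest.AnalysisR (IsWeakGradient)

/-- density in `W^{1,1}`, Euclidean version -/
theorem Density.exists_nice_E2 {f : Density.E2 → ℝ} {g : Density.E2 → Density.E2}
    (hf : Integrable f) (hw : IsWeakGradient f g) (hg : Integrable g) {ε : ℝ} (hε : 0 < ε) :
    ∃ φ : Density.E2 → ℝ, ContDiff ℝ ∞ φ ∧ HasCompactSupport φ ∧ ∫ x, |φ x - f x| ≤ ε ∧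
      ∫ x, ‖fderiv ℝ φ x - innerSL ℝ (g x)‖ ≤ ε :=
  Density.exists_smooth hf hg hw.2.2 hε

/-- density in `W^{1,1}`, with `Nice` functions on `ℂ` -/
theorem Density.exists_nice {f : Density.E2 → ℝ} {g : Density.E2 → Density.E2}
    (hf : Integrable f) (hw : IsWeakGradient f g) (hg : Integrable g) {ε : ℝ} (hε : 0 < ε) :
    ∃ φ : ℂ → ℝ, Nice φ ∧ ∫ z, |φ z - f (Density.iso z)| ≤ ε ∧
      ∫ z, ‖fderiv ℝ φ z -
        (innerSL ℝ (g (Density.iso z))).comp (Density.iso : ℂ →L[ℝ] Density.E2)‖ ≤ ε := by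
  obtain ⟨φ, hφs, hφc, h1, h2⟩ := Density.exists_nice_E2 hf hw hg hε
  have hmp : MeasurePreserving (Density.iso : ℂ → Density.E2) := Density.iso.measurePreserving
  have hme : MeasurableEmbedding (Density.iso : ℂ → Density.E2) :=
    Density.iso.toHomeomorph.measurableEmbedding
  refine ⟨fun z => φ (Density.iso z), ⟨(hφs.of_le (by simp)).comp
    Density.iso.toContinuousLinearEquiv.contDiff, hφc.comp_homeomorph Density.iso.toHomeomorph⟩,
    ?_, ?_⟩
  · have := hmp.integral_comp hme (fun x => |φ x - f x|)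
    rw [this]
    exact h1
  · refine le_trans (le_of_eq ?_) h2
    rw [← hmp.integral_comp hme (fun x => ‖fderiv ℝ φ x - innerSL ℝ (g x)‖)]
    refine integral_congr_ae (Eventually.of_forall fun z => ?_)
    have hd : fderiv ℝ (fun z => φ (Density.iso z)) z =
        (fderiv ℝ φ (Density.iso z)).comp (Density.iso : ℂ →L[ℝ] Density.E2) :=
      (((hφs.differentiable (by simp) (Density.iso z)).hasFDerivAt).comp z
        (Density.iso.toContinuousLinearEquiv : ℂ →L[ℝ] Density.E2).hasFDerivAt).fderiv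
    simp only [hd, ← ContinuousLinearMap.sub_comp]
    exact ContinuousLinearMap.opNorm_comp_linearIsometryEquiv _ _

end Crest.Agent.R112
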