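import Crest.Agent.R112.Basic
import Crest.Agent.R112.Density

/-!
# R112 (S0147), module Cmf: the frozen maximal function and the plane `ℂ`.
-/

set_option autoImplicit false

namespace Crest.Agent.R112

open MeasureTheory Set Metric Filter Topology
open scoped ENNReal NNReal

open Crest.AnalysisR (centredMaximalFunction)

/-- the average of `‖F‖` on a disc, with values in `ℝ≥0∞` -/
noncomputable def avg (F : ℂ → ℝ) (r : ℝ) (z : ℂ) : ℝ≥0∞ :=
  (∫⁻ w in ball z r, ‖F w‖ₑ) / volume (ball z r)

/-- the centred disc maximal function on `ℂ` -/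
noncomputable def Me (F : ℂ → ℝ) (z : ℂ) : ℝ≥0∞ :=
  ⨆ (r : ℝ) (_ : 0 < r), avg F r z

theorem cmf_iso (f : Density.E2 → ℝ) (z : ℂ) :
    centredMaximalFunction f (Density.iso z) = Me (fun w => f (Density.iso w)) z := by
  have hmp : MeasurePreserving (Density.iso : ℂ → Density.E2) := Density.iso.measurePreserving
  have hme : MeasurableEmbedding (Density.iso : ℂ → Density.E2) :=
    Density.iso.toHomeomorph.measurableEmbedding
  unfold centredMaximalFunction Me avg
  congr 1
  ext r
  congr 1
  ext hr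
  have h1 : ball z r = (Density.iso : ℂ → Density.E2) ⁻¹' ball (Density.iso z) r := by
    ext w
    simp [mem_ball]
  rw [h1, hmp.setLIntegral_comp_preimage_emb hme (fun w => ‖f w‖ₑ), hmp.measure_preimage_emb hme]

theorem measurable_avg_numerator (F : ℂ → ℝ) (r : ℝ) :
    LowerSemicontinuous (fun z => ∫⁻ w in ball z r, ‖F w‖ₑ) := by
  intro z c hc
  -- choose a smaller ball
  have hmono : Monotone (fun n : ℕ => ball z (r - 1 / ((n : ℝ) + 1))) := by
    intro n m hnm
    apply ball_subset_ball
    have : (1 : ℝ) / ((m : ℝ) + 1) ≤ 1 / ((n : ℝ) + 1) := by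
      apply one_div_le_one_div_of_le (by positivity)
      have : (n : ℝ) ≤ m := by exact_mod_cast hnm
      linarith
    linarith
  have hun : (⋃ n : ℕ, ball z (r - 1 / ((n : ℝ) + 1))) = ball z r := by
    ext w
    simp only [mem_iUnion, mem_ball]
    constructor
    · rintro ⟨n, hn⟩
      have : (0 : ℝ) < 1 / ((n : ℝ) + 1) := by positivity
      linarith
    · intro hw
      obtain ⟨n, hn⟩ := exists_nat_one_div_lt (sub_pos.mpr hw)
      exact ⟨n, by linarith⟩
  have hsup := setLIntegral_iUnion_of_directed (μ := (volume : Measure ℂ)) (fun w => ‖F w‖ₑ)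
    (hmono.directed_le)
  rw [hun] at hsup
  have hc : c < ∫⁻ w in ball z r, ‖F w‖ₑ := hc
  rw [hsup, lt_iSup_iff] at hc
  obtain ⟨n, hn⟩ := hc
  have hpos : (0 : ℝ) < 1 / ((n : ℝ) + 1) := by positivity
  filter_upwards [ball_mem_nhds z hpos] with z' hz'
  refine lt_of_lt_of_le hn ?_
  apply lintegral_mono_set
  apply ball_subset_ball'
  rw [mem_ball, dist_comm] at hz'
  linarith

theorem lowerSemicontinuous_avg (F : ℂ → ℝ) {r : ℝ} (hr : 0 < r) :
    LowerSemicontinuous (fun z => avg F r z) := by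
  have h := measurable_avg_numerator F r
  have hv : ∀ z : ℂ, volume (ball z r) = volume (ball (0 : ℂ) r) := fun z =>
    Measure.addHaar_ball_center volume z r
  have hv0 : volume (ball (0 : ℂ) r) ≠ 0 := (measure_ball_pos volume _ hr).ne'
  have hv1 : volume (ball (0 : ℂ) r) ≠ ⊤ := measure_ball_lt_top.ne
  have hc : Continuous (fun a : ℝ≥0∞ => a / volume (ball (0 : ℂ) r)) :=
    ENNReal.continuous_div_const _ hv0
  have hm : Monotone (fun a : ℝ≥0∞ => a / volume (ball (0 : ℂ) r)) := fun a b hab =>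
    ENNReal.div_le_div_right hab _
  have := hc.comp_lowerSemicontinuous h hm
  unfold avg
  simp_rw [hv]
  exact this

theorem lowerSemicontinuous_Me (F : ℂ → ℝ) :
    LowerSemicontinuous (Me F) := by
  unfold Me
  apply lowerSemicontinuous_iSup
  intro r
  apply lowerSemicontinuous_iSup
  intro hr
  exact lowerSemicontinuous_avg F hr

theorem measurable_Me (F : ℂ → ℝ) : Measurable (Me F) :=
  (lowerSemicontinuous_Me F).measurable

theorem measurable_cmf (f : Density.E2 → ℝ) :
    Measurable (centredMaximalFunction f) := by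
  have h1 : Measurable (Me (fun w => f (Density.iso w))) := measurable_Me _
  have h2 : centredMaximalFunction f = fun x => Me (fun w => f (Density.iso w)) (Density.iso.symm x) := by
    ext x
    rw [← cmf_iso, LinearIsometryEquiv.apply_symm_apply]
  rw [h2]
  exact h1.comp Density.iso.symm.continuous.measurable

theorem volume_ball_eq (z : ℂ) {r : ℝ} (hr : 0 < r) :
    volume (ball z r) = ENNReal.ofReal (Real.pi * r ^ 2) := by
  rw [Complex.volume_ball, ENNReal.ofReal_mul Real.pi_pos.le, mul_comm]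
  congr 1
  · rw [← NNReal.coe_real_pi, ENNReal.ofReal_coe_nnreal]
  · rw [ENNReal.ofReal_pow hr.le]

/-- the real-valued form of the averages -/
theorem avg_eq_ofReal (F : ℂ → ℝ) (hF : LocallyIntegrable F) {r : ℝ} (hr : 0 < r) (z : ℂ) :
    avg F r z = ENNReal.ofReal (A (fun w => |F w|) r z) := by
  have hint : IntegrableOn F (ball z r) :=
    (hF.integrableOn_isCompact (isCompact_closedBall z r)).mono_set ball_subset_closedBall
  have h1 : ∫⁻ w in ball z r, ‖F w‖ₑ = ENNReal.ofReal (∫ w in ball z r, |F w|) := by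
    have := ofReal_integral_norm_eq_lintegral_enorm hint
    rw [← this]
    simp only [Real.norm_eq_abs]
  unfold avg
  rw [h1, volume_ball_eq z hr, A_eq hr, ← ENNReal.ofReal_div_of_pos (by positivity)]
  congr 1
  ring

theorem avg_lt_top (F : ℂ → ℝ) (hF : LocallyIntegrable F) {r : ℝ} (hr : 0 < r) (z : ℂ) :
    avg F r z < ⊤ := by
  rw [avg_eq_ofReal F hF hr]
  exact ENNReal.ofReal_lt_top

theorem avg_le_Me (F : ℂ → ℝ) {r : ℝ} (hr : 0 < r) (z : ℂ) : avg F r z ≤ Me F z :=
  le_iSup₂ (f := fun (r : ℝ) (_ : 0 < r) => avg F r z) r hr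

theorem Me_le {F : ℂ → ℝ} {z : ℂ} {c : ℝ≥0∞} (h : ∀ r, 0 < r → avg F r z ≤ c) : Me F z ≤ c :=
  iSup₂_le h

/-- subadditivity -/
theorem avg_add_le (F G : ℂ → ℝ) (hF : AEStronglyMeasurable F) (r : ℝ) (z : ℂ) :
    avg (fun w => F w + G w) r z ≤ avg F r z + avg G r z := by
  unfold avg
  rw [← ENNReal.add_div]
  apply ENNReal.div_le_div_right
  rw [← lintegral_add_left' hF.restrict.enorm]
  exact lintegral_mono fun w => enorm_add_le _ _

theorem Me_add_le (F G : ℂ → ℝ) (hF : AEStronglyMeasurable F) (z : ℂ) :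
    Me (fun w => F w + G w) z ≤ Me F z + Me G z :=
  Me_le fun _ hr => (avg_add_le F G hF _ z).trans (add_le_add (avg_le_Me F hr z) (avg_le_Me G hr z))

theorem Me_le_Me_add (F G : ℂ → ℝ) (hG : AEStronglyMeasurable G) (z : ℂ) :
    Me F z ≤ Me G z + Me (fun w => F w - G w) z := by
  have := Me_add_le G (fun w => F w - G w) hG z
  simpa using this

theorem Me_neg (F : ℂ → ℝ) (z : ℂ) : Me (fun w => -F w) z = Me F z := by
  unfold Me avg
  simp

end Crest.Agent.R112
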