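import Mathlib
import Crest.Agent.R112.OneDim

/-!
# Row 112 (S0147): one-dimensional lemma (O3), locally detached points
-/

open MeasureTheory Set Filter Topology
open scoped ENNReal NNReal

namespace Crest.Agent.R112

/-- if `w b ≤ w a` then the positive variation is at most the negative one -/
lemma lintegral_deriv_pos_le_neg {w : ℝ → ℝ} {K : ℝ≥0} (hw : LipschitzWith K w) {a b : ℝ}
    (hab : a ≤ b) (h : w b ≤ w a) :
    ∫⁻ x in Icc a b, ENNReal.ofReal (deriv w x) ≤ ∫⁻ x in Icc a b, ENNReal.ofReal (-(deriv w x)) := by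
  have hac : AbsolutelyContinuousOnInterval w a b :=
    hw.lipschitzOnWith.absolutelyContinuousOnInterval
  have hint := hac.intervalIntegrable_deriv
  have heq := hac.integral_deriv_eq_sub
  rw [intervalIntegral.integral_of_le hab] at heq
  have hint' : Integrable (deriv w) (volume.restrict (Ioc a b)) := by
    rw [intervalIntegrable_iff_integrableOn_Ioc_of_le hab] at hint
    exact hint
  rw [integral_eq_lintegral_pos_part_sub_lintegral_neg_part hint'] at heq
  rw [← Measure.restrict_congr_set (Ioc_ae_eq_Icc (μ := volume) (a := a) (b := b))]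
  have h1 : ∫⁻ x in Ioc a b, ENNReal.ofReal (deriv w x) ≠ ∞ := by
    exact hint'.lintegral_lt_top.ne
  have h2 : ∫⁻ x in Ioc a b, ENNReal.ofReal (-(deriv w x)) ≠ ∞ := by
    exact hint'.neg.lintegral_lt_top.ne
  rw [← ENNReal.toReal_le_toReal h1 h2]
  linarith

/-- running minimum of `U` over `[x,s]`, `x ≤ s`. -/
noncomputable def rmin (U : ℝ → ℝ) (s x : ℝ) : ℝ :=
  sInf ((fun θ => U (x + θ * (s - x))) '' Icc 0 1)

lemma rmin_bdd {U : ℝ → ℝ} (hU : Continuous U) (s x : ℝ) :
    BddBelow ((fun θ => U (x + θ * (s - x))) '' Icc (0 : ℝ) 1) := by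
  refine (isCompact_Icc.image ?_).bddBelow
  fun_prop

lemma rmin_le {U : ℝ → ℝ} (hU : Continuous U) {s x y : ℝ} (h1 : x ≤ y) (h2 : y ≤ s) :
    rmin U s x ≤ U y := by
  rcases eq_or_lt_of_le (h1.trans h2) with h | h
  · have hy : y = x := le_antisymm (by rw [h]; exact h2) h1
    refine csInf_le (rmin_bdd hU s x) ⟨0, ⟨le_rfl, zero_le_one⟩, ?_⟩
    simp [hy]
  · refine csInf_le (rmin_bdd hU s x) ⟨(y - x) / (s - x), ⟨?_, ?_⟩, ?_⟩
    · exact div_nonneg (by linarith) (by linarith)
    · rw [div_le_one (by linarith)]; linarith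
    · have h3 : (y - x) / (s - x) * (s - x) = y - x := by
        rw [div_mul_cancel₀]; exact (sub_pos.2 h).ne'
      simp only [h3]
      congr 1; ring

lemma exists_rmin {U : ℝ → ℝ} (hU : Continuous U) {s x : ℝ} (h : x ≤ s) :
    ∃ y, x ≤ y ∧ y ≤ s ∧ rmin U s x = U y := by
  have hc : ContinuousOn (fun θ => U (x + θ * (s - x))) (Icc (0 : ℝ) 1) := by
    apply Continuous.continuousOn; fun_prop
  obtain ⟨θ, hθ, h1⟩ := isCompact_Icc.exists_sInf_image_eq (nonempty_Icc.2 zero_le_one) hc
  refine ⟨x + θ * (s - x), ?_, ?_, h1⟩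
  · have := mul_nonneg hθ.1 (sub_nonneg.2 h); linarith
  · have := mul_le_mul_of_nonneg_right hθ.2 (sub_nonneg.2 h); linarith

lemma rmin_lipschitz {U : ℝ → ℝ} {K : ℝ≥0} (hU : LipschitzWith K U) (s : ℝ) :
    LipschitzWith K (rmin U s) := by
  have hc := hU.continuous
  have key : ∀ x y, rmin U s x ≤ rmin U s y + K * |x - y| := by
    intro x y
    have hne : ((fun θ => U (y + θ * (s - y))) '' Icc (0 : ℝ) 1).Nonempty :=
      (nonempty_Icc.2 zero_le_one).image _
    rw [← sub_le_iff_le_add]
    refine le_csInf hne ?_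
    rintro _ ⟨θ, hθ, rfl⟩
    have h1 : rmin U s x ≤ U (x + θ * (s - x)) := csInf_le (rmin_bdd hc s x) ⟨θ, hθ, rfl⟩
    have h2 := hU.dist_le_mul (x + θ * (s - x)) (y + θ * (s - y))
    rw [Real.dist_eq, Real.dist_eq] at h2
    have h3 : x + θ * (s - x) - (y + θ * (s - y)) = (1 - θ) * (x - y) := by ring
    rw [h3, abs_mul] at h2
    have h4 : |1 - θ| ≤ 1 := by
      rw [abs_le]; constructor <;> linarith [hθ.1, hθ.2]
    have h5 : |1 - θ| * |x - y| ≤ 1 * |x - y| :=
      mul_le_mul_of_nonneg_right h4 (abs_nonneg _)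
    have h6 := le_abs_self (U (x + θ * (s - x)) - U (y + θ * (s - y)))
    have h7 : (K : ℝ) * (|1 - θ| * |x - y|) ≤ K * |x - y| := by
      apply mul_le_mul_of_nonneg_left _ K.2
      linarith
    simp only
    linarith
  refine LipschitzWith.of_dist_le_mul (fun x y => ?_)
  rw [Real.dist_eq, Real.dist_eq, abs_le]
  constructor
  · have := key y x
    rw [abs_sub_comm] at this
    linarith
  · have := key x y
    linarith

lemma rmin_mono {U : ℝ → ℝ} (hU : Continuous U) {s x y : ℝ} (hxy : x ≤ y) (hy : y ≤ s) :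
    rmin U s x ≤ rmin U s y := by
  obtain ⟨z, h1, h2, h3⟩ := exists_rmin hU hy
  rw [h3]
  exact rmin_le hU (hxy.trans h1) h2

lemma rmin_deriv_eq_zero {U : ℝ → ℝ} (hU : Continuous U) {s x : ℝ} (hx : x < s)
    (h : rmin U s x < U x) : HasDerivAt (rmin U s) 0 x := by
  obtain ⟨y, h1, h2, h3⟩ := exists_rmin hU hx.le
  have hxy : x < y := by
    rcases eq_or_lt_of_le h1 with h4 | h4
    · rw [← h4] at h3; linarith
    · exact h4
  have hev : ∀ᶠ z in 𝓝 x, rmin U s z = rmin U s x := by
    have hopen : ∀ᶠ z in 𝓝 x, rmin U s x < U z := hU.continuousAt.eventually (lt_mem_nhds h)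
    rw [Metric.eventually_nhds_iff] at hopen
    obtain ⟨ε, hε, h5⟩ := hopen
    have h6 : ∀ᶠ z in 𝓝 x, z < y := gt_mem_nhds hxy
    filter_upwards [h6, Metric.ball_mem_nhds x hε] with z hz1 hz2
    apply le_antisymm
    · rw [h3]; exact rmin_le hU hz1.le h2
    · rcases le_total x z with h7 | h7
      · exact rmin_mono hU h7 (hz1.le.trans h2)
      · obtain ⟨v, hv1, hv2, hv3⟩ := exists_rmin hU (hz1.le.trans h2)
        rw [hv3]
        rcases le_total x v with h8 | h8
        · exact rmin_le hU h8 hv2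
        · refine (h5 ?_).le
          rw [Metric.mem_ball, Real.dist_eq, abs_lt] at hz2
          rw [Real.dist_eq, abs_lt]
          constructor <;> linarith [hz2.1, hz2.2]
  exact (hasDerivAt_const x (rmin U s x)).congr_of_eventuallyEq hev

/-- **(O3)** locally detached points. -/
theorem locally_detached {U f : ℝ → ℝ} {K : ℝ≥0} (hU : LipschitzWith K U) {a b s c T : ℝ}
    (hab : a ≤ b) (hbs : b ≤ s) (hsc : s ≤ c) (hT : s - a ≤ T) :
    ∫⁻ x in {x | x ∈ Icc a b ∧ ¬ ∃ σ ∈ Icc 0 T, U x ≤ f (x + σ) ∧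
        ∀ t ∈ Icc 0 σ, U x ≤ U (x + t)}, ENNReal.ofReal (deriv U x)
      ≤ (∫⁻ x in Icc a c, ENNReal.ofReal (-(deriv U x))) + ENNReal.ofReal (U b - f s) := by
  have hUc := hU.continuous
  set m := rmin U s with hm
  have hmL : LipschitzWith K m := rmin_lipschitz hU s
  have hmc := hmL.continuous
  set w : ℝ → ℝ := fun x => U x - m x with hw
  have hwL : LipschitzWith (K + K) w := hU.sub hmL
  have hwnn : ∀ x ≤ s, 0 ≤ w x := fun x hx => by
    have := rmin_le hUc (le_refl x) hx
    simp only [hw, hm]; linarith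
  have hws : w s = 0 := by
    obtain ⟨y, h1, h2, h3⟩ := exists_rmin hUc (le_refl s)
    have : y = s := le_antisymm h2 h1
    simp only [hw, hm, h3, this, sub_self]
  -- a.e. differentiability
  have hUd := hU.ae_differentiableAt_real
  have hmd := hmL.ae_differentiableAt_real
  have hns : ∀ᵐ x : ℝ, x ≠ s := by
    rw [ae_iff]; simp
  -- the pieces
  set E : Set ℝ := Icc a b ∩ {x | DifferentiableAt ℝ m x} ∩ {x | f s < m x} with hE
  have hEm : MeasurableSet E := by
    refine (measurableSet_Icc.inter (measurableSet_of_differentiableAt ℝ m)).inter ?_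
    exact measurableSet_lt measurable_const hmc.measurable
  set N' : Set ℝ := Icc a b ∩ ({x | m x < U x} ∪ {x | f s < m x}) with hN'
  have hN'm : MeasurableSet N' :=
    measurableSet_Icc.inter ((measurableSet_lt hmc.measurable hUc.measurable).union
      (measurableSet_lt measurable_const hmc.measurable))
  have hsub : {x | x ∈ Icc a b ∧ ¬ ∃ σ ∈ Icc 0 T, U x ≤ f (x + σ) ∧
        ∀ t ∈ Icc 0 σ, U x ≤ U (x + t)} ⊆ N' := by
    rintro x ⟨hxab, hxN⟩
    refine ⟨hxab, ?_⟩
    have hxs : x ≤ s := hxab.2.trans hbs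
    rcases eq_or_lt_of_le (rmin_le hUc (le_refl x) hxs) with h4 | h4
    · right
      by_contra hcon
      apply hxN
      refine ⟨s - x, ⟨by linarith, by linarith [hxab.1]⟩, ?_, ?_⟩
      · have h5 : x + (s - x) = s := by ring
        rw [h5, ← h4]
        exact not_lt.1 hcon
      · intro t ht
        rw [← h4]
        exact rmin_le hUc (by linarith [ht.1]) (by linarith [ht.2])
    · left
      exact h4
  have hpt : ∀ᵐ x : ℝ, N'.indicator (fun x => ENNReal.ofReal (deriv U x)) x ≤
        (Icc a s).indicator (fun x => ENNReal.ofReal (deriv w x)) x +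
        E.indicator (fun x => ENNReal.ofReal (deriv m x)) x := by
    filter_upwards [hUd, hmd, hns] with x h1 h2 h3
    by_cases hx : x ∈ N'
    swap
    · rw [indicator_of_notMem hx]; exact zero_le
    rw [indicator_of_mem hx]
    obtain ⟨hxab, hxN⟩ := hx
    have hxs : x ≤ s := hxab.2.trans hbs
    have hxs' : x < s := lt_of_le_of_ne hxs h3
    rw [indicator_of_mem (show x ∈ Icc a s from ⟨hxab.1, hxs⟩)]
    have hdw : deriv w x = deriv U x - deriv m x := by
      simp only [hw]; exact deriv_fun_sub h1 h2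
    rcases hxN with h4 | h4
    · have h5 : deriv m x = 0 := (rmin_deriv_eq_zero hUc hxs' h4).deriv
      rw [hdw, h5, sub_zero]
      exact le_self_add
    · have hxE : x ∈ E := ⟨⟨hxab, h2⟩, h4⟩
      rw [indicator_of_mem hxE]
      have h6 : deriv U x = deriv w x + deriv m x := by rw [hdw]; ring
      rw [h6]
      exact ENNReal.ofReal_add_le
  have hwm : Measurable (fun x => ENNReal.ofReal (deriv w x)) :=
    (measurable_deriv w).ennreal_ofReal
  -- first piece
  have hfirst : ∫⁻ x in Icc a s, ENNReal.ofReal (deriv w x) ≤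
      ∫⁻ x in Icc a c, ENNReal.ofReal (-(deriv U x)) := by
    have has : a ≤ s := hab.trans hbs
    refine (lintegral_deriv_pos_le_neg hwL has (by rw [hws]; exact hwnn a has)).trans ?_
    refine le_trans ?_ (lintegral_mono_set (Icc_subset_Icc_right hsc))
    refine setLIntegral_mono_ae' measurableSet_Icc ?_
    filter_upwards [hUd, hmd, hns] with x h1 h2 h3 hx
    have hxs' : x < s := lt_of_le_of_ne hx.2 h3
    have hdw : deriv w x = deriv U x - deriv m x := by
      simp only [hw]; exact deriv_fun_sub h1 h2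
    rcases eq_or_lt_of_le (rmin_le hUc (le_refl x) hx.2) with h4 | h4
    · -- local minimum of w
      have h5 : deriv w x = 0 := by
        apply IsLocalMin.deriv_eq_zero
        have h6 : ∀ᶠ z in 𝓝 x, z < s := gt_mem_nhds hxs'
        filter_upwards [h6] with z hz
        have h7 : w x = 0 := by simp only [hw, hm, h4, sub_self]
        rw [h7]
        exact hwnn z hz.le
      rw [h5, neg_zero, ENNReal.ofReal_zero]
      exact zero_le
    · have h5 : deriv m x = 0 := (rmin_deriv_eq_zero hUc hxs' h4).deriv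
      rw [hdw, h5, sub_zero]
  have hsecond : ∫⁻ x in E, ENNReal.ofReal (deriv m x) ≤ ENNReal.ofReal (U b - f s) := by
    refine lintegral_deriv_le hEm (fun x hx => hx.1.2) ?_ (fun x hx => ?_) (fun x hx => ?_)
    · intro x hx y hy hxy
      exact rmin_mono hUc hxy (hy.1.1.2.trans hbs)
    · exact (show f s < m x from hx.2).le
    · exact rmin_le hUc hx.1.1.2 hbs
  refine (lintegral_mono_set hsub).trans ?_
  rw [← lintegral_indicator hN'm]
  calc _ ≤ ∫⁻ x, ((Icc a s).indicator (fun x => ENNReal.ofReal (deriv w x)) x +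
        E.indicator (fun x => ENNReal.ofReal (deriv m x)) x) := lintegral_mono_ae hpt
    _ = (∫⁻ x in Icc a s, ENNReal.ofReal (deriv w x)) +
        ∫⁻ x in E, ENNReal.ofReal (deriv m x) := by
        rw [lintegral_add_left (hwm.indicator measurableSet_Icc),
          lintegral_indicator measurableSet_Icc, lintegral_indicator hEm]
    _ ≤ _ := add_le_add hfirst hsecond

end Crest.Agent.R112
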