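import Crest.Agent.R112.Vec

/-!
# R112: iterated disc averages, total variations `TT` and defects `DD`
-/

set_option autoImplicit false

open MeasureTheory Set Metric Filter Topology
open scoped ENNReal NNReal

namespace Crest.Agent.R112

/-- the radii `4^(j-6)` -/
noncomputable def rad (j : ℕ) : ℝ := (4 : ℝ) ^ ((j : ℤ) - 6)

theorem rad_pos (j : ℕ) : 0 < rad j := by unfold rad; positivity

theorem rad_succ (j : ℕ) : rad (j + 1) = 4 * rad j := by
  unfold rad
  push_cast
  rw [show ((j : ℤ) + 1 - 6) = ((j : ℤ) - 6) + 1 by ring, zpow_add₀ (by norm_num), zpow_one,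
    mul_comm]

theorem rad_add_nine (N : ℕ) : rad (N + 9) = (4 : ℝ) ^ (N + 3) := by
  unfold rad
  rw [show (((N + 9 : ℕ) : ℤ) - 6) = ((N + 3 : ℕ) : ℤ) by push_cast; ring, zpow_natCast]

/-- the global chain of disc averages of `f` -/
noncomputable def fch (f : ℂ → ℝ) : ℕ → ℂ → ℝ
  | 0 => f
  | j + 1 => A (fch f j) (rad j)

/-- iterated disc averages of `h` with radii `rad i, …, rad (i + n - 1)` -/
noncomputable def iterA (h : ℂ → ℝ) (i : ℕ) : ℕ → ℂ → ℝ
  | 0 => h
  | n + 1 => A (iterA h i n) (rad (i + n))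

theorem iterA_fch (f : ℂ → ℝ) (i n : ℕ) : iterA (fch f i) i n = fch f (i + n) := by
  induction n with
  | zero => rfl
  | succ n ih => rw [iterA, ih, ← add_assoc, fch]

theorem nice_fch {f : ℂ → ℝ} (hf : Nice f) (j : ℕ) : Nice (fch f j) := by
  induction j with
  | zero => exact hf
  | succ j ih => exact ih.A _

/-! ### disc averages of continuous compactly supported functions -/

/-- continuous and compactly supported -/
def Cc (h : ℂ → ℝ) : Prop := Continuous h ∧ HasCompactSupport h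

theorem Cc.bound {h : ℂ → ℝ} (hh : Cc h) : ∃ K, ∀ x, ‖h x‖ ≤ K :=
  hh.2.exists_bound_of_continuous hh.1

theorem Cc.integrable {h : ℂ → ℝ} (hh : Cc h) : Integrable h :=
  hh.1.integrable_of_hasCompactSupport hh.2

theorem Cc.A {h : ℂ → ℝ} (hh : Cc h) (r : ℝ) : Cc (A h r) := by
  constructor
  · unfold R112.A
    exact ((continuous_disc_avg hh.1 hh.bound).comp
      (Continuous.prodMk (continuous_const (y := r)) continuous_id)).const_smul (1 / Real.pi)
  · apply HasCompactSupport.intro (K := cthickening |r| (tsupport h)) hh.2.cthickening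
    intro x hx
    unfold R112.A
    rw [setIntegral_congr_fun (g := fun _ => (0 : ℝ)) measurableSet_ball]
    · simp
    · intro ξ hξ
      apply image_eq_zero_of_notMem_tsupport
      intro h
      apply hx
      apply mem_cthickening_of_dist_le x (x + r * ξ) _ _ h
      rw [dist_eq_norm]
      have hξ1 : ‖ξ‖ ≤ 1 := (mem_ball_zero_iff.mp hξ).le
      have : x - (x + r * ξ) = -(r * ξ) := by ring
      rw [this, norm_neg, norm_mul, Complex.norm_real, Real.norm_eq_abs]
      exact mul_le_of_le_one_right (abs_nonneg _) hξ1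

theorem Cc.iterA {h : ℂ → ℝ} (hh : Cc h) (i n : ℕ) : Cc (iterA h i n) := by
  induction n with
  | zero => exact hh
  | succ n ih => exact ih.A _

theorem Nice.cc {f : ℂ → ℝ} (hf : Nice f) : Cc f := ⟨hf.continuous, hf.2⟩

theorem Nice.cc_norm {f : ℂ → ℝ} (hf : Nice f) : Cc (fun z => ‖fderiv ℝ f z‖) :=
  ⟨hf.continuous_fderiv.norm, hf.hasCompactSupport_fderiv.norm⟩

theorem Nice.cc_apply {f : ℂ → ℝ} (hf : Nice f) (v : ℂ) : Cc (fun z => fderiv ℝ f z v) :=
  ⟨hf.continuous_fderiv.clm_apply continuous_const,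
    hf.hasCompactSupport_fderiv.comp_left (g := fun L : ℂ →L[ℝ] ℝ => L v) rfl⟩

theorem Nice.cc_bbe {f : ℂ → ℝ} (hf : Nice f) (e : ℂ) : Cc (fun z => bbe e (fderiv ℝ f z)) :=
  ⟨(continuous_bbe e).comp hf.continuous_fderiv,
    hf.hasCompactSupport_fderiv.comp_left (g := bbe e) (by simp [bbe])⟩

theorem Cc.const_mul {h : ℂ → ℝ} (hh : Cc h) (c : ℝ) : Cc (fun z => c * h z) :=
  ⟨hh.1.const_smul c, hh.2.comp_left (g := fun y => c * y) (mul_zero c)⟩

theorem Cc.sub {h k : ℂ → ℝ} (hh : Cc h) (hk : Cc k) : Cc (fun z => h z - k z) :=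
  ⟨hh.1.sub hk.1, hh.2.sub hk.2⟩

/-! ### algebra of `A` and `iterA` -/

theorem A_mono {h k : ℂ → ℝ} (hh : Continuous h) (hk : Continuous k) (hle : ∀ x, h x ≤ k x)
    (r : ℝ) (x : ℂ) : A h r x ≤ A k r x := by
  unfold A
  apply mul_le_mul_of_nonneg_left _ (by positivity)
  exact setIntegral_mono_on (integrableOn_disc (by fun_prop)) (integrableOn_disc (by fun_prop))
    measurableSet_ball fun ξ _ => hle _

theorem A_sub {h k : ℂ → ℝ} (hh : Continuous h) (hk : Continuous k) (r : ℝ) (x : ℂ) :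
    A (fun z => h z - k z) r x = A h r x - A k r x := by
  unfold A
  rw [integral_sub (integrableOn_disc (by fun_prop)) (integrableOn_disc (by fun_prop)), mul_sub]

theorem A_const_mul (h : ℂ → ℝ) (c : ℝ) (r : ℝ) (x : ℂ) :
    A (fun z => c * h z) r x = c * A h r x := by
  unfold A
  rw [integral_const_mul]
  ring

theorem iterA_mono {h k : ℂ → ℝ} (hh : Cc h) (hk : Cc k) (hle : ∀ x, h x ≤ k x) (i n : ℕ) :
    ∀ x, iterA h i n x ≤ iterA k i n x := by
  induction n with
  | zero => exact hle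
  | succ n ih => exact A_mono (hh.iterA i n).1 (hk.iterA i n).1 ih _

theorem iterA_nonneg {h : ℂ → ℝ} (hle : ∀ x, 0 ≤ h x) (i n : ℕ) : ∀ x, 0 ≤ iterA h i n x := by
  induction n with
  | zero => exact hle
  | succ n ih => exact A_nonneg ih _

theorem iterA_sub {h k : ℂ → ℝ} (hh : Cc h) (hk : Cc k) (i n : ℕ) :
    iterA (fun z => h z - k z) i n = fun x => iterA h i n x - iterA k i n x := by
  induction n with
  | zero => rfl
  | succ n ih =>
    rw [iterA, ih]
    funext x
    exact A_sub (hh.iterA i n).1 (hk.iterA i n).1 _ _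

theorem iterA_const_mul (h : ℂ → ℝ) (c : ℝ) (i n : ℕ) :
    iterA (fun z => c * h z) i n = fun x => c * iterA h i n x := by
  induction n with
  | zero => rfl
  | succ n ih =>
    rw [iterA, ih]
    funext x
    exact A_const_mul _ _ _ _

theorem iterA_fderiv {f : ℂ → ℝ} (hf : Nice f) (v : ℂ) (i n : ℕ) :
    iterA (fun z => fderiv ℝ (fch f i) z v) i n = fun x => fderiv ℝ (fch f (i + n)) x v := by
  induction n with
  | zero => rfl
  | succ n ih =>
    rw [iterA, ih, ← add_assoc, fch]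
    funext x
    rw [fderiv_A_apply (nice_fch hf (i + n))]
    rfl

/-! ### integrals -/

theorem integral_A {h : ℂ → ℝ} (hh : Cc h) (r : ℝ) : ∫ x, A h r x = ∫ x, h x := by
  unfold A
  rw [integral_const_mul]
  have hint : Integrable (Function.uncurry fun (x ξ : ℂ) => h (x + r * ξ))
      ((volume : Measure ℂ).prod (volume.restrict (ball (0 : ℂ) 1))) := by
    have hm : AEStronglyMeasurable (Function.uncurry fun (x ξ : ℂ) => h (x + r * ξ))
        ((volume : Measure ℂ).prod (volume.restrict (ball (0 : ℂ) 1))) := by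
      have h0 := hh.1
      exact (by fun_prop : Continuous (Function.uncurry fun (x ξ : ℂ) =>
        h (x + r * ξ))).aestronglyMeasurable
    rw [integrable_prod_iff' hm]
    constructor
    · exact Eventually.of_forall fun ξ => hh.integrable.comp_add_right (r * ξ)
    · have : (fun ξ : ℂ => ∫ x : ℂ, ‖Function.uncurry (fun (x ξ : ℂ) => h (x + r * ξ)) (x, ξ)‖) =
          fun _ => ∫ x : ℂ, ‖h x‖ := by
        funext ξ
        simp only [Function.uncurry]
        exact integral_add_right_eq_self (fun x => ‖h x‖) (r * ξ)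
      rw [this]
      exact integrableOn_disc continuous_const
  rw [integral_integral_swap hint]
  have : ∀ ξ : ℂ, ∫ x : ℂ, h (x + r * ξ) = ∫ x : ℂ, h x := fun ξ =>
    integral_add_right_eq_self h (r * ξ)
  simp only [this]
  exact disc_const _

theorem integral_iterA {h : ℂ → ℝ} (hh : Cc h) (i n : ℕ) :
    ∫ x, iterA h i n x = ∫ x, h x := by
  induction n with
  | zero => rfl
  | succ n ih =>
    rw [iterA, integral_A (hh.iterA i n), ih]

/-- one step of the kernel lower bound -/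
theorem ball_le_A {h : ℂ → ℝ} (hh : Continuous h) (h0 : ∀ x, 0 ≤ h x) {r : ℝ} (hr : 0 ≤ r)
    (s : ℝ) (x₀ : ℂ) : ∫ z in ball x₀ s, h z ≤ ∫ z in ball x₀ (s + r), A h r z := by
  unfold A
  rw [integral_const_mul]
  have hint : Integrable (Function.uncurry fun (x ξ : ℂ) => h (x + r * ξ))
      ((volume.restrict (ball x₀ (s + r))).prod (volume.restrict (ball (0 : ℂ) 1))) := by
    rw [Measure.prod_restrict]
    have hc : Continuous (Function.uncurry fun (x ξ : ℂ) => h (x + r * ξ)) := by fun_prop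
    exact (hc.continuousOn.integrableOn_compact ((isCompact_closedBall x₀ (s + r)).prod
      (isCompact_closedBall (0 : ℂ) 1))).mono_set
      (prod_mono ball_subset_closedBall ball_subset_closedBall)
  rw [integral_integral_swap hint, ← disc_const (∫ z in ball x₀ s, h z)]
  apply mul_le_mul_of_nonneg_left _ (by positivity)
  apply setIntegral_mono_on (integrableOn_disc continuous_const) _ measurableSet_ball
  · intro ξ hξ
    have h1 : ∫ x in ball x₀ (s + r), h (x + r * ξ) = ∫ z in ball (x₀ + r * ξ) (s + r), h z := by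
      have h3 : ball x₀ (s + r) = (fun z => z + r * ξ) ⁻¹' ball (x₀ + r * ξ) (s + r) := by
        ext z
        simp [mem_ball, dist_eq_norm]
      rw [h3]
      exact (measurePreserving_add_right volume (r * ξ)).setIntegral_preimage_emb
        (measurableEmbedding_addRight (r * ξ)) h _
    rw [h1]
    have hi : IntegrableOn h (ball (x₀ + r * ξ) (s + r)) :=
      (hh.continuousOn.integrableOn_compact (isCompact_closedBall _ _)).mono_set
        ball_subset_closedBall
    apply setIntegral_mono_set hi (Eventually.of_forall h0)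
    apply LE.le.eventuallyLE
    intro z hz
    rw [mem_ball] at hz ⊢
    have hξ1 : ‖(r : ℂ) * ξ‖ ≤ r := by
      rw [norm_mul, Complex.norm_real, Real.norm_eq_abs, abs_of_nonneg hr]
      exact mul_le_of_le_one_right hr (mem_ball_zero_iff.mp hξ).le
    calc dist z (x₀ + r * ξ) ≤ dist z x₀ + dist x₀ (x₀ + r * ξ) := dist_triangle _ _ _
      _ < s + r := by
        have : dist x₀ (x₀ + r * ξ) ≤ r := by
          rw [dist_eq_norm]
          have : x₀ - (x₀ + r * ξ) = -(r * ξ) := by ring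
          rw [this, norm_neg]
          exact hξ1
        linarith
  · exact hint.integral_prod_right

theorem sum_rad_le (i n : ℕ) : 3 * ∑ l ∈ Finset.range n, rad (i + l) ≤ rad (i + n) := by
  induction n with
  | zero => simpa using (rad_pos i).le
  | succ n ih =>
    rw [Finset.sum_range_succ, ← add_assoc, rad_succ]
    linarith

theorem ball_le_iterA {h : ℂ → ℝ} (hh : Cc h) (h0 : ∀ x, 0 ≤ h x) (i n : ℕ)
    (s : ℝ) (x₀ : ℂ) :
    ∫ z in ball x₀ s, h z ≤
      ∫ z in ball x₀ (s + ∑ l ∈ Finset.range n, rad (i + l)), iterA h i n z := by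
  induction n with
  | zero => simp [iterA]
  | succ n ih =>
    refine le_trans ih ?_
    rw [Finset.sum_range_succ, ← add_assoc]
    exact ball_le_A (hh.iterA i n).1 (iterA_nonneg h0 i n) (rad_pos _).le _ _

theorem iterA_lower {h : ℂ → ℝ} (hh : Cc h) (h0 : ∀ x, 0 ≤ h x) (i n : ℕ) {s : ℝ}
    (hs : 3 * s ≤ 2 * rad (i + n)) (x₀ : ℂ) :
    ∫ z in ball x₀ s, h z ≤ Real.pi * rad (i + n) ^ 2 * iterA h i (n + 1) x₀ := by
  refine le_trans (ball_le_iterA hh h0 i n s x₀) ?_
  rw [iterA, A_eq (rad_pos _)]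
  have hp := rad_pos (i + n)
  have hpi := Real.pi_pos
  rw [← mul_assoc, mul_one_div_cancel (by positivity), one_mul]
  have hi : IntegrableOn (iterA h i n) (ball x₀ (rad (i + n))) :=
    (hh.iterA i n).integrable.integrableOn
  apply setIntegral_mono_set hi (Eventually.of_forall (iterA_nonneg h0 i n))
  apply LE.le.eventuallyLE
  apply ball_subset_ball
  have := sum_rad_le i n
  linarith

/-- lower bound: the iterated disc averages with radii `rad j, …, rad (N+9) = 4^(N+3)` see the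
ball of radius `40·4^(N-1)` with density at least `1/(π (4^(N+3))^2)` -/
theorem chain_lower {h : ℂ → ℝ} (hh : Cc h) (h0 : ∀ x, 0 ≤ h x)
    {N j : ℕ} (hN : 1 ≤ N) (hj : j ≤ N) (x₀ : ℂ) :
    ∫ z in ball x₀ (40 * 4 ^ (N - 1)), h z ≤
      Real.pi * (4 ^ (N + 3)) ^ 2 * iterA h j (N + 10 - j) x₀ := by
  have h1 : N + 10 - j = (N + 9 - j) + 1 := by omega
  have h2 : j + (N + 9 - j) = N + 9 := by omega
  have h3 := iterA_lower hh h0 j (N + 9 - j) (s := 40 * 4 ^ (N - 1)) (by
    rw [h2, rad_add_nine]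
    have : (4 : ℝ) ^ (N + 3) = 4 ^ (N - 1) * 256 := by
      rw [show N + 3 = (N - 1) + 4 by omega, pow_add]
      norm_num
    rw [this]
    have : (0 : ℝ) < 4 ^ (N - 1) := by positivity
    linarith) x₀
  rw [h2, rad_add_nine] at h3
  rw [h1]
  exact h3

/-! ### total variations and defects -/

/-- total variation of the `j`-th average -/
noncomputable def TT (f : ℂ → ℝ) (j : ℕ) : ℝ := ∫ x, ‖fderiv ℝ (fch f j) x‖

/-- local defect -/
noncomputable def DD (f : ℂ → ℝ) (N j : ℕ) (x₀ : ℂ) : ℝ :=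
  iterA (fun z => ‖fderiv ℝ (fch f j) z‖) j (N + 10 - j) x₀ - ‖fderiv ℝ (fch f (N + 10)) x₀‖

theorem TT_nonneg (f : ℂ → ℝ) (j : ℕ) : 0 ≤ TT f j := integral_nonneg fun _ => norm_nonneg _

theorem TT_zero (f : ℂ → ℝ) : TT f 0 = ∫ x, ‖fderiv ℝ f x‖ := rfl

theorem exists_dual (L : ℂ →L[ℝ] ℝ) : ∃ φ : ℂ, ‖φ‖ = 1 ∧ L φ = ‖L‖ := by
  rcases eq_or_ne ‖L‖ 0 with h0 | h0
  · refine ⟨1, by simp, ?_⟩
    have : L = 0 := norm_eq_zero.mp h0
    rw [this]; simp
  · have hpos : 0 < ‖L‖ := lt_of_le_of_ne (norm_nonneg _) (Ne.symm h0)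
    have hn := clm_norm_sq L
    refine ⟨⟨L 1 / ‖L‖, L Complex.I / ‖L‖⟩, ?_, ?_⟩
    · rw [Complex.norm_eq_sqrt_sq_add_sq]
      simp only
      rw [div_pow, div_pow, ← add_div, ← hn, div_self (by positivity), Real.sqrt_one]
    · rw [clm_apply]
      simp only
      field_simp
      linarith

/-- Jensen for iterated averages of the gradient -/
theorem norm_fderiv_le_iterA {f : ℂ → ℝ} (hf : Nice f) (i n : ℕ) (x : ℂ) :
    ‖fderiv ℝ (fch f (i + n)) x‖ ≤ iterA (fun z => ‖fderiv ℝ (fch f i) z‖) i n x := by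
  obtain ⟨φ, hφ, h⟩ := exists_dual (fderiv ℝ (fch f (i + n)) x)
  rw [← h]
  have h1 := congrFun (iterA_fderiv hf φ i n) x
  rw [← h1]
  exact iterA_mono ((nice_fch hf i).cc_apply φ) ((nice_fch hf i).cc_norm)
    (fun z => (abs_le.mp (abs_apply_le _ hφ.le)).2) i n x

theorem TT_antitone {f : ℂ → ℝ} (hf : Nice f) : Antitone (TT f) := by
  apply antitone_nat_of_succ_le
  intro j
  have h1 := integral_iterA ((nice_fch hf j).cc_norm) j 1
  unfold TT
  rw [← h1]
  apply integral_mono ((nice_fch hf (j + 1)).cc_norm).integrable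
    (((nice_fch hf j).cc_norm).iterA j 1).integrable
  intro x
  exact norm_fderiv_le_iterA hf j 1 x

theorem DD_nonneg {f : ℂ → ℝ} (hf : Nice f) {N j : ℕ} (hj : j ≤ N + 10) (x₀ : ℂ) :
    0 ≤ DD f N j x₀ := by
  unfold DD
  have h := norm_fderiv_le_iterA hf j (N + 10 - j) x₀
  rw [show j + (N + 10 - j) = N + 10 by omega] at h
  linarith

theorem cc_DD {f : ℂ → ℝ} (hf : Nice f) (N j : ℕ) : Cc (DD f N j) :=
  (((nice_fch hf j).cc_norm).iterA j (N + 10 - j)).sub ((nice_fch hf (N + 10)).cc_norm)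

theorem continuous_DD {f : ℂ → ℝ} (hf : Nice f) (N j : ℕ) : Continuous (DD f N j) :=
  (cc_DD hf N j).1

theorem integrable_DD {f : ℂ → ℝ} (hf : Nice f) (N j : ℕ) : Integrable (DD f N j) :=
  (cc_DD hf N j).integrable

theorem integral_DD {f : ℂ → ℝ} (hf : Nice f) (N j : ℕ) :
    ∫ x₀, DD f N j x₀ = TT f j - TT f (N + 10) := by
  unfold DD
  rw [integral_sub (((nice_fch hf j).cc_norm).iterA j (N + 10 - j)).integrable
    ((nice_fch hf (N + 10)).cc_norm).integrable, integral_iterA ((nice_fch hf j).cc_norm)]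
  rfl

/-- the bad mass in a good direction is bounded by the defect -/
theorem bad_le_DD {f : ℂ → ℝ} (hf : Nice f) {N j : ℕ} (hN : 1 ≤ N) (hj : j ≤ N) {x₀ e : ℂ}
    (he : ‖e‖ = 1) (hgood : 23 / 25 * ‖fderiv ℝ (fch f (N + 10)) x₀‖ ≤
      fderiv ℝ (fch f (N + 10)) x₀ e) :
    ∫ z in ball x₀ (40 * 4 ^ (N - 1)), bbe e (fderiv ℝ (fch f j) z) ≤
      25 * Real.pi * (4 ^ (N + 3)) ^ 2 * DD f N j x₀ := by
  obtain ⟨φ, hφ, hG, hb⟩ := exists_dir he hgood
  refine le_trans (chain_lower ((nice_fch hf j).cc_bbe e) (fun _ => bbe_nonneg _ _) hN hj x₀) ?_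
  have hcc : Cc (fun z => 25 * (‖fderiv ℝ (fch f j) z‖ - fderiv ℝ (fch f j) z φ)) :=
    (((nice_fch hf j).cc_norm).sub ((nice_fch hf j).cc_apply φ)).const_mul 25
  have h1 := iterA_mono ((nice_fch hf j).cc_bbe e) hcc (fun z => hb _) j (N + 10 - j) x₀
  rw [iterA_const_mul, iterA_sub ((nice_fch hf j).cc_norm) ((nice_fch hf j).cc_apply φ),
    iterA_fderiv hf, show j + (N + 10 - j) = N + 10 by omega] at h1
  simp only at h1
  rw [hG] at h1
  have h2 : iterA (fun z => bbe e (fderiv ℝ (fch f j) z)) j (N + 10 - j) x₀ ≤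
      25 * DD f N j x₀ := h1
  have hpi := Real.pi_pos
  calc Real.pi * (4 ^ (N + 3)) ^ 2 * iterA (fun z => bbe e (fderiv ℝ (fch f j) z)) j
        (N + 10 - j) x₀ ≤ Real.pi * (4 ^ (N + 3)) ^ 2 * (25 * DD f N j x₀) := by gcongr
    _ = _ := by ring

end Crest.Agent.R112
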