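import Mathlib

/-!
# R112: telescoping double sum
-/

set_option autoImplicit false

open Finset

namespace Crest.Agent.R112

private theorem shift_sum {T : ℕ → ℝ} (hT : Antitone T) (hT0 : ∀ j, 0 ≤ T j) (K p : ℕ) :
    ∑ n ∈ range K, (T n - T (n + p)) ≤ p * T 0 := by
  induction p with
  | zero => simp
  | succ p ih =>
    have h1 : ∑ n ∈ range K, (T n - T (n + (p + 1))) =
        ∑ n ∈ range K, (T n - T (n + p)) + ∑ n ∈ range K, (T (n + p) - T (n + 1 + p)) := by
      rw [← sum_add_distrib]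
      apply sum_congr rfl
      intro n _
      rw [show n + (p + 1) = n + 1 + p by ring]
      ring
    have h2 : ∑ n ∈ range K, (T (n + p) - T (n + 1 + p)) = T (0 + p) - T (K + p) :=
      sum_range_sub' (fun n => T (n + p)) K
    have h3 : T (0 + p) ≤ T 0 := hT (Nat.zero_le _)
    have h4 := hT0 (K + p)
    rw [h1, h2]
    push_cast
    linarith

private theorem geo_sum (n : ℕ) :
    ∑ m ∈ range n, (3 / 4 : ℝ) ^ m * ((m : ℝ) + 10) = 52 - (3 / 4 : ℝ) ^ n * (4 * n + 52) := by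
  induction n with
  | zero => simp
  | succ n ih =>
    rw [sum_range_succ, ih, pow_succ]
    push_cast
    ring

/-- the double sum of defects telescopes -/
theorem tele_sum {T : ℕ → ℝ} (hT : Antitone T) (hT0 : ∀ j, 0 ≤ T j) (M : ℕ) :
    ∑ N ∈ Finset.Icc 1 M, ∑ j ∈ Finset.range (N + 1), (3 / 4 : ℝ) ^ (N - j) * (T j - T (N + 10)) ≤
      52 * T 0 := by
  have hF : ∀ N : ℕ, ∀ j ∈ range (N + 1), 0 ≤ (3 / 4 : ℝ) ^ (N - j) * (T j - T (N + 10)) := by
    intro N j hj
    have : T (N + 10) ≤ T j := hT (by simp at hj; omega)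
    exact mul_nonneg (by positivity) (by linarith)
  have h1 : ∑ N ∈ Finset.Icc 1 M, ∑ j ∈ range (N + 1), (3 / 4 : ℝ) ^ (N - j) * (T j - T (N + 10)) ≤
      ∑ N ∈ range (M + 1), ∑ j ∈ range (N + 1), (3 / 4 : ℝ) ^ (N - j) * (T j - T (N + 10)) := by
    apply sum_le_sum_of_subset_of_nonneg
    · intro N hN
      simp at hN ⊢
      omega
    · intro N _ _
      exact sum_nonneg (hF N)
  have h2 : ∑ N ∈ range (M + 1), ∑ j ∈ range (N + 1), (3 / 4 : ℝ) ^ (N - j) * (T j - T (N + 10)) =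
      ∑ N ∈ range (M + 1), ∑ m ∈ range (N + 1), (3 / 4 : ℝ) ^ m * (T (N - m) - T (N + 10)) := by
    apply sum_congr rfl
    intro N _
    rw [← sum_flip]
    apply sum_congr rfl
    intro m hm
    simp at hm
    rw [show N - (N - m) = m by omega]
  have h3 : ∑ N ∈ range (M + 1), ∑ m ∈ range (N + 1), (3 / 4 : ℝ) ^ m * (T (N - m) - T (N + 10)) =
      ∑ m ∈ range (M + 1), ∑ N ∈ Ico m (M + 1), (3 / 4 : ℝ) ^ m * (T (N - m) - T (N + 10)) := by
    apply sum_comm'
    intro N m
    simp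
    omega
  have h4 : ∑ m ∈ range (M + 1), ∑ N ∈ Ico m (M + 1), (3 / 4 : ℝ) ^ m * (T (N - m) - T (N + 10)) ≤
      ∑ m ∈ range (M + 1), (3 / 4 : ℝ) ^ m * ((m : ℝ) + 10) * T 0 := by
    apply sum_le_sum
    intro m _
    rw [← mul_sum, mul_assoc]
    apply mul_le_mul_of_nonneg_left _ (by positivity)
    rw [sum_Ico_eq_sum_range]
    have := shift_sum hT hT0 (M + 1 - m) (m + 10)
    push_cast at this
    refine le_trans (le_of_eq ?_) this
    apply sum_congr rfl
    intro n _
    rw [show m + n - m = n by omega, show m + n + 10 = n + (m + 10) by ring]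
  rw [← sum_mul, geo_sum] at h4
  have h5 : 0 ≤ (3 / 4 : ℝ) ^ (M + 1) * (4 * ((M + 1 : ℕ) : ℝ) + 52) * T 0 :=
    mul_nonneg (by positivity) (hT0 0)
  linarith

/-- `tele_sum` in `ℝ≥0∞` -/
theorem tele_tsum {T : ℕ → ℝ} (hT : Antitone T) (hT0 : ∀ j, 0 ≤ T j) :
    ∑' k : ℕ, ∑ j ∈ Finset.range (k + 2), (3 / 4 : ENNReal) ^ (k + 1 - j) *
      ENNReal.ofReal (T j - T (k + 11)) ≤ ENNReal.ofReal (100 * T 0) := by
  have h34 : (3 / 4 : ENNReal) = ENNReal.ofReal (3 / 4) := by
    rw [ENNReal.ofReal_div_of_pos (by norm_num)]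
    norm_num
  have hterm : ∀ k : ℕ, ∑ j ∈ Finset.range (k + 2), (3 / 4 : ENNReal) ^ (k + 1 - j) *
      ENNReal.ofReal (T j - T (k + 11)) =
      ENNReal.ofReal (∑ j ∈ Finset.range (k + 2), (3 / 4 : ℝ) ^ (k + 1 - j) *
        (T j - T (k + 11))) := by
    intro k
    rw [ENNReal.ofReal_sum_of_nonneg]
    · apply sum_congr rfl
      intro j _
      rw [ENNReal.ofReal_mul (by positivity), ENNReal.ofReal_pow (by norm_num), h34]
    · intro j hj
      have : T (k + 11) ≤ T j := hT (by simp at hj; omega)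
      exact mul_nonneg (by positivity) (by linarith)
  simp only [hterm]
  apply ENNReal.tsum_le_of_sum_range_le
  intro M
  rw [← ENNReal.ofReal_sum_of_nonneg]
  · apply ENNReal.ofReal_le_ofReal
    have h := tele_sum hT hT0 M
    have h2 : ∑ N ∈ Finset.Icc 1 M, ∑ j ∈ Finset.range (N + 1),
        (3 / 4 : ℝ) ^ (N - j) * (T j - T (N + 10)) =
        ∑ k ∈ Finset.range M, ∑ j ∈ Finset.range (k + 2),
          (3 / 4 : ℝ) ^ (k + 1 - j) * (T j - T (k + 11)) := by
      rw [show Finset.Icc 1 M = Finset.Ico 1 (M + 1) by ext; simp,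
        sum_Ico_eq_sum_range]
      apply sum_congr (by simp)
      intro k _
      rw [show 1 + k + 1 = k + 2 by ring, show 1 + k + 10 = k + 11 by ring,
        show 1 + k = k + 1 by ring]
    rw [h2] at h
    have := hT0 0
    linarith
  · intro k _
    apply sum_nonneg
    intro j hj
    have : T (k + 11) ≤ T j := hT (by simp at hj; omega)
    exact mul_nonneg (by positivity) (by linarith)

end Crest.Agent.R112
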