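import Crest.Agent.R112.Assembly
import Crest.Agent.R112.Tele
import Crest.Agent.R112.TeleS

/-!
Row 112 (S0147), module Global: section 4, choice of `τ` (abstract in the truncated maximal
function and the 16 directions).
-/

set_option autoImplicit false

namespace Crest.Agent.R112

open MeasureTheory Set Filter Topology
open scoped NNReal ENNReal

/-- good centres for the direction `e` at scale `4^k` -/
def GG (f : ℂ → ℝ) (e : ℂ) (k : ℕ) : Set ℂ :=
  {x₀ | 23 / 25 * ‖fderiv ℝ (fch f (k + 11)) x₀‖ ≤ fderiv ℝ (fch f (k + 11)) x₀ e}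

theorem measurableSet_GG {f : ℂ → ℝ} (hf : Nice f) (e : ℂ) (k : ℕ) : MeasurableSet (GG f e k) := by
  have h := (nice_fch hf (k + 11)).continuous_fderiv
  apply IsClosed.measurableSet
  apply isClosed_le <;> fun_prop

/-- `4^k Q` at the centre `x₀`, direction `e` -/
noncomputable def JJ (f : ℂ → ℝ) (e : ℂ) (k : ℕ) (τ : ℝ) (x₀ : ℂ) : ℝ≥0∞ :=
  ENNReal.ofReal ((4 : ℝ) ^ k) * Q τ (fun z => f (x₀ + ((4 : ℝ) ^ k : ℝ) * e * z))

theorem measurable_JJ {f : ℂ → ℝ} (hf : Nice f) {e : ℂ} (he : ‖e‖ = 1) (k : ℕ) :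
    Measurable fun p : ℝ × ℂ => JJ f e k p.1 p.2 :=
  (measurable_Q hf he).const_mul _

/-- the statement of the unit scale theorem -/
def UnitBound (C : ℝ≥0) : Prop :=
  ∀ f, Nice f → ∀ N : ℕ, 1 ≤ N → ∫⁻ τ in Icc (1 : ℝ) 2, Q τ f ≤
    C * ∑ j ∈ Finset.range (N + 1), (3 / 4 : ENNReal) ^ (N - j) *
      ∫⁻ z in Metric.ball (0 : ℂ) 40, ENNReal.ofReal (bb (fderiv ℝ (chain f N j) z))

/-- bound for one good centre -/
theorem lint_JJ_le {C : ℝ≥0} (hC : UnitBound C) {f : ℂ → ℝ} (hf : Nice f) {e : ℂ}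
    (he : ‖e‖ = 1) (k : ℕ) {x₀ : ℂ} (hx₀ : x₀ ∈ GG f e k) :
    ∫⁻ τ in Icc (1 : ℝ) 2, JJ f e k τ x₀ ≤
      C * ∑ j ∈ Finset.range (k + 2), (3 / 4 : ENNReal) ^ (k + 1 - j) *
        ENNReal.ofReal (25 * Real.pi * (4 ^ (k + 4)) ^ 2 * DD f (k + 1) j x₀) := by
  have ht : (0 : ℝ) < 4 ^ k := by positivity
  unfold JJ
  rw [lintegral_const_mul' _ _ ENNReal.ofReal_ne_top]
  have h1 := hC _ (nice_aff hf x₀ (te_ne he ht)) (k + 1) (by omega)
  calc ENNReal.ofReal ((4 : ℝ) ^ k) * ∫⁻ τ in Icc (1 : ℝ) 2,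
        Q τ (fun z => f (x₀ + ((4 : ℝ) ^ k : ℝ) * e * z))
      ≤ ENNReal.ofReal ((4 : ℝ) ^ k) * (C * ∑ j ∈ Finset.range (k + 1 + 1),
        (3 / 4 : ENNReal) ^ (k + 1 - j) *
        ∫⁻ z in Metric.ball (0 : ℂ) 40, ENNReal.ofReal (bb (fderiv ℝ
          (chain (fun z => f (x₀ + ((4 : ℝ) ^ k : ℝ) * e * z)) (k + 1) j) z))) := by gcongr
    _ = C * ∑ j ∈ Finset.range (k + 2), (3 / 4 : ENNReal) ^ (k + 1 - j) *
        (ENNReal.ofReal ((4 : ℝ) ^ k) *
        ∫⁻ z in Metric.ball (0 : ℂ) 40, ENNReal.ofReal (bb (fderiv ℝ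
          (chain (fun z => f (x₀ + ((4 : ℝ) ^ k : ℝ) * e * z)) (k + 1) j) z))) := by
        rw [mul_left_comm, Finset.mul_sum]
        congr 1
        apply Finset.sum_congr rfl
        intro j _
        rw [mul_left_comm]
    _ ≤ _ := by
        refine mul_le_mul_right (Finset.sum_le_sum fun j hj => ?_) _
        refine mul_le_mul_right ?_ _
        have hch := bb_chain_te (f := f) (x₀ := x₀) (F := fch f) rfl (fun j => rfl) he k j
        rw [hch]
        have hj' : j ≤ k + 1 := by have := Finset.mem_range.mp hj; omega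
        have h2 := bad_le_DD hf (N := k + 1) (by omega) hj' he hx₀
        have h3 : ∫⁻ x in Metric.ball x₀ ((4 : ℝ) ^ k * 40),
            ENNReal.ofReal (be e (fderiv ℝ (fch f j) x)) =
            ENNReal.ofReal (∫ x in Metric.ball x₀ (40 * 4 ^ (k + 1 - 1)),
              bbe e (fderiv ℝ (fch f j) x)) := by
          rw [ofReal_integral_eq_lintegral_ofReal]
          · rw [Nat.add_sub_cancel, mul_comm]; rfl
          · exact ((nice_fch hf j).cc_bbe e).integrable.integrableOn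
          · exact Eventually.of_forall fun _ => bbe_nonneg _ _
        rw [h3]
        exact ENNReal.ofReal_le_ofReal h2

theorem vol_ball_pow (k : ℕ) : volume (Metric.ball (0 : ℂ) ((4 : ℝ) ^ k)) =
    ENNReal.ofReal (Real.pi * (4 ^ k) ^ 2) := by
  rw [Complex.volume_ball, ENNReal.ofReal_mul Real.pi_pos.le,
    ENNReal.ofReal_pow (by positivity : (0 : ℝ) ≤ 4 ^ k), mul_comm, ← NNReal.coe_real_pi,
    ENNReal.ofReal_coe_nnreal]

/-- bound for one direction and one scale -/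
theorem lint_lint_JJ_le {C : ℝ≥0} (hC : UnitBound C) {f : ℂ → ℝ} (hf : Nice f) {e : ℂ}
    (he : ‖e‖ = 1) (k : ℕ) :
    (volume (Metric.ball (0 : ℂ) ((4 : ℝ) ^ k)))⁻¹ *
      ∫⁻ x₀ in GG f e k, ∫⁻ τ in Icc (1 : ℝ) 2, JJ f e k τ x₀ ≤
      C * (ENNReal.ofReal (25 * 4 ^ 8) * ∑ j ∈ Finset.range (k + 2),
        (3 / 4 : ENNReal) ^ (k + 1 - j) * ENNReal.ofReal (TT f j - TT f (k + 11))) := by
  have hpi := Real.pi_pos
  set R : ℝ := 25 * Real.pi * (4 ^ (k + 4)) ^ 2 with hR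
  have hR0 : 0 ≤ R := by positivity
  have h1 : ∫⁻ x₀ in GG f e k, ∫⁻ τ in Icc (1 : ℝ) 2, JJ f e k τ x₀ ≤
      C * (ENNReal.ofReal R * ∑ j ∈ Finset.range (k + 2),
        (3 / 4 : ENNReal) ^ (k + 1 - j) * ENNReal.ofReal (TT f j - TT f (k + 11))) := by
    calc ∫⁻ x₀ in GG f e k, ∫⁻ τ in Icc (1 : ℝ) 2, JJ f e k τ x₀
        ≤ ∫⁻ x₀ in GG f e k, C * ∑ j ∈ Finset.range (k + 2), (3 / 4 : ENNReal) ^ (k + 1 - j) *
          ENNReal.ofReal (R * DD f (k + 1) j x₀) :=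
          setLIntegral_mono' (measurableSet_GG hf e k) fun x₀ hx₀ => lint_JJ_le hC hf he k hx₀
      _ ≤ ∫⁻ x₀, C * ∑ j ∈ Finset.range (k + 2), (3 / 4 : ENNReal) ^ (k + 1 - j) *
          ENNReal.ofReal (R * DD f (k + 1) j x₀) := setLIntegral_le_lintegral _ _
      _ = C * ∑ j ∈ Finset.range (k + 2), (3 / 4 : ENNReal) ^ (k + 1 - j) *
          ∫⁻ x₀, ENNReal.ofReal (R * DD f (k + 1) j x₀) := by
          have hm : ∀ j, Measurable fun x₀ => ENNReal.ofReal (R * DD f (k + 1) j x₀) := fun j =>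
            ((continuous_DD hf (k + 1) j).measurable.const_mul R).ennreal_ofReal
          rw [lintegral_const_mul _ (Finset.measurable_fun_sum _ fun j _ => (hm j).const_mul _),
            lintegral_finsetSum _ fun j _ => (hm j).const_mul _]
          congr 1
          apply Finset.sum_congr rfl
          intro j _
          rw [lintegral_const_mul _ (hm j)]
      _ = _ := by
          congr 1
          rw [Finset.mul_sum]
          apply Finset.sum_congr rfl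
          intro j hj
          have hj' : j ≤ k + 1 + 10 := by have := Finset.mem_range.mp hj; omega
          have h2 : ∫⁻ x₀, ENNReal.ofReal (R * DD f (k + 1) j x₀) =
              ENNReal.ofReal R * ENNReal.ofReal (TT f j - TT f (k + 11)) := by
            rw [← ENNReal.ofReal_mul hR0]
            have h3 := integral_DD hf (k + 1) j
            rw [show k + 1 + 10 = k + 11 by omega] at h3
            rw [← h3, ← integral_const_mul, ofReal_integral_eq_lintegral_ofReal]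
            · exact (integrable_DD hf (k + 1) j).const_mul R
            · exact Eventually.of_forall fun x => mul_nonneg hR0 (DD_nonneg hf hj' x)
          rw [h2]
          ring
  calc _ ≤ (volume (Metric.ball (0 : ℂ) ((4 : ℝ) ^ k)))⁻¹ * (C * (ENNReal.ofReal R *
        ∑ j ∈ Finset.range (k + 2),
        (3 / 4 : ENNReal) ^ (k + 1 - j) * ENNReal.ofReal (TT f j - TT f (k + 11)))) := by gcongr
    _ = C * (((volume (Metric.ball (0 : ℂ) ((4 : ℝ) ^ k)))⁻¹ * ENNReal.ofReal R) *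
        ∑ j ∈ Finset.range (k + 2),
        (3 / 4 : ENNReal) ^ (k + 1 - j) * ENNReal.ofReal (TT f j - TT f (k + 11))) := by ring
    _ = _ := by
        congr 2
        rw [vol_ball_pow, ← ENNReal.ofReal_inv_of_pos (by positivity),
          ← ENNReal.ofReal_mul (by positivity)]
        congr 1
        rw [hR]
        field_simp
        ring

/-- abstract form of CORE1 -/
theorem core1_abstract {C : ℝ≥0} (hC : UnitBound C) {f : ℂ → ℝ} (hf : Nice f)
    (hf0 : ∀ x, 0 ≤ f x) {K : ℝ≥0} (hfK : LipschitzWith K f) {E : ℕ → ℂ} (hE : ∀ n, ‖E n‖ = 1)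
    (hV5 : ∀ G L : ℂ →L[ℝ] ℝ, ‖L‖ ≤
      3 * ∑ n ∈ Finset.range 16, (if 23 / 25 * ‖G‖ ≤ G (E n) then |L (E n)| else 0))
    {u : ℝ → ℂ → ℝ} (huK : ∀ τ, LipschitzWith K (u τ)) (hfu : ∀ τ x, f x ≤ u τ x)
    (hU : ∀ τ ∈ Icc (1 : ℝ) 2, ∀ (k : ℕ) x, U f (4 ^ k * τ) x ≤ u τ x)
    (hex : ∀ τ ∈ Icc (1 : ℝ) 2, ∀ x, f x < u τ x → ∃ k : ℕ, u τ x = U f (4 ^ k * τ) x) :
    ∃ τ ∈ Icc (1 : ℝ) 2, ∫⁻ x, ‖fderiv ℝ (u τ) x‖ₑ ≤
      (49 + 48 * C * (25 * 4 ^ 8) * 100) * ∫⁻ x, ‖fderiv ℝ f x‖ₑ := by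
  set S : ℝ → ℝ≥0∞ := fun τ => ∑' k, (volume (Metric.ball (0 : ℂ) ((4 : ℝ) ^ k)))⁻¹ *
    (3 * ∑ n ∈ Finset.range 16, ∫⁻ x₀ in GG f (E n) k, JJ f (E n) k τ x₀) with hS
  have hmJ : ∀ k n, Measurable fun τ => ∫⁻ x₀ in GG f (E n) k, JJ f (E n) k τ x₀ := fun k n =>
    (measurable_JJ hf (hE n) k).lintegral_prod_right'
  have hmk : ∀ k, Measurable fun τ => (volume (Metric.ball (0 : ℂ) ((4 : ℝ) ^ k)))⁻¹ *
    (3 * ∑ n ∈ Finset.range 16, ∫⁻ x₀ in GG f (E n) k, JJ f (E n) k τ x₀) := fun k =>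
    ((Finset.measurable_fun_sum _ fun n _ => hmJ k n).const_mul _).const_mul _
  have hSm : Measurable S := Measurable.tsum hmk
  -- assembly for each τ
  have hτ : ∀ τ ∈ Icc (1 : ℝ) 2, ∫⁻ x, ‖fderiv ℝ (u τ) x‖ₑ ≤
      49 * (∫⁻ x, ‖fderiv ℝ f x‖ₑ) + S τ := by
    intro τ hτ
    have hV5' : ∀ (k : ℕ) (x₀ : ℂ) (L : ℂ →L[ℝ] ℝ), ENNReal.ofReal ‖L‖ ≤
        3 * ∑ n ∈ Finset.range 16,
          (GG f (E n) k).indicator (fun _ => ENNReal.ofReal |L (E n)|) x₀ := by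
      intro k x₀ L
      refine (ENNReal.ofReal_le_ofReal (hV5 (fderiv ℝ (fch f (k + 11)) x₀) L)).trans ?_
      rw [ENNReal.ofReal_mul (by norm_num), ENNReal.ofReal_sum_of_nonneg]
      · apply mul_le_mul' (by simp)
        apply Finset.sum_le_sum
        intro n _
        by_cases h : x₀ ∈ GG f (E n) k
        · have h' : 23 / 25 * ‖fderiv ℝ (fch f (k + 11)) x₀‖ ≤
            fderiv ℝ (fch f (k + 11)) x₀ (E n) := h
          rw [indicator_of_mem h, if_pos h']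
        · have h' : ¬ (23 / 25 * ‖fderiv ℝ (fch f (k + 11)) x₀‖ ≤
            fderiv ℝ (fch f (k + 11)) x₀ (E n)) := h
          rw [indicator_of_notMem h, if_neg h']; simp
      · intro n _
        split_ifs
        · exact abs_nonneg _
        · exact le_rfl
    refine assembly hf hfK (huK τ) (V := fun k => U f (4 ^ k * τ))
      (fun k => lipschitz_U hf hfK _) (hfu τ) hf0 (hex τ hτ) hE
      (G := fun k n => GG f (E n) k) (fun k n => measurableSet_GG hf (E n) k) hV5'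
      (t := fun k => (4 : ℝ) ^ k) (fun k => by positivity)
      (J := fun k n x₀ => JJ f (E n) k τ x₀) ?_
    intro k n x₀ _
    have ht : (0 : ℝ) < 4 ^ k := by positivity
    refine LOCAL_te hf (hE n) ht τ (measurableSet_NN (E n) hf.continuous (huK τ).continuous
      (continuous_U_right hf _)) ?_
    rintro x ⟨hx1, hx2⟩ ⟨σ, h1, h2, h3⟩
    apply hx2
    refine ⟨σ, h1.1, ?_, fun s hs => ?_⟩
    · rw [hx1]; exact h2
    · rw [hx1]; exact (h3 s hs).trans (hU τ hτ k _)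
  -- the integral of `S`
  have hSint : ∫⁻ τ in Icc (1 : ℝ) 2, S τ ≤
      48 * C * (25 * 4 ^ 8) * 100 * ∫⁻ x, ‖fderiv ℝ f x‖ₑ := by
    rw [hS]
    rw [lintegral_tsum fun k => (hmk k).aemeasurable]
    have hk : ∀ k : ℕ, ∫⁻ τ in Icc (1 : ℝ) 2, (volume (Metric.ball (0 : ℂ) ((4 : ℝ) ^ k)))⁻¹ *
        (3 * ∑ n ∈ Finset.range 16, ∫⁻ x₀ in GG f (E n) k, JJ f (E n) k τ x₀) ≤
        48 * C * (25 * 4 ^ 8) * ∑ j ∈ Finset.range (k + 2),
        (3 / 4 : ENNReal) ^ (k + 1 - j) * ENNReal.ofReal (TT f j - TT f (k + 11)) := by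
      intro k
      rw [lintegral_const_mul _ ((Finset.measurable_fun_sum _ fun n _ => hmJ k n).const_mul _),
        lintegral_const_mul _ (Finset.measurable_fun_sum _ fun n _ => hmJ k n),
        lintegral_finsetSum _ fun n _ => hmJ k n, mul_left_comm, Finset.mul_sum]
      have hn : ∀ n ∈ Finset.range 16, (volume (Metric.ball (0 : ℂ) ((4 : ℝ) ^ k)))⁻¹ *
          ∫⁻ τ in Icc (1 : ℝ) 2, ∫⁻ x₀ in GG f (E n) k, JJ f (E n) k τ x₀ ≤
          C * (ENNReal.ofReal (25 * 4 ^ 8) * ∑ j ∈ Finset.range (k + 2),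
          (3 / 4 : ENNReal) ^ (k + 1 - j) * ENNReal.ofReal (TT f j - TT f (k + 11))) := by
        intro n _
        have hswap : ∫⁻ τ in Icc (1 : ℝ) 2, ∫⁻ x₀ in GG f (E n) k, JJ f (E n) k τ x₀ =
            ∫⁻ x₀ in GG f (E n) k, ∫⁻ τ in Icc (1 : ℝ) 2, JJ f (E n) k τ x₀ :=
          lintegral_lintegral_swap (measurable_JJ hf (hE n) k).aemeasurable
        rw [hswap]
        exact lint_lint_JJ_le hC hf (hE n) k
      refine (mul_le_mul_right (Finset.sum_le_sum hn) 3).trans (le_of_eq ?_)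
      rw [Finset.sum_const, Finset.card_range, nsmul_eq_mul]
      have : ENNReal.ofReal (25 * 4 ^ 8) = 25 * 4 ^ 8 := by
        rw [ENNReal.ofReal_mul (by norm_num), ENNReal.ofReal_pow (by norm_num)]
        norm_num
      rw [this]
      push_cast
      ring
    refine (ENNReal.tsum_le_tsum hk).trans ?_
    rw [ENNReal.tsum_mul_left]
    have htel := tele_tsum (TT_antitone hf) (TT_nonneg f)
    calc 48 * (C : ℝ≥0∞) * (25 * 4 ^ 8) * ∑' k : ℕ, ∑ j ∈ Finset.range (k + 2),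
        (3 / 4 : ENNReal) ^ (k + 1 - j) * ENNReal.ofReal (TT f j - TT f (k + 11))
        ≤ 48 * C * (25 * 4 ^ 8) * ENNReal.ofReal (100 * TT f 0) := by gcongr
      _ = _ := by
        rw [ENNReal.ofReal_mul (by norm_num), TT_zero, ofReal_integral_eq_lintegral_ofReal]
        · simp only [enorm_eq_ofReal_norm]
          rw [← mul_assoc]
          congr 2
          norm_num
        · exact (hf.cc_norm).integrable
        · exact Eventually.of_forall fun _ => norm_nonneg _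
  -- choice of τ
  have hv : volume (Icc (1 : ℝ) 2) = 1 := by rw [Real.volume_Icc]; norm_num
  obtain ⟨τ, hτ1, hτ2⟩ := exists_le_setLAverage (μ := volume) (s := Icc (1 : ℝ) 2) (f := S)
    (by rw [hv]; norm_num) (by rw [hv]; norm_num) hSm.aemeasurable
  rw [setLAverage_eq, hv, div_one] at hτ2
  refine ⟨τ, hτ1, (hτ τ hτ1).trans ?_⟩
  rw [add_mul]
  gcongr
  exact hτ2.trans hSint

end Crest.Agent.R112
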