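import Crest.Agent.R112.Defs

/-! R112: definitions shared by sections 3 and 4. -/

set_option autoImplicit false

namespace Crest.Agent.R112

open MeasureTheory Set

/-- the quantity bounded by the unit scale theorem -/
noncomputable def Q (τ : ℝ) (f : ℂ → ℝ) : ENNReal :=
  ∫⁻ y in Icc (-1 : ℝ) 1,
    (2 * (∫⁻ s in Icc (-1 : ℝ) 15,
      ENNReal.ofReal (-(deriv (fun s : ℝ => U f τ (⟨s, y⟩ : ℂ)) s))) +
    ∫⁻ s in Icc (11 : ℝ) 12, ENNReal.ofReal (U f τ (⟨1, y⟩ : ℂ) - f (⟨s, y⟩ : ℂ)))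

/-- successive disc averages: `chain f N 0 = f`,
`chain f N (j+1) = A (chain f N j) 4^(-6-(N-1-j))` -/
noncomputable def chain (f : ℂ → ℝ) (N : ℕ) : ℕ → ℂ → ℝ
  | 0 => f
  | (j + 1) => A (chain f N j) ((4 : ℝ) ^ (-6 - ((N : ℤ) - 1 - (j : ℤ))))

end Crest.Agent.R112
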