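import Crest.Agent.R112.KExit
import Crest.Agent.R112.Basic

set_option autoImplicit false

namespace Crest.Agent.R112

open MeasureTheory Set Real intervalIntegral

variable {g : ℂ → ℝ}

theorem integrableOn_ball' {h : ℂ → ℝ} (hh : Continuous h) (x : ℂ) (ρ : ℝ) :
    IntegrableOn h (Metric.ball x ρ) :=
  (hh.continuousOn.integrableOn_compact (isCompact_closedBall x ρ)).mono_set
    Metric.ball_subset_closedBall

/-- first moment (in direction `1`) of the gradient mass of a ball -/
noncomputable def beta (g : ℂ → ℝ) (y : ℂ) (ρ : ℝ) : ℝ :=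
  ∫ z in Metric.ball y ρ, z.re * ‖fderiv ℝ g z‖

theorem affine_moment (hg : ContDiff ℝ 1 g) (y : ℂ) (ρ p q : ℝ) :
    ∫ z in Metric.ball y ρ, ‖fderiv ℝ g z‖ * (p * z.re + q) = p * beta g y ρ + q * mass g y ρ := by
  have hc := cont_nfd hg
  unfold beta mass
  rw [← MeasureTheory.integral_const_mul, ← MeasureTheory.integral_const_mul,
    ← MeasureTheory.integral_add]
  · congr 1; funext z; ring
  · exact integrableOn_ball' (h := fun z => p * (z.re * ‖fderiv ℝ g z‖))
      (by have := Complex.continuous_re; fun_prop) y ρ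
  · exact integrableOn_ball' (h := fun z => q * ‖fderiv ℝ g z‖) (by fun_prop) y ρ

theorem beta_mono (hg : ContDiff ℝ 1 g) {y : ℂ} {b ρ ρ' : ℝ} (hb : 0 < b) (hρ : 0 ≤ ρ)
    (hρ' : 0 ≤ ρ') (hm : mass g (y + b) ρ' = mass g y ρ) :
    beta g y ρ ≤ beta g (y + b) ρ' := by
  have hc := cont_nfd hg
  set Λ : ℂ → ℝ := fun z => 2 * b * z.re + (-2 * b * y.re - b ^ 2 + ρ' ^ 2 - ρ ^ 2) with hΛ
  have hΛe : ∀ z, Λ z = (ρ' ^ 2 - ‖z - (y + b)‖ ^ 2) - (ρ ^ 2 - ‖z - y‖ ^ 2) := by
    intro z
    rw [← Complex.normSq_eq_norm_sq, ← Complex.normSq_eq_norm_sq, Complex.normSq_apply,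
      Complex.normSq_apply]
    simp only [hΛ, Complex.sub_re, Complex.sub_im, Complex.add_re, Complex.add_im,
      Complex.ofReal_re, Complex.ofReal_im]
    ring
  set f : ℂ → ℝ := fun z => ‖fderiv ℝ g z‖ * Λ z with hf
  have hfc : Continuous f := by
    have := Complex.continuous_re
    rw [hf, hΛ]; fun_prop
  have h1 : 0 ≤ (∫ z in Metric.ball (y + b) ρ', f z) - ∫ z in Metric.ball y ρ, f z := by
    rw [← MeasureTheory.integral_indicator Metric.isOpen_ball.measurableSet,
      ← MeasureTheory.integral_indicator Metric.isOpen_ball.measurableSet,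
      ← MeasureTheory.integral_sub]
    · apply MeasureTheory.integral_nonneg
      intro z
      simp only [Pi.zero_apply]
      by_cases h1 : z ∈ Metric.ball (y + b) ρ' <;> by_cases h2 : z ∈ Metric.ball y ρ
      · simp [h1, h2]
      · rw [indicator_of_mem h1, indicator_of_notMem h2, sub_zero]
        apply mul_nonneg (norm_nonneg _)
        rw [hΛe]
        rw [Metric.mem_ball, dist_eq_norm] at h1 h2
        have a1 : ‖z - (y + b)‖ ^ 2 ≤ ρ' ^ 2 := pow_le_pow_left₀ (norm_nonneg _) h1.le 2
        have a2 : ρ ^ 2 ≤ ‖z - y‖ ^ 2 := pow_le_pow_left₀ hρ (not_lt.1 h2) 2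
        linarith
      · rw [indicator_of_notMem h1, indicator_of_mem h2, zero_sub, neg_nonneg]
        apply mul_nonpos_of_nonneg_of_nonpos (norm_nonneg _)
        rw [hΛe]
        rw [Metric.mem_ball, dist_eq_norm] at h1 h2
        have a1 : ρ' ^ 2 ≤ ‖z - (y + b)‖ ^ 2 := pow_le_pow_left₀ hρ' (not_lt.1 h1) 2
        have a2 : ‖z - y‖ ^ 2 ≤ ρ ^ 2 := pow_le_pow_left₀ (norm_nonneg _) h2.le 2
        linarith
      · rw [indicator_of_notMem h1, indicator_of_notMem h2, sub_zero]
    · exact (integrableOn_ball' hfc _ _).integrable_indicator Metric.isOpen_ball.measurableSet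
    · exact (integrableOn_ball' hfc _ _).integrable_indicator Metric.isOpen_ball.measurableSet
  rw [hf, hΛ] at h1
  rw [affine_moment hg, affine_moment hg, hm] at h1
  have h2 : 0 ≤ 2 * b * (beta g (y + b) ρ' - beta g y ρ) := by linarith
  have h3 : 0 ≤ beta g (y + b) ρ' - beta g y ρ :=
    nonneg_of_mul_nonneg_right h2 (by positivity)
  linarith

theorem beta_bound (hg : ContDiff ℝ 1 g) {y : ℂ} {ρ lo hi : ℝ} (hlo : lo ≤ y.re - ρ)
    (hhi : y.re + ρ ≤ hi) : lo * mass g y ρ ≤ beta g y ρ ∧ beta g y ρ ≤ hi * mass g y ρ := by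
  have hc := cont_nfd hg
  have hre := Complex.continuous_re
  unfold mass beta
  rw [← MeasureTheory.integral_const_mul, ← MeasureTheory.integral_const_mul]
  have hz : ∀ z ∈ Metric.ball y ρ, |z.re - y.re| < ρ := by
    intro z hz
    rw [Metric.mem_ball, dist_eq_norm] at hz
    have := Complex.abs_re_le_norm (z - y)
    rw [Complex.sub_re] at this
    exact this.trans_lt hz
  constructor
  · apply setIntegral_mono_on
    · exact integrableOn_ball' (h := fun z => lo * ‖fderiv ℝ g z‖) (by fun_prop) _ _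
    · exact integrableOn_ball' (h := fun z => z.re * ‖fderiv ℝ g z‖) (by fun_prop) _ _
    · exact Metric.isOpen_ball.measurableSet
    · intro z hz'
      have := abs_lt.1 (hz z hz')
      apply mul_le_mul_of_nonneg_right _ (norm_nonneg _)
      linarith [this.1]
  · apply setIntegral_mono_on
    · exact integrableOn_ball' (h := fun z => z.re * ‖fderiv ℝ g z‖) (by fun_prop) _ _
    · exact integrableOn_ball' (h := fun z => hi * ‖fderiv ℝ g z‖) (by fun_prop) _ _
    · exact Metric.isOpen_ball.measurableSet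
    · intro z hz'
      have := abs_lt.1 (hz z hz')
      apply mul_le_mul_of_nonneg_right _ (norm_nonneg _)
      linarith [this.2]

/-- swap of the order in polar coordinates -/
theorem polar_swap {h : ℂ → ℝ} (hh : Continuous h) (x : ℂ) (a r : ℝ) :
    ∫ θ in (-π)..π, ∫ s in a..r, s * h (pt x s θ) =
      ∫ s in a..r, s * ∫ θ in (-π)..π, h (pt x s θ) := by
  rw [MeasureTheory.intervalIntegral_intervalIntegral_swap]
  · apply intervalIntegral.integral_congr
    intro s _
    simp only
    rw [intervalIntegral.integral_const_mul]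
  · have : Continuous (Function.uncurry fun θ s : ℝ => s * h (pt x s θ)) := by
      fun_prop
    exact (this.continuousOn.integrableOn_compact
      ((isCompact_uIcc (a := -π) (b := π)).prod (isCompact_uIcc (a := a) (b := r)))).mono_set
        (prod_mono uIoc_subset_uIcc uIoc_subset_uIcc)

/-- average over the circle equals the value at an interior maximiser -/
theorem opt_circle' (hg : ContDiff ℝ 1 g) {x : ℂ} {r : ℝ} (hr0 : 0 < r)
    (hmax : IsLocalMax (fun r => A g r x) r) :
    r ^ 2 * ∫ θ in (-π)..π, g (pt x r θ) = 2 * ∫ z in Metric.ball x r, g z := by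
  have hgc := hg.continuous
  set M : ℝ → ℝ := fun s => ∫ θ in (-π)..π, g (pt x s θ) with hM
  have hMc : Continuous M := by rw [hM]; fun_prop
  set Φ : ℝ → ℝ := fun r => ∫ s in (0:ℝ)..r, s * M s with hΦ
  have hΦd : HasDerivAt Φ (r * M r) r := by
    have : Continuous fun s => s * M s := by fun_prop
    exact this.integral_hasStrictDerivAt 0 r |>.hasDerivAt
  have hball : ∀ s, 0 < s → ∫ z in Metric.ball x s, g z = Φ s := by
    intro s hs
    rw [polar_ball hs.le hgc, polar_swap hgc]
  have hev : (fun r => A g r x) =ᶠ[nhds r] fun r => (1 / (π * r ^ 2)) * Φ r := by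
    filter_upwards [lt_mem_nhds hr0] with s hs
    rw [A_eq hs x, hball s hs]
  have hd : HasDerivAt (fun r => (1 / (π * r ^ 2)) * Φ r)
      (-(2 / (π * r ^ 3)) * Φ r + 1 / (π * r ^ 2) * (r * M r)) r := by
    have h1 : HasDerivAt (fun r : ℝ => 1 / (π * r ^ 2)) (-(2 / (π * r ^ 3))) r := by
      have e : (fun r : ℝ => 1 / (π * r ^ 2)) = fun r : ℝ => (π * r ^ 2)⁻¹ := by
        funext r; rw [one_div]
      rw [e]
      refine (((hasDerivAt_pow 2 r).const_mul π).fun_inv (by positivity)).congr_deriv ?_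
      have := Real.pi_pos
      field_simp
      try simp
      try ring
    exact h1.mul hΦd
  have h0 : (-(2 / (π * r ^ 3)) * Φ r + 1 / (π * r ^ 2) * (r * M r)) = 0 := by
    have h3 : IsLocalMax (fun r => (1 / (π * r ^ 2)) * Φ r) r := hmax.congr hev
    exact h3.hasDerivAt_eq_zero hd
  rw [hball r hr0]
  change r ^ 2 * M r = 2 * Φ r
  have hpi := Real.pi_pos
  field_simp at h0
  linarith

end Crest.Agent.R112
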