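import Mathlib

/-!
# R112: counting lemmas for the sum over peaks (independent of the rest)
-/

set_option autoImplicit false

open MeasureTheory Set

namespace Crest.Agent.R112

/-- combinatorial lemma: intervals `I_i ⊆ [0, M]` of length `η X_i` with
`∑_{i : m ∈ I_i} X_i ≤ K` for every `m`: then `∑ X_i² ≤ K M / η` -/
theorem sum_sq_le {ι : Type*} (I : Finset ι) (X l : ι → ℝ) {η M K : ℝ} (hη : 0 < η) (hM : 0 ≤ M)
    (hX : ∀ i ∈ I, 0 ≤ X i) (hl : ∀ i ∈ I, 0 ≤ l i) (hlM : ∀ i ∈ I, l i + η * X i ≤ M)
    (hK : ∀ m ∈ Ioo 0 M, ∑ i ∈ I with (l i < m ∧ m < l i + η * X i), X i ≤ K) :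
    ∑ i ∈ I, X i ^ 2 ≤ K * M / η := by
  classical
  rw [le_div_iff₀ hη]
  have h1 : ∀ i ∈ I, ∫ m in Ioo 0 M, (if l i < m ∧ m < l i + η * X i then X i else 0) =
      η * X i ^ 2 := by
    intro i hi
    have hXi := hX i hi
    have hli := hl i hi
    have hMi := hlM i hi
    have h2 : (fun m : ℝ => if l i < m ∧ m < l i + η * X i then X i else 0) =
        (Ioo (l i) (l i + η * X i)).indicator (fun _ => X i) := by
      funext m
      simp only [indicator, mem_Ioo]
    rw [h2, setIntegral_indicator measurableSet_Ioo]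
    have h3 : Ioo 0 M ∩ Ioo (l i) (l i + η * X i) = Ioo (l i) (l i + η * X i) := by
      apply inter_eq_right.mpr
      exact Ioo_subset_Ioo hli hMi
    rw [h3, setIntegral_const, Real.volume_real_Ioo, smul_eq_mul,
      max_eq_left (by have := mul_nonneg hη.le hXi; linarith)]
    ring
  have hint : ∀ i ∈ I, IntegrableOn
      (fun m : ℝ => if l i < m ∧ m < l i + η * X i then X i else 0) (Ioo 0 M) := by
    intro i hi
    have h2 : (fun m : ℝ => if l i < m ∧ m < l i + η * X i then X i else 0) =
        (Ioo (l i) (l i + η * X i)).indicator (fun _ => X i) := by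
      funext m
      simp only [indicator, mem_Ioo]
    rw [h2]
    exact (integrableOn_const (by simp)).indicator measurableSet_Ioo
  calc (∑ i ∈ I, X i ^ 2) * η = ∑ i ∈ I, η * X i ^ 2 := by
        rw [Finset.sum_mul]; exact Finset.sum_congr rfl fun i _ => mul_comm _ _
    _ = ∑ i ∈ I, ∫ m in Ioo 0 M, (if l i < m ∧ m < l i + η * X i then X i else 0) :=
        (Finset.sum_congr rfl h1).symm
    _ = ∫ m in Ioo 0 M, ∑ i ∈ I, (if l i < m ∧ m < l i + η * X i then X i else 0) :=
        (integral_finsetSum I hint).symm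
    _ ≤ ∫ m in Ioo 0 M, K := by
        apply setIntegral_mono_on (integrable_finsetSum I hint) (integrableOn_const (by simp))
          measurableSet_Ioo
        intro m hm
        rw [← Finset.sum_filter]
        exact hK m hm
    _ = K * M := by
        rw [setIntegral_const, Real.volume_real_Ioo, smul_eq_mul, sub_zero, max_eq_left hM,
          mul_comm]

/-- sum of disjoint ordered gaps -/
theorem sum_gap_le (I : Finset ℕ) (P Q : ℕ → ℝ) {lo hi : ℝ} (hlh : lo ≤ hi)
    (hPQ : ∀ i ∈ I, P i ≤ Q i) (hQP : ∀ i ∈ I, ∀ j ∈ I, i < j → Q i ≤ P j)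
    (hlo : ∀ i ∈ I, lo ≤ P i) (hhi : ∀ i ∈ I, Q i ≤ hi) :
    ∑ i ∈ I, (Q i - P i) ≤ hi - lo := by
  induction I using Finset.induction_on_max generalizing hi with
  | empty => simpa using hlh
  | insert n s hn ih =>
    have hns : n ∉ s := fun h => lt_irrefl _ (hn n h)
    rw [Finset.sum_insert hns]
    have h1 : lo ≤ P n := hlo n (Finset.mem_insert_self _ _)
    have h2 := ih h1 (fun i hi => hPQ i (Finset.mem_insert_of_mem hi))
      (fun i hi j hj => hQP i (Finset.mem_insert_of_mem hi) j (Finset.mem_insert_of_mem hj))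
      (fun i hi => hlo i (Finset.mem_insert_of_mem hi))
      (fun i hi => hQP i (Finset.mem_insert_of_mem hi) n (Finset.mem_insert_self _ _) (hn i hi))
    have h3 := hhi n (Finset.mem_insert_self _ _)
    linarith

/-- number of grid points in an interval -/
theorem grid_card (I : Finset ℕ) {s₀ h a b : ℝ} (hh : 0 < h) (hab : a ≤ b)
    (hI : ∀ i ∈ I, s₀ + h * i ∈ Icc a b) : (I.card : ℝ) ≤ (b - a) / h + 1 := by
  rcases I.eq_empty_or_nonempty with rfl | hne
  · simp
    have : 0 ≤ (b - a) / h := div_nonneg (by linarith) hh.le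
    linarith
  · have h1 : I ⊆ Finset.Icc (I.min' hne) (I.max' hne) := by
      intro i hi
      rw [Finset.mem_Icc]
      exact ⟨I.min'_le i hi, I.le_max' i hi⟩
    have h2 := Finset.card_le_card h1
    rw [Nat.card_Icc] at h2
    have hmin := hI _ (I.min'_mem hne)
    have hmax := hI _ (I.max'_mem hne)
    have hle : I.min' hne ≤ I.max' hne := I.min'_le _ (I.max'_mem hne)
    have h3 : (I.card : ℝ) ≤ (I.max' hne : ℝ) + 1 - (I.min' hne : ℝ) := by
      have h4 : I.card + I.min' hne ≤ I.max' hne + 1 := by omega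
      have : ((I.card + I.min' hne : ℕ) : ℝ) ≤ ((I.max' hne + 1 : ℕ) : ℝ) := by exact_mod_cast h4
      push_cast at this
      linarith
    have h5 : h * ((I.max' hne : ℝ) - (I.min' hne : ℝ)) ≤ b - a := by
      have := hmin.1
      have := hmax.2
      linarith
    have h6 : (I.max' hne : ℝ) - (I.min' hne : ℝ) ≤ (b - a) / h := by
      rw [le_div_iff₀ hh]
      linarith
    linarith

/-- an integral is controlled by sums over grids -/
theorem integral_le_of_grid {F : ℝ → ℝ} {a b h S : ℝ} (hab : a ≤ b) (hh : 0 < h)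
    (hF : ContinuousOn F (Icc a b))
    (hS : ∀ (s₀ : ℝ) (I : Finset ℕ), (∀ i ∈ I, s₀ + h * i ∈ Icc a b) →
      ∑ i ∈ I, F (s₀ + h * i) ≤ S) :
    ∫ s in a..b, F s ≤ h * S := by
  classical
  obtain ⟨n, hn⟩ := exists_nat_ge ((b - a) / h)
  rw [div_le_iff₀ hh] at hn
  set G : ℝ → ℝ := (Icc a b).indicator F with hG
  have hGint : Integrable G := by
    rw [hG, integrable_indicator_iff measurableSet_Icc]
    exact hF.integrableOn_Icc
  have h1 : ∫ s in a..b, F s = ∫ s in a..(a + h * n), G s := by
    rw [intervalIntegral.integral_of_le hab, intervalIntegral.integral_of_le (by nlinarith),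
      hG, setIntegral_indicator measurableSet_Icc]
    apply setIntegral_congr_set
    have : Ioc a (a + h * n) ∩ Icc a b = Ioc a b := by
      ext x
      simp only [mem_inter_iff, mem_Ioc, mem_Icc]
      constructor
      · rintro ⟨⟨h1, _⟩, _, h2⟩
        exact ⟨h1, h2⟩
      · rintro ⟨h1, h2⟩
        exact ⟨⟨h1, by linarith⟩, h1.le, h2⟩
    exact this ▸ ae_eq_refl _
  have h2 : ∫ s in a..(a + h * n), G s =
      ∑ i ∈ Finset.range n, ∫ s in (a + h * (i : ℕ))..(a + h * ((i + 1 : ℕ) : ℝ)), G s := by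
    rw [intervalIntegral.sum_integral_adjacent_intervals (a := fun i : ℕ => a + h * (i : ℝ))]
    · simp
    · intro k _
      exact hGint.intervalIntegrable
  have h3 : ∀ i ∈ Finset.range n, ∫ s in (a + h * (i : ℕ))..(a + h * ((i + 1 : ℕ) : ℝ)), G s =
      ∫ s in a..(a + h), G (s + h * i) := by
    intro i _
    rw [intervalIntegral.integral_comp_add_right]
    congr 1
    push_cast
    ring
  rw [h1, h2, Finset.sum_congr rfl h3, ← intervalIntegral.integral_finsetSum]
  · have h4 : ∀ s ∈ Icc a (a + h), ∑ i ∈ Finset.range n, G (s + h * i) ≤ S := by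
      intro s _
      have : ∑ i ∈ Finset.range n, G (s + h * i) =
          ∑ i ∈ (Finset.range n).filter (fun i : ℕ => s + h * i ∈ Icc a b), F (s + h * i) := by
        rw [Finset.sum_filter]
        apply Finset.sum_congr rfl
        intro i _
        simp only [hG, indicator]
        congr
      rw [this]
      apply hS
      intro i hi
      exact (Finset.mem_filter.mp hi).2
    calc ∫ s in a..(a + h), ∑ i ∈ Finset.range n, G (s + h * i) ≤ ∫ _s in a..(a + h), S := by
          apply intervalIntegral.integral_mono_on (by linarith) _ (by simp) h4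
          have h5 : Integrable (fun x => ∑ i ∈ Finset.range n, G (x + h * i)) :=
            integrable_finsetSum _ fun i _ => hGint.comp_add_right (h * (i : ℝ))
          exact h5.intervalIntegrable
      _ = h * S := by
          rw [intervalIntegral.integral_const, smul_eq_mul]
          ring
  · intro i _
    exact (hGint.comp_add_right (h * i)).intervalIntegrable

/-- Cauchy–Schwarz combination -/
theorem sum_le_sqrt {ι : Type*} (I : Finset ι) (X : ι → ℝ) {S n : ℝ}
    (hn : (I.card : ℝ) ≤ n) (hS : ∑ i ∈ I, X i ^ 2 ≤ S) :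
    ∑ i ∈ I, X i ≤ Real.sqrt (n * S) := by
  apply Real.le_sqrt_of_sq_le
  have h1 := sq_sum_le_card_mul_sum_sq (s := I) (f := X)
  have h0 : 0 ≤ ∑ i ∈ I, X i ^ 2 := Finset.sum_nonneg fun i _ => sq_nonneg _
  calc (∑ i ∈ I, X i) ^ 2 ≤ I.card * ∑ i ∈ I, X i ^ 2 := h1
    _ ≤ n * S := by
        apply mul_le_mul hn hS h0
        exact le_trans (Nat.cast_nonneg _) hn

end Crest.Agent.R112
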