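import Crest.Agent.R112.KTrace

set_option autoImplicit false

namespace Crest.Agent.R112

open MeasureTheory Set Real intervalIntegral

variable {g : ℂ → ℝ}

/-- exit radius (from `x`) of the ball of radius `ρ` about `x + b`, in direction `θ` -/
noncomputable def Sx (b ρ θ : ℝ) : ℝ := b * cos θ + √(ρ ^ 2 - b ^ 2 * sin θ ^ 2)

theorem continuous_Sx (b ρ : ℝ) : Continuous (Sx b ρ) := by unfold Sx; fun_prop

section
variable {b ρ : ℝ} (h : |b| < ρ)
include h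

theorem Sx_disc (θ : ℝ) : (b * cos θ) ^ 2 < ρ ^ 2 - b ^ 2 * sin θ ^ 2 := by
  have h1 : b ^ 2 < ρ ^ 2 := sq_lt_sq' (by linarith [abs_nonneg b, neg_abs_le b]) (lt_of_abs_lt h)
  have h2 : sin θ ^ 2 = 1 - cos θ ^ 2 := by rw [Real.sin_sq]
  rw [h2]; nlinarith

theorem Sx_sqrt (θ : ℝ) : |b * cos θ| < √(ρ ^ 2 - b ^ 2 * sin θ ^ 2) := by
  apply Real.lt_sqrt_of_sq_lt
  rw [sq_abs]
  exact Sx_disc h θ

theorem Sx_pos (θ : ℝ) : 0 < Sx b ρ θ := by
  have := Sx_sqrt h θ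
  unfold Sx
  linarith [neg_abs_le (b * cos θ)]

theorem Sx_sq (θ : ℝ) : (Sx b ρ θ) ^ 2 - 2 * b * cos θ * Sx b ρ θ = ρ ^ 2 - b ^ 2 := by
  have h1 : √(ρ ^ 2 - b ^ 2 * sin θ ^ 2) ^ 2 = ρ ^ 2 - b ^ 2 * sin θ ^ 2 := by
    apply Real.sq_sqrt
    exact (sq_nonneg _).trans (Sx_disc h θ).le
  have h2 : sin θ ^ 2 = 1 - cos θ ^ 2 := by rw [Real.sin_sq]
  unfold Sx
  rw [h2] at h1 ⊢
  linear_combination h1

theorem Sx_mem (x : ℂ) (θ s : ℝ) (hs : 0 < s) :
    pt x s θ ∈ Metric.ball (x + b) ρ ↔ s < Sx b ρ θ := by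
  have hρ : 0 < ρ := (abs_nonneg b).trans_lt h
  have e1 : ‖pt x s θ - (x + b)‖ ^ 2 = s ^ 2 - 2 * b * s * cos θ + b ^ 2 := by
    rw [← Complex.normSq_eq_norm_sq, Complex.normSq_apply]
    simp only [Complex.sub_re, Complex.sub_im, pt_re, pt_im, Complex.add_re, Complex.add_im,
      Complex.ofReal_re, Complex.ofReal_im]
    have h2 : sin θ ^ 2 = 1 - cos θ ^ 2 := by rw [Real.sin_sq]
    linear_combination s ^ 2 * h2
  rw [Metric.mem_ball, dist_eq_norm]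
  have hS := Sx_sqrt h θ
  have hsq : √(ρ ^ 2 - b ^ 2 * sin θ ^ 2) ^ 2 = ρ ^ 2 - b ^ 2 * sin θ ^ 2 := by
    apply Real.sq_sqrt
    exact (sq_nonneg _).trans (Sx_disc h θ).le
  have h2 : sin θ ^ 2 = 1 - cos θ ^ 2 := by rw [Real.sin_sq]
  set q := √(ρ ^ 2 - b ^ 2 * sin θ ^ 2) with hq
  have hq0 : 0 ≤ q := Real.sqrt_nonneg _
  have e2 : ‖pt x s θ - (x + b)‖ ^ 2 - ρ ^ 2 = (s - b * cos θ) ^ 2 - q ^ 2 := by
    rw [e1, hsq, h2]; ring
  unfold Sx
  rw [← hq]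
  constructor
  · intro hlt
    have : ‖pt x s θ - (x + b)‖ ^ 2 < ρ ^ 2 := pow_lt_pow_left₀ hlt (norm_nonneg _) two_ne_zero
    have h3 : (s - b * cos θ) ^ 2 < q ^ 2 := by linarith
    have := abs_lt_of_sq_lt_sq h3 hq0
    linarith [(abs_lt.1 this).2]
  · intro hlt
    have h3 : |s - b * cos θ| < q := by
      rw [abs_lt]; constructor <;> linarith [(abs_lt.1 hS).1, (abs_lt.1 hS).2]
    have h4 : (s - b * cos θ) ^ 2 < q ^ 2 := by
      rw [← sq_abs (s - b * cos θ)]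
      exact pow_lt_pow_left₀ h3 (abs_nonneg _) two_ne_zero
    exact lt_of_pow_lt_pow_left₀ 2 hρ.le (by linarith)

theorem Sx_dist (θ : ℝ) : |Sx b ρ θ - ρ| ≤ |b| := by
  have hρ : 0 < ρ := (abs_nonneg b).trans_lt h
  have h1 := Sx_sq h θ
  have h2 := Sx_pos h θ
  have hb : |b| ^ 2 = b ^ 2 := sq_abs b
  have hc1 : b * cos θ ≤ |b| := by
    calc b * cos θ ≤ |b * cos θ| := le_abs_self _
      _ = |b| * |cos θ| := abs_mul _ _
      _ ≤ |b| * 1 := by gcongr; exact abs_cos_le_one θ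
      _ = |b| := mul_one _
  have hc2 : -|b| ≤ b * cos θ := by
    have : |b * cos θ| ≤ |b| := by
      rw [abs_mul]
      calc |b| * |cos θ| ≤ |b| * 1 := by gcongr; exact abs_cos_le_one θ
        _ = |b| := mul_one _
    linarith [neg_abs_le (b * cos θ)]
  set S := Sx b ρ θ with hS
  have hu : 0 ≤ |b| := abs_nonneg b
  rw [abs_le]
  constructor
  · -- ρ ≤ S + u
    have : ρ ^ 2 ≤ (S + |b|) ^ 2 := by nlinarith
    have := abs_le_of_sq_le_sq this (by linarith)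
    linarith [le_abs_self ρ]
  · have h3 : (S - |b|) ^ 2 ≤ ρ ^ 2 := by nlinarith
    have := abs_le_of_sq_le_sq h3 hρ.le
    linarith [le_abs_self (S - |b|)]

end

/-- one-dimensional comparison on a ray -/
theorem ray_error {f f' n Λ : ℝ → ℝ} (hf : ∀ t, HasDerivAt f (f' t) t) (hf' : Continuous f')
    (hn : Continuous n) (hΛ : Continuous Λ) (hfn : ∀ t, |f' t| ≤ n t) {ρ₀ S : ℝ}
    (h1 : ∀ t, ρ₀ ≤ t → t ≤ S → (S ^ 2 - t ^ 2) / 2 ≤ t * Λ t)
    (h2 : ∀ t, S ≤ t → t ≤ ρ₀ → (t ^ 2 - S ^ 2) / 2 ≤ -(t * Λ t)) (hS : 0 ≤ S) (hρ : 0 ≤ ρ₀) :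
    |∫ t in ρ₀..S, t * (f t - f ρ₀)| ≤ ∫ t in ρ₀..S, t * (n t * Λ t) := by
  have hfc : Continuous f := continuous_iff_continuousAt.2 fun t => (hf t).continuousAt
  have e1 : ∫ t in ρ₀..S, (t * (f t - f ρ₀) + (t ^ 2 - S ^ 2) / 2 * f' t) = 0 := by
    have := intervalIntegral.integral_eq_sub_of_hasDerivAt
      (f := fun t => (t ^ 2 - S ^ 2) / 2 * (f t - f ρ₀))
      (f' := fun t => (t * (f t - f ρ₀) + (t ^ 2 - S ^ 2) / 2 * f' t)) (a := ρ₀) (b := S)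
      (fun t _ => by
        have a1 : HasDerivAt (fun t : ℝ => (t ^ 2 - S ^ 2) / 2) t t := by
          simpa using ((hasDerivAt_pow 2 t).sub_const (S ^ 2)).div_const 2
        have a2 := (hf t).sub_const (f ρ₀)
        exact a1.mul a2)
      (Continuous.intervalIntegrable (by fun_prop) _ _)
    rw [this]; ring
  have e2 : ∫ t in ρ₀..S, t * (f t - f ρ₀) = ∫ t in ρ₀..S, (S ^ 2 - t ^ 2) / 2 * f' t := by
    rw [intervalIntegral.integral_add (Continuous.intervalIntegrable (by fun_prop) _ _)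
      (Continuous.intervalIntegrable (by fun_prop) _ _)] at e1
    have e3 : ∫ t in ρ₀..S, (S ^ 2 - t ^ 2) / 2 * f' t = -∫ t in ρ₀..S, (t ^ 2 - S ^ 2) / 2 * f' t := by
      rw [← intervalIntegral.integral_neg]
      apply intervalIntegral.integral_congr
      intro t _; simp only; ring
    rw [e3]; linarith
  rw [e2]
  rcases le_total ρ₀ S with h | h
  · apply (intervalIntegral.abs_integral_le_integral_abs h).trans
    apply intervalIntegral.integral_mono_on h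
    · exact Continuous.intervalIntegrable (by fun_prop) _ _
    · exact Continuous.intervalIntegrable (by fun_prop) _ _
    · intro t ht
      have a := h1 t ht.1 ht.2
      have a0 : 0 ≤ (S ^ 2 - t ^ 2) / 2 := by nlinarith [ht.1, ht.2]
      rw [abs_mul, abs_of_nonneg a0]
      have hn0 : 0 ≤ n t := (abs_nonneg _).trans (hfn t)
      calc (S ^ 2 - t ^ 2) / 2 * |f' t| ≤ (S ^ 2 - t ^ 2) / 2 * n t := by
            gcongr; exact hfn t
        _ ≤ (t * Λ t) * n t := by gcongr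
        _ = _ := by ring
  · rw [intervalIntegral.integral_symm, abs_neg, intervalIntegral.integral_symm (a := S) (b := ρ₀),
      ← intervalIntegral.integral_neg]
    apply (intervalIntegral.abs_integral_le_integral_abs h).trans
    apply intervalIntegral.integral_mono_on h
    · exact Continuous.intervalIntegrable (by fun_prop) _ _
    · exact Continuous.intervalIntegrable (by fun_prop) _ _
    · intro t ht
      have a := h2 t ht.1 ht.2
      have a0 : 0 ≤ (t ^ 2 - S ^ 2) / 2 := by nlinarith [ht.1, ht.2]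
      have hn0 : 0 ≤ n t := (abs_nonneg _).trans (hfn t)
      rw [abs_mul]
      have a1 : |(S ^ 2 - t ^ 2) / 2| = (t ^ 2 - S ^ 2) / 2 := by
        rw [abs_of_nonpos (by linarith)]; ring
      rw [a1]
      calc (t ^ 2 - S ^ 2) / 2 * |f' t| ≤ (t ^ 2 - S ^ 2) / 2 * n t := by
            gcongr; exact hfn t
        _ ≤ (-(t * Λ t)) * n t := by gcongr
        _ = _ := by ring

theorem ray_signs {b c ρ ρ₀ S : ℝ} (hc : |c| ≤ 1) (hb : |b| ≤ 1 / 16) (hρ₀ : 1 ≤ ρ₀)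
    (hS2 : S ^ 2 - 2 * b * c * S = ρ ^ 2 - b ^ 2) (hSd : |S - ρ| ≤ |b|) (hd : |ρ - ρ₀| ≤ |b|) :
    (∀ t, ρ₀ ≤ t → t ≤ S → (S ^ 2 - t ^ 2) / 2 ≤ t * (2 * b * (t * c) - b ^ 2 + ρ ^ 2 - ρ₀ ^ 2)) ∧
    (∀ t, S ≤ t → t ≤ ρ₀ → (t ^ 2 - S ^ 2) / 2 ≤ -(t * (2 * b * (t * c) - b ^ 2 + ρ ^ 2 - ρ₀ ^ 2))) := by
  have hu : 0 ≤ |b| := abs_nonneg b
  have hbc : |b * c| ≤ |b| := by
    rw [abs_mul]
    calc |b| * |c| ≤ |b| * 1 := by gcongr
      _ = |b| := mul_one _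
  have hbc1 := (abs_le.1 hbc).1
  have hbc2 := (abs_le.1 hbc).2
  have hS1 := abs_le.1 hSd
  have hd1 := abs_le.1 hd
  constructor
  · intro t h1 h2
    have hΛ : (2 * b * (t * c) - b ^ 2 + ρ ^ 2 - ρ₀ ^ 2) =
        (S - ρ₀) * (S + ρ₀) - 2 * (b * c) * (S - t) := by linear_combination -hS2
    rw [hΛ]
    have a1 : (S - t) * (S + ρ₀ - 2 * |b|) ≤ (S - ρ₀) * (S + ρ₀) - 2 * (b * c) * (S - t) := by
      have : (S - t) * (S + ρ₀) ≤ (S - ρ₀) * (S + ρ₀) := by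
        apply mul_le_mul_of_nonneg_right <;> linarith
      nlinarith
    have a2 : (S - t) * ((S + t) / 2) ≤ t * ((S - t) * (S + ρ₀ - 2 * |b|)) := by
      have : (S + t) / 2 ≤ t * (S + ρ₀ - 2 * |b|) := by nlinarith
      calc (S - t) * ((S + t) / 2) ≤ (S - t) * (t * (S + ρ₀ - 2 * |b|)) := by
            apply mul_le_mul_of_nonneg_left this; linarith
        _ = _ := by ring
    calc (S ^ 2 - t ^ 2) / 2 = (S - t) * ((S + t) / 2) := by ring
      _ ≤ t * ((S - t) * (S + ρ₀ - 2 * |b|)) := a2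
      _ ≤ _ := by apply mul_le_mul_of_nonneg_left a1; linarith
  · intro t h1 h2
    have hΛ : -(t * (2 * b * (t * c) - b ^ 2 + ρ ^ 2 - ρ₀ ^ 2)) =
        t * ((ρ₀ - S) * (ρ₀ + S) - 2 * (b * c) * (t - S)) := by linear_combination t * hS2
    rw [hΛ]
    have hS0 : 7 / 8 ≤ S := by linarith
    have a1 : (t - S) * (ρ₀ + S - 2 * |b|) ≤ (ρ₀ - S) * (ρ₀ + S) - 2 * (b * c) * (t - S) := by
      have : (t - S) * (ρ₀ + S) ≤ (ρ₀ - S) * (ρ₀ + S) := by
        apply mul_le_mul_of_nonneg_right <;> linarith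
      nlinarith
    have a2 : (t - S) * ((t + S) / 2) ≤ t * ((t - S) * (ρ₀ + S - 2 * |b|)) := by
      have : (t + S) / 2 ≤ t * (ρ₀ + S - 2 * |b|) := by nlinarith
      calc (t - S) * ((t + S) / 2) ≤ (t - S) * (t * (ρ₀ + S - 2 * |b|)) := by
            apply mul_le_mul_of_nonneg_left this; linarith
        _ = _ := by ring
    calc (t ^ 2 - S ^ 2) / 2 = (t - S) * ((t + S) / 2) := by ring
      _ ≤ t * ((t - S) * (ρ₀ + S - 2 * |b|)) := a2
      _ ≤ _ := by apply mul_le_mul_of_nonneg_left a1; linarith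

end Crest.Agent.R112
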