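import Crest.Agent.R112.KPolar

set_option autoImplicit false

namespace Crest.Agent.R112

open MeasureTheory Set Real intervalIntegral

variable {g : ℂ → ℝ}

theorem cont_fd (hg : ContDiff ℝ 1 g) : Continuous (fderiv ℝ g) :=
  hg.continuous_fderiv one_ne_zero

theorem cont_nfd (hg : ContDiff ℝ 1 g) : Continuous (fun z => ‖fderiv ℝ g z‖) :=
  (cont_fd hg).norm

theorem ftc_path (hg : ContDiff ℝ 1 g) {γ γ' : ℝ → ℂ} (hγ : ∀ t, HasDerivAt γ (γ' t) t)
    (hγ' : Continuous γ') (a b : ℝ) :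
    ∫ t in a..b, fderiv ℝ g (γ t) (γ' t) = g (γ b) - g (γ a) := by
  apply intervalIntegral.integral_eq_sub_of_hasDerivAt (f := fun t => g (γ t))
  · intro t _
    exact ((hg.differentiable one_ne_zero (γ t)).hasFDerivAt).comp_hasDerivAt t (hγ t)
  · have hγc : Continuous γ := continuous_iff_continuousAt.2 fun t => (hγ t).continuousAt
    exact (((cont_fd hg).comp hγc).clm_apply hγ').intervalIntegrable _ _

theorem hasDerivAt_pt_s (x : ℂ) (θ s : ℝ) : HasDerivAt (fun s => pt x s θ) (dir θ) s := by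
  unfold pt
  have h : HasDerivAt (fun s : ℝ => (s : ℂ)) 1 s := Complex.ofRealCLM.hasDerivAt
  simpa using (h.mul_const (dir θ)).const_add x

/-- derivative of `dir` -/
noncomputable def dir' (θ : ℝ) : ℂ := ⟨-Real.sin θ, Real.cos θ⟩

theorem norm_dir' (θ : ℝ) : ‖dir' θ‖ = 1 := by
  rw [Complex.norm_def, Complex.normSq_apply]; simp [dir', ← sq]

theorem hasDerivAt_dir (θ : ℝ) : HasDerivAt dir (dir' θ) θ := by
  have h1 : HasDerivAt (fun θ : ℝ => (Real.cos θ : ℂ) + Real.sin θ * Complex.I)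
      (((-Real.sin θ : ℝ) : ℂ) + ((Real.cos θ : ℝ) : ℂ) * Complex.I) θ :=
    (Real.hasDerivAt_cos θ).ofReal_comp.add ((Real.hasDerivAt_sin θ).ofReal_comp.mul_const _)
  have h2 : dir = fun θ : ℝ => (Real.cos θ : ℂ) + Real.sin θ * Complex.I := by
    funext θ; exact dir_eq θ
  have h3 : dir' θ = (((-Real.sin θ : ℝ) : ℂ) + ((Real.cos θ : ℝ) : ℂ) * Complex.I) := by
    apply Complex.ext
    · simp [dir', Complex.sin_ofReal_re]
    · simp [dir', Complex.cos_ofReal_re]
  rw [h2, h3]; exact h1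

theorem continuous_dir' : Continuous dir' := by
  have h3 : dir' = fun θ : ℝ => (((-Real.sin θ : ℝ) : ℂ) + ((Real.cos θ : ℝ) : ℂ) * Complex.I) := by
    funext θ
    apply Complex.ext
    · simp [dir', Complex.sin_ofReal_re]
    · simp [dir', Complex.cos_ofReal_re]
  rw [h3]; fun_prop

theorem hasDerivAt_pt_θ (x : ℂ) (s θ : ℝ) : HasDerivAt (fun θ => pt x s θ) (s * dir' θ) θ := by
  unfold pt
  exact ((hasDerivAt_dir θ).const_mul (s : ℂ)).const_add x

/-- total gradient mass of a ball -/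
noncomputable def mass (g : ℂ → ℝ) (x : ℂ) (ρ : ℝ) : ℝ :=
  ∫ z in Metric.ball x ρ, ‖fderiv ℝ g z‖

theorem ofPolar_cont {h : ℂ → ℝ} (hh : Continuous h) (x : ℂ) (c : ℝ) :
    Continuous (fun ρ : ℝ => ∫ θ in (-π)..π, ∫ s in c..ρ, s * h (pt x s θ)) := by
  have : Continuous (fun p : ℝ × ℝ => ∫ s in c..p.1, s * h (pt x s p.2)) := by fun_prop
  fun_prop

theorem int_ball_cont {h : ℂ → ℝ} (hh : Continuous h) (x : ℂ) :
    ContinuousOn (fun ρ : ℝ => ∫ z in Metric.ball x ρ, h z) (Ici 0) := by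
  apply (ofPolar_cont hh x 0).continuousOn.congr
  intro ρ hρ
  exact polar_ball hρ hh

theorem int_ball_sub {h : ℂ → ℝ} (hh : Continuous h) (x : ℂ) {ρ₁ ρ₂ : ℝ} (h1 : 0 ≤ ρ₁)
    (h2 : 0 ≤ ρ₂) :
    (∫ z in Metric.ball x ρ₂, h z) - ∫ z in Metric.ball x ρ₁, h z
      = ∫ θ in (-π)..π, ∫ s in ρ₁..ρ₂, s * h (pt x s θ) := by
  rw [polar_ball h1 hh, polar_ball h2 hh, ← intervalIntegral.integral_sub]
  · apply intervalIntegral.integral_congr
    intro θ _
    simp only
    rw [intervalIntegral.integral_interval_sub_left]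
    · exact Continuous.intervalIntegrable (by fun_prop) _ _
    · exact Continuous.intervalIntegrable (by fun_prop) _ _
  · exact Continuous.intervalIntegrable (by fun_prop) _ _
  · exact Continuous.intervalIntegrable (by fun_prop) _ _

theorem mass_mono (hg : ContDiff ℝ 1 g) (x : ℂ) {ρ₁ ρ₂ : ℝ} (h : ρ₁ ≤ ρ₂) :
    mass g x ρ₁ ≤ mass g x ρ₂ := by
  apply setIntegral_mono_set
  · exact ((cont_nfd hg).continuousOn.integrableOn_compact
      (isCompact_closedBall x ρ₂)).mono_set Metric.ball_subset_closedBall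
  · exact Filter.Eventually.of_forall fun z => norm_nonneg _
  · exact (Metric.ball_subset_ball h).eventuallyLE

theorem mass_nonneg (x : ℂ) (ρ : ℝ) : 0 ≤ mass g x ρ :=
  integral_nonneg fun _ => norm_nonneg _

/-- ring estimate in polar coordinates -/
theorem ring_le (hg : ContDiff ℝ 1 g) (x : ℂ) {ρ₁ ρ₂ : ℝ} (h1 : 0 ≤ ρ₁) (h12 : ρ₁ ≤ ρ₂) :
    ρ₁ * (∫ θ in (-π)..π, ∫ s in ρ₁..ρ₂, ‖fderiv ℝ g (pt x s θ)‖) ≤ mass g x ρ₂ - mass g x ρ₁ := by
  have hc := cont_nfd hg
  unfold mass
  rw [int_ball_sub hc x h1 (h1.trans h12), ← intervalIntegral.integral_const_mul]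
  apply intervalIntegral.integral_mono_on (by linarith [Real.pi_pos])
  · exact Continuous.intervalIntegrable (by fun_prop) _ _
  · exact Continuous.intervalIntegrable (by fun_prop) _ _
  · intro θ _
    rw [← intervalIntegral.integral_const_mul]
    apply intervalIntegral.integral_mono_on h12
    · exact Continuous.intervalIntegrable (by fun_prop) _ _
    · exact Continuous.intervalIntegrable (by fun_prop) _ _
    · intro s hs
      exact mul_le_mul_of_nonneg_right hs.1 (norm_nonneg _)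

theorem radial_diff (hg : ContDiff ℝ 1 g) (x : ℂ) (θ : ℝ) {s₁ s₂ : ℝ} (h12 : s₁ ≤ s₂) :
    |g (pt x s₂ θ) - g (pt x s₁ θ)| ≤ ∫ s in s₁..s₂, ‖fderiv ℝ g (pt x s θ)‖ := by
  have hc := cont_nfd hg
  rw [← ftc_path hg (γ := fun s => pt x s θ) (γ' := fun _ => dir θ)
    (fun t => hasDerivAt_pt_s x θ t) continuous_const]
  apply (intervalIntegral.abs_integral_le_integral_abs h12).trans
  have hfc := cont_fd hg
  apply intervalIntegral.integral_mono_on h12
  · exact Continuous.intervalIntegrable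
      (((hfc.comp (by fun_prop)).clm_apply continuous_const).abs) _ _
  · exact Continuous.intervalIntegrable (by fun_prop) _ _
  · intro s _
    have := (fderiv ℝ g (pt x s θ)).le_opNorm (dir θ)
    rw [norm_dir, mul_one] at this
    exact this

theorem angular_diff (hg : ContDiff ℝ 1 g) (x : ℂ) {s : ℝ} (hs : 0 ≤ s) {θ₁ θ₂ : ℝ}
    (h1 : -π ≤ θ₁) (h12 : θ₁ ≤ θ₂) (h2 : θ₂ ≤ π) :
    |g (pt x s θ₂) - g (pt x s θ₁)| ≤ s * ∫ θ in (-π)..π, ‖fderiv ℝ g (pt x s θ)‖ := by
  have hc := cont_nfd hg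
  have hfc := cont_fd hg
  rw [← ftc_path hg (γ := fun θ => pt x s θ) (γ' := fun θ => s * dir' θ)
    (fun t => hasDerivAt_pt_θ x s t) (continuous_const.mul continuous_dir')]
  apply (intervalIntegral.abs_integral_le_integral_abs h12).trans
  rw [← intervalIntegral.integral_const_mul]
  have step : ∫ θ in θ₁..θ₂, |fderiv ℝ g (pt x s θ) (s * dir' θ)|
      ≤ ∫ θ in θ₁..θ₂, s * ‖fderiv ℝ g (pt x s θ)‖ := by
    apply intervalIntegral.integral_mono_on h12
    · exact Continuous.intervalIntegrable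
        (((hfc.comp (by fun_prop)).clm_apply (continuous_const.mul continuous_dir')).abs) _ _
    · exact Continuous.intervalIntegrable (by fun_prop) _ _
    · intro θ _
      have := (fderiv ℝ g (pt x s θ)).le_opNorm (s * dir' θ)
      rw [norm_mul, norm_dir', mul_one, Complex.norm_real, Real.norm_of_nonneg hs] at this
      rw [mul_comm s ‖_‖]
      exact this
  refine step.trans ?_
  apply intervalIntegral.integral_mono_interval h1 h12 h2
  · exact Filter.Eventually.of_forall fun θ => mul_nonneg hs (norm_nonneg _)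
  · exact Continuous.intervalIntegrable (by fun_prop) _ _

end Crest.Agent.R112
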