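import Crest.Agent.R112.Defs

set_option autoImplicit false

namespace Crest.Agent.R112

open MeasureTheory Set Real intervalIntegral

/-- unit vector -/
noncomputable def dir (θ : ℝ) : ℂ := ⟨Real.cos θ, Real.sin θ⟩

@[simp] theorem dir_re (θ : ℝ) : (dir θ).re = Real.cos θ := rfl
@[simp] theorem dir_im (θ : ℝ) : (dir θ).im = Real.sin θ := rfl

theorem dir_eq (θ : ℝ) : dir θ = (Real.cos θ : ℂ) + Real.sin θ * Complex.I := by
  apply Complex.ext
  · simp [dir, Complex.cos_ofReal_re]
  · simp [dir, Complex.sin_ofReal_re]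

theorem norm_dir (θ : ℝ) : ‖dir θ‖ = 1 := by
  rw [Complex.norm_def, Complex.normSq_apply]; simp [← sq]

@[fun_prop]
theorem continuous_dir : Continuous dir := by
  have : dir = fun θ => (Real.cos θ : ℂ) + Real.sin θ * Complex.I := by
    funext θ; exact dir_eq θ
  rw [this]; fun_prop

/-- the point at distance `s` from `x` in direction `θ` -/
noncomputable def pt (x : ℂ) (s θ : ℝ) : ℂ := x + s * dir θ

@[simp] theorem pt_re (x : ℂ) (s θ : ℝ) : (pt x s θ).re = x.re + s * Real.cos θ := by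
  simp [pt]

@[simp] theorem pt_im (x : ℂ) (s θ : ℝ) : (pt x s θ).im = x.im + s * Real.sin θ := by
  simp [pt]

theorem continuous_pt (x : ℂ) : Continuous (fun p : ℝ × ℝ => pt x p.1 p.2) := by
  unfold pt; fun_prop

@[fun_prop]
theorem Continuous.pt' {α : Type*} [TopologicalSpace α] {f : α → ℂ} {s t : α → ℝ}
    (hf : Continuous f) (hs : Continuous s) (ht : Continuous t) :
    Continuous (fun a => pt (f a) (s a) (t a)) := by
  unfold pt; fun_prop

theorem norm_pt_sub (x : ℂ) (s θ : ℝ) : ‖pt x s θ - x‖ = |s| := by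
  simp [pt, norm_dir]

theorem pt_mem_ball {x : ℂ} {s θ ρ : ℝ} (hs : 0 < s) : pt x s θ ∈ Metric.ball x ρ ↔ s < ρ := by
  rw [Metric.mem_ball, dist_eq_norm, norm_pt_sub, abs_of_pos hs]

/-- polar coordinates for star-shaped sets -/
theorem polar_set {S : Set ℂ} (hS : MeasurableSet S) {x : ℂ} {R : ℝ → ℝ} (hR : Continuous R)
    (hR0 : ∀ θ, 0 ≤ R θ)
    (hmem : ∀ θ s : ℝ, 0 < s → (pt x s θ ∈ S ↔ s < R θ))
    {h : ℂ → ℝ} (hh : Continuous h) :
    ∫ z in S, h z = ∫ θ in (-π)..π, ∫ s in (0:ℝ)..(R θ), s * h (pt x s θ) := by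
  classical
  set W : Set (ℝ × ℝ) := {p | p.1 < R p.2} with hW
  have hWo : MeasurableSet W :=
    (isOpen_lt continuous_fst (hR.comp continuous_snd)).measurableSet
  set F : ℝ × ℝ → ℝ := fun p => p.1 * h (pt x p.1 p.2) with hF
  have hFc : Continuous F := by rw [hF]; fun_prop
  -- step 1
  have h1 : ∫ z in S, h z = ∫ p in polarCoord.target, W.indicator F p := by
    rw [← MeasureTheory.integral_indicator hS, ← integral_add_left_eq_self _ x,
      ← Complex.integral_comp_polarCoord_symm]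
    apply setIntegral_congr_fun
    · exact polarCoord.open_target.measurableSet
    · rintro ⟨s, θ⟩ hp
      rw [polarCoord_target] at hp
      have hs : 0 < s := hp.1
      have he : x + Complex.polarCoord.symm (s, θ) = pt x s θ := by
        rw [Complex.polarCoord_symm_apply, pt, dir_eq]
      simp only [he]
      by_cases hm : s < R θ
      · have : pt x s θ ∈ S := (hmem θ s hs).2 hm
        rw [indicator_of_mem this, indicator_of_mem (show (s, θ) ∈ W from hm)]
        simp [hF]
      · have : pt x s θ ∉ S := fun hh' => hm ((hmem θ s hs).1 hh')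
        rw [indicator_of_notMem this, indicator_of_notMem (show (s, θ) ∉ W from hm)]
        simp
  -- bound for R
  obtain ⟨M, hM⟩ := (isCompact_Icc (a := -π) (b := π)).bddAbove_image hR.continuousOn
  have hM' : ∀ θ ∈ Icc (-π) π, R θ ≤ M := fun θ hθ => hM ⟨θ, hθ, rfl⟩
  have hK : IntegrableOn F (Icc (0:ℝ) M ×ˢ Icc (-π) π) :=
    hFc.continuousOn.integrableOn_compact (isCompact_Icc.prod isCompact_Icc)
  have hint : IntegrableOn (W.indicator F) (Ioi (0:ℝ) ×ˢ Ioo (-π) π) := by
    rw [integrableOn_indicator_iff hWo]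
    apply hK.mono_set
    rintro ⟨s, θ⟩ ⟨h1, h2, h3⟩
    have h3' : θ ∈ Icc (-π) π := ⟨h3.1.le, h3.2.le⟩
    exact ⟨⟨le_of_lt h2, (le_of_lt h1).trans (hM' θ h3')⟩, h3'⟩
  rw [h1, polarCoord_target]
  have h2 : ∫ p in (Ioi (0:ℝ) ×ˢ Ioo (-π) π), W.indicator F p
      = ∫ θ in Ioo (-π) π, ∫ s in Ioi (0:ℝ), W.indicator F (s, θ) := by
    rw [Measure.volume_eq_prod, ← setIntegral_prod_swap]
    rw [setIntegral_prod]
    · rfl
    · have := hint
      rw [Measure.volume_eq_prod] at this
      exact this.swap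
  rw [h2, intervalIntegral.integral_of_le (by linarith [Real.pi_pos]),
    ← integral_Ioc_eq_integral_Ioo]
  apply setIntegral_congr_fun measurableSet_Ioc
  intro θ _
  simp only
  rw [intervalIntegral.integral_of_le (hR0 θ), integral_Ioc_eq_integral_Ioo]
  have : ∀ s, W.indicator F (s, θ) = (Iio (R θ)).indicator (fun s => F (s, θ)) s := by
    intro s
    by_cases hm : s < R θ
    · rw [indicator_of_mem (show (s, θ) ∈ W from hm), indicator_of_mem (show s ∈ Iio (R θ) from hm)]
    · rw [indicator_of_notMem (show (s, θ) ∉ W from hm),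
        indicator_of_notMem (show s ∉ Iio (R θ) from hm)]
  simp_rw [this]
  rw [setIntegral_indicator measurableSet_Iio, Ioi_inter_Iio]

theorem polar_ball {x : ℂ} {ρ : ℝ} (hρ : 0 ≤ ρ) {h : ℂ → ℝ} (hh : Continuous h) :
    ∫ z in Metric.ball x ρ, h z = ∫ θ in (-π)..π, ∫ s in (0:ℝ)..ρ, s * h (pt x s θ) := by
  exact polar_set Metric.isOpen_ball.measurableSet (R := fun _ => ρ) continuous_const
    (fun _ => hρ) (fun θ s hs => pt_mem_ball hs) hh

end Crest.Agent.R112
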