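import Crest.Agent.R112.KMass

set_option autoImplicit false

namespace Crest.Agent.R112

open MeasureTheory Set Real intervalIntegral

variable {g : ℂ → ℝ}

/-- pointwise trace estimate -/
theorem trace_pointwise (hg : ContDiff ℝ 1 g) (x : ℂ) {ρ : ℝ} (hρ : 0 < ρ) {θ θ' : ℝ}
    (h1 : θ ∈ Icc (-π) π) (h2 : θ' ∈ Icc (-π) π) :
    |g (pt x ρ θ) - g (pt x ρ θ')| ≤
      (∫ s in (ρ/2)..ρ, ‖fderiv ℝ g (pt x s θ)‖) + (∫ s in (ρ/2)..ρ, ‖fderiv ℝ g (pt x s θ')‖)
        + (2 / ρ) * mass g x ρ := by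
  have hc := cont_nfd hg
  set P : ℝ → ℝ := fun θ => ∫ s in (ρ/2)..ρ, ‖fderiv ℝ g (pt x s θ)‖ with hP
  have hrad : ∀ φ s, s ∈ Icc (ρ/2) ρ → |g (pt x ρ φ) - g (pt x s φ)| ≤ P φ := by
    intro φ s hs
    refine (radial_diff hg x φ hs.2).trans ?_
    apply intervalIntegral.integral_mono_interval hs.1 hs.2 le_rfl
    · exact Filter.Eventually.of_forall fun θ => norm_nonneg _
    · exact Continuous.intervalIntegrable (by fun_prop) _ _
  have key : ∀ s ∈ Icc (ρ/2) ρ, |g (pt x ρ θ) - g (pt x ρ θ')| ≤ P θ + P θ' +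
      s * ∫ θ in (-π)..π, ‖fderiv ℝ g (pt x s θ)‖ := by
    intro s hs
    have hs0 : 0 ≤ s := by linarith [hs.1]
    have a1 := abs_le.1 (hrad θ s hs)
    have a2 := abs_le.1 (hrad θ' s hs)
    have a3 : |g (pt x s θ) - g (pt x s θ')| ≤ s * ∫ θ in (-π)..π, ‖fderiv ℝ g (pt x s θ)‖ := by
      rcases le_total θ' θ with h | h
      · exact angular_diff hg x hs0 h2.1 h h1.2
      · rw [abs_sub_comm]
        exact angular_diff hg x hs0 h1.1 h h2.2
    have a3' := abs_le.1 a3
    rw [abs_le]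
    constructor <;> linarith [a1.1, a1.2, a2.1, a2.2, a3'.1, a3'.2]
  -- integrate over s
  have hint : (ρ / 2) * |g (pt x ρ θ) - g (pt x ρ θ')| ≤ (ρ / 2) * (P θ + P θ') + mass g x ρ := by
    have e1 : ∫ s in (ρ/2)..ρ, |g (pt x ρ θ) - g (pt x ρ θ')|
        = (ρ/2) * |g (pt x ρ θ) - g (pt x ρ θ')| := by
      rw [intervalIntegral.integral_const, smul_eq_mul]; ring
    have e2 : ∫ s in (ρ/2)..ρ, (P θ + P θ' +
        s * ∫ θ in (-π)..π, ‖fderiv ℝ g (pt x s θ)‖) =
        (ρ/2) * (P θ + P θ') + ∫ s in (ρ/2)..ρ, s * ∫ θ in (-π)..π, ‖fderiv ℝ g (pt x s θ)‖ := by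
      rw [intervalIntegral.integral_add, intervalIntegral.integral_const, smul_eq_mul]
      · ring
      · exact Continuous.intervalIntegrable (by fun_prop) _ _
      · exact Continuous.intervalIntegrable (by fun_prop) _ _
    have e3 : ∫ s in (ρ/2)..ρ, s * (∫ θ in (-π)..π, ‖fderiv ℝ g (pt x s θ)‖) ≤ mass g x ρ := by
      have e4 : ∫ s in (ρ/2)..ρ, s * (∫ θ in (-π)..π, ‖fderiv ℝ g (pt x s θ)‖)
          = ∫ θ in (-π)..π, ∫ s in (ρ/2)..ρ, s * ‖fderiv ℝ g (pt x s θ)‖ := by
        rw [← MeasureTheory.intervalIntegral_intervalIntegral_swap]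
        · apply intervalIntegral.integral_congr
          intro s _
          simp only
          rw [intervalIntegral.integral_const_mul]
        · have : Continuous (Function.uncurry fun s θ : ℝ => s * ‖fderiv ℝ g (pt x s θ)‖) := by
            fun_prop
          exact (this.continuousOn.integrableOn_compact
            ((isCompact_uIcc (a := ρ/2) (b := ρ)).prod (isCompact_uIcc (a := -π) (b := π)))).mono_set
              (prod_mono uIoc_subset_uIcc uIoc_subset_uIcc)
      rw [e4, ← int_ball_sub hc x (by linarith) hρ.le]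
      have := mass_nonneg (g := g) x (ρ/2)
      unfold mass at *
      linarith
    have e5 : ∫ s in (ρ/2)..ρ, |g (pt x ρ θ) - g (pt x ρ θ')| ≤ ∫ s in (ρ/2)..ρ, (P θ + P θ' +
        s * ∫ θ in (-π)..π, ‖fderiv ℝ g (pt x s θ)‖) := by
      apply intervalIntegral.integral_mono_on (by linarith)
      · exact Continuous.intervalIntegrable (by fun_prop) _ _
      · exact Continuous.intervalIntegrable (by fun_prop) _ _
      · exact key
    rw [e1, e2] at e5
    linarith
  have h3 : |g (pt x ρ θ) - g (pt x ρ θ')| ≤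
      (2 / ρ) * ((ρ / 2) * (P θ + P θ') + mass g x ρ) := by
    calc |g (pt x ρ θ) - g (pt x ρ θ')|
        = (2/ρ) * ((ρ / 2) * |g (pt x ρ θ) - g (pt x ρ θ')|) := by field_simp
      _ ≤ _ := by gcongr
  calc _ ≤ _ := h3
    _ = P θ + P θ' + (2 / ρ) * mass g x ρ := by field_simp

/-- trace inequality against a bounded weight -/
theorem trace_weight (hg : ContDiff ℝ 1 g) (x : ℂ) {ρ : ℝ} (hρ : 0 < ρ)
    {κ : ℝ → ℝ} (hκ : Continuous κ) {κ₀ : ℝ} (hκ0 : ∀ θ, |κ θ| ≤ κ₀) (c : ℝ) :
    |∫ θ in (-π)..π, (g (pt x ρ θ) - c) * κ θ| ≤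
      κ₀ * |∫ θ in (-π)..π, (g (pt x ρ θ) - c)| + 17 * κ₀ / ρ * mass g x ρ := by
  have hc := cont_nfd hg
  have hgc := hg.continuous
  have hpi := Real.pi_pos
  have hκ₀ : 0 ≤ κ₀ := (abs_nonneg _).trans (hκ0 0)
  set m := mass g x ρ with hm
  have hm0 : 0 ≤ m := mass_nonneg x ρ
  set P : ℝ → ℝ := fun θ => ∫ s in (ρ/2)..ρ, ‖fderiv ℝ g (pt x s θ)‖ with hP
  have hPc : Continuous P := by rw [hP]; fun_prop
  set I := ∫ θ in (-π)..π, P θ with hI
  have hIm : I ≤ (2 / ρ) * m := by
    have := ring_le hg x (ρ₁ := ρ/2) (ρ₂ := ρ) (by linarith) (by linarith)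
    have h0 := mass_nonneg (g := g) x (ρ/2)
    have h1 : (ρ/2) * I ≤ m := by
      rw [hI, hP]; linarith
    calc I = (2/ρ) * ((ρ/2) * I) := by field_simp
      _ ≤ (2/ρ) * m := by gcongr
  have hI0 : 0 ≤ I := by
    apply intervalIntegral.integral_nonneg (by linarith)
    intro θ _
    apply intervalIntegral.integral_nonneg (by linarith)
    intro s _
    exact norm_nonneg _
  set G : ℝ → ℝ := fun θ => g (pt x ρ θ) - c with hG
  have hGc : Continuous G := by rw [hG]; fun_prop
  set M := ∫ θ in (-π)..π, G θ with hM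
  -- pointwise distance to the mean
  have hmean : ∀ θ ∈ Icc (-π) π, |G θ - M / (2 * π)| ≤ P θ + I / (2 * π) + (2 / ρ) * m := by
    intro θ hθ
    have e1 : 2 * π * (G θ - M / (2*π)) = ∫ θ' in (-π)..π, (G θ - G θ') := by
      rw [intervalIntegral.integral_sub, intervalIntegral.integral_const, smul_eq_mul, ← hM]
      · field_simp; ring
      · exact Continuous.intervalIntegrable (by fun_prop) _ _
      · exact Continuous.intervalIntegrable (by fun_prop) _ _
    have e2 : |∫ θ' in (-π)..π, (G θ - G θ')| ≤ ∫ θ' in (-π)..π, (P θ + P θ' + (2/ρ) * m) := by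
      apply (intervalIntegral.abs_integral_le_integral_abs (by linarith)).trans
      apply intervalIntegral.integral_mono_on (by linarith)
      · exact Continuous.intervalIntegrable (by fun_prop) _ _
      · exact Continuous.intervalIntegrable (by fun_prop) _ _
      · intro θ' hθ'
        have := trace_pointwise hg x hρ hθ hθ'
        have e : G θ - G θ' = g (pt x ρ θ) - g (pt x ρ θ') := by rw [hG]; ring
        rw [e]; exact this
    have e3 : ∫ θ' in (-π)..π, (P θ + P θ' + (2/ρ) * m) = 2 * π * (P θ + (2/ρ) * m) + I := by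
      have : (fun θ' => P θ + P θ' + (2/ρ) * m) = fun θ' => P θ' + (P θ + (2/ρ)*m) := by
        funext; ring
      rw [this, intervalIntegral.integral_add, intervalIntegral.integral_const, smul_eq_mul, ← hI]
      · ring
      · exact Continuous.intervalIntegrable (by fun_prop) _ _
      · exact Continuous.intervalIntegrable (by fun_prop) _ _
    rw [e3, ← e1, abs_mul, abs_of_pos (by positivity : (0:ℝ) < 2 * π)] at e2
    have : |G θ - M / (2 * π)| ≤ (2 * π * (P θ + (2/ρ) * m) + I) / (2 * π) := by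
      rw [le_div_iff₀ (by positivity)]; linarith
    refine this.trans (le_of_eq ?_)
    field_simp; ring
  have e1 : ∫ θ in (-π)..π, G θ * κ θ = (∫ θ in (-π)..π, (G θ - M/(2*π)) * κ θ)
      + M/(2*π) * ∫ θ in (-π)..π, κ θ := by
    rw [← intervalIntegral.integral_const_mul, ← intervalIntegral.integral_add]
    · apply intervalIntegral.integral_congr
      intro θ _; simp only; ring
    · exact Continuous.intervalIntegrable (by fun_prop) _ _
    · exact Continuous.intervalIntegrable (by fun_prop) _ _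
  have e2 : |∫ θ in (-π)..π, (G θ - M/(2*π)) * κ θ| ≤ κ₀ * (I + I + 2 * π * ((2/ρ) * m)) := by
    apply (intervalIntegral.abs_integral_le_integral_abs (by linarith)).trans
    have e3 : ∫ θ in (-π)..π, |(G θ - M/(2*π)) * κ θ| ≤
        ∫ θ in (-π)..π, κ₀ * (P θ + (I / (2 * π) + (2 / ρ) * m)) := by
      apply intervalIntegral.integral_mono_on (by linarith)
      · exact Continuous.intervalIntegrable (by fun_prop) _ _
      · exact Continuous.intervalIntegrable (by fun_prop) _ _
      · intro θ hθ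
        rw [abs_mul, mul_comm]
        have := hmean θ hθ
        have h2 := hκ0 θ
        apply mul_le_mul h2 (by linarith) (abs_nonneg _) hκ₀
    refine e3.trans (le_of_eq ?_)
    rw [intervalIntegral.integral_const_mul, intervalIntegral.integral_add,
      intervalIntegral.integral_const, smul_eq_mul, ← hI]
    · field_simp; ring
    · exact Continuous.intervalIntegrable (by fun_prop) _ _
    · exact Continuous.intervalIntegrable (by fun_prop) _ _
  have e4 : |∫ θ in (-π)..π, κ θ| ≤ κ₀ * (2 * π) := by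
    apply (intervalIntegral.abs_integral_le_integral_abs (by linarith)).trans
    have : ∫ θ in (-π)..π, |κ θ| ≤ ∫ θ in (-π)..π, κ₀ := by
      apply intervalIntegral.integral_mono_on (by linarith)
      · exact Continuous.intervalIntegrable (by fun_prop) _ _
      · exact Continuous.intervalIntegrable (by fun_prop) _ _
      · intro θ _; exact hκ0 θ
    refine this.trans (le_of_eq ?_)
    rw [intervalIntegral.integral_const, smul_eq_mul]; ring
  change |∫ θ in (-π)..π, G θ * κ θ| ≤ κ₀ * |M| + 17 * κ₀ / ρ * m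
  rw [e1]
  refine (abs_add_le _ _).trans ?_
  rw [abs_mul, abs_div, abs_of_pos (by positivity : (0:ℝ) < 2 * π)]
  have e5 : |M| / (2*π) * |∫ θ in (-π)..π, κ θ| ≤ |M| / (2*π) * (κ₀ * (2 * π)) := by gcongr
  have e6 : |M| / (2*π) * (κ₀ * (2 * π)) = κ₀ * |M| := by field_simp
  have e7 : κ₀ * (I + I + 2 * π * ((2/ρ) * m)) ≤ 17 * κ₀ / ρ * m := by
    have : κ₀ * (I + I + 2 * π * ((2/ρ) * m)) ≤ κ₀ * ((2/ρ)*m + (2/ρ)*m + 2 * 3.15 * ((2/ρ) * m)) := by
      have hpi2 := Real.pi_lt_d2
      have : 0 ≤ (2/ρ) * m := by positivity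
      gcongr
    refine this.trans ?_
    have e : κ₀ * ((2/ρ)*m + (2/ρ)*m + 2 * 3.15 * ((2/ρ) * m)) = 16.6 * (κ₀ / ρ * m) := by ring
    have e' : 17 * κ₀ / ρ * m = 17 * (κ₀ / ρ * m) := by ring
    rw [e, e']
    have : 0 ≤ κ₀ / ρ * m := by positivity
    linarith
  linarith [e2, e5, e6, e7]

end Crest.Agent.R112
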