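import Crest.Agent.R112.WeakA

/-!
# R112 (S0147), module WeakB: weak derivative in the second variable of a function on `ℝ × ℝ`
which is absolutely continuous on almost every line `{y} × ℝ`, with integrable line variation.
-/

set_option autoImplicit false

namespace Crest.Agent.R112

open MeasureTheory Set Filter Topology
open scoped ENNReal NNReal

/-- hypothesis on one line -/
def GoodLine (h : ℝ → ℝ) : Prop :=
  (∀ a b, AbsolutelyContinuousOnInterval h a b) ∧ Tendsto h atTop (𝓝 0)

theorem exists_line_deriv (W : ℝ × ℝ → ℝ) (hW : Measurable W)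
    (hl : ∀ᵐ y : ℝ, GoodLine fun s => W (y, s)) :
    ∃ D : ℝ × ℝ → ℝ, Measurable D ∧ ∀ᵐ y : ℝ, ∀ᵐ s : ℝ, D (y, s) = deriv (fun s => W (y, s)) s := by
  set F : ℕ → ℝ × ℝ → ℝ := fun n p => ((n : ℝ) + 1) * (W (p.1, p.2 + 1 / ((n : ℝ) + 1)) - W p) with hF
  have hFm : ∀ n, Measurable (F n) := by
    intro n
    apply Measurable.const_mul
    apply Measurable.sub _ hW
    apply hW.comp
    exact Measurable.prodMk measurable_fst (measurable_snd.add_const _)
  have hconv : ∀ᵐ y : ℝ, ∀ᵐ s : ℝ,
      Tendsto (fun n => F n (y, s)) atTop (𝓝 (deriv (fun s => W (y, s)) s)) := by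
    filter_upwards [hl] with y hy
    have hbv : LocallyBoundedVariationOn (fun s => W (y, s)) univ := by
      intro a b _ _
      by_cases hab : a ≤ b
      · have := (hy.1 a b).boundedVariationOn
        rw [uIcc_of_le hab] at this
        rwa [univ_inter]
      · rw [Icc_eq_empty hab, inter_empty]
        simp
    filter_upwards [hbv.ae_differentiableAt] with s hs
    have h1 := hs.hasDerivAt.tendsto_slope
    have h2 : Tendsto (fun n : ℕ => s + 1 / ((n : ℝ) + 1)) atTop (𝓝[≠] s) := by
      apply tendsto_nhdsWithin_of_tendsto_nhds_of_eventually_within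
      · have := (tendsto_one_div_add_atTop_nhds_zero_nat (𝕜 := ℝ)).const_add s
        simpa using this
      · exact Eventually.of_forall fun n => by
          have : (0 : ℝ) < 1 / ((n : ℝ) + 1) := by positivity
          simp only [mem_compl_iff, mem_singleton_iff]
          linarith
    have h3 := h1.comp h2
    refine h3.congr fun n => ?_
    have hn : (0 : ℝ) < (n : ℝ) + 1 := by positivity
    simp only [Function.comp, slope_def_field, hF]
    field_simp
    ring
  have hae : ∀ᵐ p : ℝ × ℝ, ∃ l, Tendsto (fun n => F n p) atTop (𝓝 l) := by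
    have hms : MeasurableSet {p : ℝ × ℝ | ∃ l, Tendsto (fun n => F n p) atTop (𝓝 l)} :=
      measurableSet_exists_tendsto hFm
    rw [Measure.volume_eq_prod, Measure.ae_prod_iff_ae_ae hms]
    filter_upwards [hconv] with y hy
    filter_upwards [hy] with s hs
    exact ⟨_, hs⟩
  obtain ⟨D, hD, hDlim⟩ := measurable_limit_of_tendsto_metrizable_ae
    (fun n => (hFm n).aemeasurable) hae
  refine ⟨D, hD, ?_⟩
  rw [Measure.volume_eq_prod] at hDlim
  have h2 := Measure.ae_ae_of_ae_prod hDlim
  filter_upwards [hconv, h2] with y hy hy2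
  filter_upwards [hy, hy2] with s hs hs2
  exact tendsto_nhds_unique hs2 hs

theorem lintegral_line_deriv_le (W : ℝ × ℝ → ℝ) (D : ℝ × ℝ → ℝ) (hD : Measurable D)
    (hDd : ∀ᵐ y : ℝ, ∀ᵐ s : ℝ, D (y, s) = deriv (fun s => W (y, s)) s) :
    ∫⁻ p, ENNReal.ofReal |D p| ≤ ∫⁻ y, eVariationOn (fun s => W (y, s)) univ := by
  rw [Measure.volume_eq_prod, lintegral_prod _ (by fun_prop)]
  apply lintegral_mono_ae
  filter_upwards [hDd] with y hy
  have : ∫⁻ s, ENNReal.ofReal |D (y, s)| = ∫⁻ s, ENNReal.ofReal |deriv (fun s => W (y, s)) s| := by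
    apply lintegral_congr_ae
    filter_upwards [hy] with s hs
    rw [hs]
  rw [this]
  exact lintegral_abs_deriv_le_eVariationOn _

/-- local integrability on strips -/
theorem lintegral_strip_le (W : ℝ × ℝ → ℝ) (hW : Measurable W)
    (hl : ∀ᵐ y : ℝ, GoodLine fun s => W (y, s)) (R : ℝ) :
    ∫⁻ p in (univ ×ˢ Icc (-R) R), ENNReal.ofReal |W p| ≤
      (∫⁻ y, eVariationOn (fun s => W (y, s)) univ) * ENNReal.ofReal (2 * R) := by
  rw [Measure.volume_eq_prod, ← Measure.prod_restrict, Measure.restrict_univ,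
    lintegral_prod _ (by fun_prop)]
  calc ∫⁻ y, ∫⁻ s in Icc (-R) R, ENNReal.ofReal |W (y, s)|
      ≤ ∫⁻ y, ∫⁻ s in Icc (-R) R, eVariationOn (fun s => W (y, s)) univ := by
        apply lintegral_mono_ae
        filter_upwards [hl] with y hy
        exact lintegral_mono fun s => ofReal_abs_le_eVariationOn_of_tendsto hy.2 s
    _ = ∫⁻ y, eVariationOn (fun s => W (y, s)) univ * ENNReal.ofReal (2 * R) := by
        congr 1
        ext y
        rw [setLIntegral_const, Real.volume_Icc]
        congr 2
        ring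
    _ = _ := by
        rw [lintegral_mul_const' _ _ ENNReal.ofReal_ne_top]

theorem integrableOn_of_isCompact (W : ℝ × ℝ → ℝ) (hW : Measurable W)
    (hl : ∀ᵐ y : ℝ, GoodLine fun s => W (y, s))
    (hvar : ∫⁻ y, eVariationOn (fun s => W (y, s)) univ ≠ ⊤) (k : Set (ℝ × ℝ)) (hk : IsCompact k) :
    IntegrableOn W k := by
  obtain ⟨R, hR⟩ := hk.isBounded.subset_closedBall (0 : ℝ × ℝ)
  have hsub : k ⊆ univ ×ˢ Icc (-R) R := by
    intro p hp
    have := hR hp
    rw [mem_closedBall_zero_iff, Prod.norm_def] at this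
    have h2 : |p.2| ≤ R := le_trans (le_max_right _ _) this
    exact ⟨mem_univ _, abs_le.mp h2⟩
  refine IntegrableOn.mono_set ?_ hsub
  refine ⟨hW.aestronglyMeasurable, ?_⟩
  rw [hasFiniteIntegral_iff_norm]
  refine lt_of_le_of_lt (lintegral_strip_le W hW hl R) ?_
  exact ENNReal.mul_lt_top (lt_top_iff_ne_top.mpr hvar) ENNReal.ofReal_lt_top

/-- integration by parts on the plane, in the second variable -/
theorem integral_mul_deriv_snd (W D : ℝ × ℝ → ℝ) (hW : Measurable W) (hD : Measurable D)
    (hl : ∀ᵐ y : ℝ, GoodLine fun s => W (y, s))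
    (hvar : ∫⁻ y, eVariationOn (fun s => W (y, s)) univ ≠ ⊤)
    (hDd : ∀ᵐ y : ℝ, ∀ᵐ s : ℝ, D (y, s) = deriv (fun s => W (y, s)) s)
    (φ φ' : ℝ × ℝ → ℝ) (hφ : Continuous φ) (hφc : HasCompactSupport φ) (hφ' : Continuous φ')
    (hφ'c : HasCompactSupport φ')
    (hd : ∀ y s, HasDerivAt (fun s => φ (y, s)) (φ' (y, s)) s) :
    ∫ p, W p * φ' p = -∫ p, D p * φ p := by
  have hDint : Integrable D := by
    refine ⟨hD.aestronglyMeasurable, ?_⟩
    rw [hasFiniteIntegral_iff_norm]
    exact lt_of_le_of_lt (lintegral_line_deriv_le W D hD hDd) (lt_top_iff_ne_top.mpr hvar)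
  have hWloc : LocallyIntegrable W := locallyIntegrable_iff.mpr
    (integrableOn_of_isCompact W hW hl hvar)
  have i1 : Integrable (fun p => W p * φ' p) := by
    have := hWloc.integrable_smul_right_of_hasCompactSupport hφ' hφ'c
    simpa [smul_eq_mul] using this
  have i2 : Integrable (fun p => D p * φ p) := by
    have := hDint.locallyIntegrable.integrable_smul_right_of_hasCompactSupport hφ hφc
    simpa [smul_eq_mul] using this
  obtain ⟨R, hR⟩ := hφc.isBounded.subset_closedBall (0 : ℝ × ℝ)
  have hzero : ∀ y s : ℝ, R < |s| → φ (y, s) = 0 := by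
    intro y s hs
    by_contra hne
    have h1 : (y, s) ∈ tsupport φ := subset_tsupport _ (by simpa [Function.mem_support] using hne)
    have h2 := hR h1
    rw [mem_closedBall_zero_iff, Prod.norm_def] at h2
    have h3 : |s| ≤ R := le_trans (le_max_right _ _) h2
    linarith
  have hzero' : ∀ y s : ℝ, R < |s| → φ' (y, s) = 0 := by
    intro y s hs
    have h1 : (fun s => φ (y, s)) =ᶠ[𝓝 s] fun _ => (0 : ℝ) := by
      have : ∀ᶠ t in 𝓝 s, R < |t| := (continuous_abs.tendsto s).eventually (lt_mem_nhds hs)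
      filter_upwards [this] with t ht
      exact hzero y t ht
    have h2 := (hd y s).congr_of_eventuallyEq h1.symm
    have h3 : HasDerivAt (fun _ : ℝ => (0 : ℝ)) 0 s := hasDerivAt_const s 0
    exact h2.unique h3
  rw [Measure.volume_eq_prod] at *
  rw [integral_prod _ i1, integral_prod _ i2, ← integral_neg]
  apply integral_congr_ae
  filter_upwards [hl, hDd] with y hy hyD
  set R' : ℝ := max R 0 + 1 with hR'
  have hR'R : R < R' := by rw [hR']; linarith [le_max_left R 0]
  have hR'0 : 0 < R' := by rw [hR']; linarith [le_max_right R 0]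
  have e1 : ∫ s, W (y, s) * φ' (y, s) = ∫ s in (-R')..R', W (y, s) * φ' (y, s) := by
    rw [intervalIntegral.integral_of_le (by linarith), ← integral_Icc_eq_integral_Ioc]
    symm
    apply setIntegral_eq_integral_of_forall_compl_eq_zero
    intro s hs
    rw [hzero' y s, mul_zero]
    by_contra hcon
    push Not at hcon
    exact hs ⟨by linarith [neg_abs_le s], by linarith [le_abs_self s]⟩
  have e2 : ∫ s, D (y, s) * φ (y, s) = ∫ s in (-R')..R', D (y, s) * φ (y, s) := by
    rw [intervalIntegral.integral_of_le (by linarith), ← integral_Icc_eq_integral_Ioc]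
    symm
    apply setIntegral_eq_integral_of_forall_compl_eq_zero
    intro s hs
    rw [hzero y s, mul_zero]
    by_contra hcon
    push Not at hcon
    exact hs ⟨by linarith [neg_abs_le s], by linarith [le_abs_self s]⟩
  have hcl : Continuous fun s => φ' (y, s) := hφ'.comp (by fun_prop)
  have hφAC : AbsolutelyContinuousOnInterval (fun s => φ (y, s)) (-R') R' := by
    obtain ⟨M, hM⟩ := hφ'c.exists_bound_of_continuous hφ'
    have hlip : LipschitzWith (Real.toNNReal M) (fun s => φ (y, s)) := by
      apply lipschitzWith_of_nnnorm_deriv_le (fun s => (hd y s).differentiableAt)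
      intro s
      rw [(hd y s).deriv]
      rw [← NNReal.coe_le_coe, coe_nnnorm]
      exact le_trans (hM _) (Real.le_coe_toNNReal M)
    exact (hlip.lipschitzOnWith (s := uIcc (-R') R')).absolutelyContinuousOnInterval
  have key := (hy.1 (-R') R').integral_mul_deriv_eq_deriv_mul hφAC
  have hb1 : φ (y, R') = 0 := hzero y R' (by rw [abs_of_pos hR'0]; exact hR'R)
  have hb2 : φ (y, -R') = 0 := hzero y (-R') (by rw [abs_neg, abs_of_pos hR'0]; exact hR'R)
  simp only [hb1, hb2, mul_zero, sub_zero, zero_sub] at key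
  rw [e1, e2]
  have k1 : ∫ s in (-R')..R', W (y, s) * deriv (fun s => φ (y, s)) s =
      ∫ s in (-R')..R', W (y, s) * φ' (y, s) := by
    congr 1
    ext s
    rw [(hd y s).deriv]
  have k2 : ∫ s in (-R')..R', deriv (fun s => W (y, s)) s * φ (y, s) =
      ∫ s in (-R')..R', D (y, s) * φ (y, s) := by
    apply intervalIntegral.integral_congr_ae
    filter_upwards [hyD] with s hs _
    rw [hs]
  rw [← k1, ← k2]
  exact key

end Crest.Agent.R112
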