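import Crest.Agent.R112.Lines0
import Crest.Agent.R112.AC1D
import Crest.Agent.R112.WeakB

/-! R112: one good horizontal line. -/

set_option autoImplicit false

namespace Crest.Agent.R112

open MeasureTheory Set Filter Topology Metric
open scoped ENNReal NNReal

/-- the statement of CORE2 -/
def CORE2 (C : ℝ≥0) : Prop := ∀ f, Nice f → ∃ W : ℝ → ℝ≥0∞, Measurable W ∧
  (∀ y, eVariationOn (fun s : ℝ => Mz f ⟨s, y⟩) univ ≤ W y) ∧
  ∫⁻ y, W y ≤ C * ∫⁻ z, ‖fderiv ℝ f z‖ₑ

theorem tendsto_A_abs {F : ℂ → ℝ} (hF : Integrable F) {φ : ℕ → ℂ → ℝ} (hφ : ∀ n, Nice (φ n))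
    (hFφ : Tendsto (fun n => ∫ z, |φ n z - F z|) atTop (𝓝 0)) {r : ℝ} (hr : 0 < r) (z : ℂ) :
    Tendsto (fun n => A (fun w => |φ n w|) r z) atTop (𝓝 (A (fun w => |F w|) r z)) := by
  rw [tendsto_iff_dist_tendsto_zero]
  have h1 := hFφ.const_mul (1 / (Real.pi * r ^ 2))
  rw [mul_zero] at h1
  apply squeeze_zero (fun _ => dist_nonneg) (fun n => ?_) h1
  rw [Real.dist_eq]
  refine (A_abs_diff (hφ n).integrable hF hr z).trans ?_
  exact A_abs_int_le ((hφ n).integrable.sub hF) hr z

theorem A_abs_shift_lim {F : ℂ → ℝ} (hF : Integrable F) {φ : ℕ → ℂ → ℝ} (hφ : ∀ n, Nice (φ n))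
    (hFφ : Tendsto (fun n => ∫ z, |φ n z - F z|) atTop (𝓝 0)) {K : ℝ}
    (hK : ∀ n, ∫ z, ‖fderiv ℝ (φ n) z‖ ≤ K) {r : ℝ} (hr : 0 < r) (z z' : ℂ) :
    |A (fun w => |F w|) r z - A (fun w => |F w|) r z'| ≤
      ‖z - z'‖ * ((1 / (Real.pi * r ^ 2)) * K) := by
  have h1 := ((tendsto_A_abs hF hφ hFφ hr z).sub (tendsto_A_abs hF hφ hFφ hr z')).abs
  apply le_of_tendsto' h1
  intro n
  refine (A_abs_shift (hφ n) hr z z').trans ?_
  have := hK n
  gcongr

/-- limit of nice functions on a line -/
theorem ac_limit {q : ℕ → ℝ → ℝ} {D : ℕ → ℝ → ℝ} (hD : ∀ k, Continuous (D k))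
    (hint : ∀ k, Integrable (D k)) (hder : ∀ k a b, q k b - q k a = ∫ s in a..b, D k s)
    (hsum : Summable fun k => ∫ s, |D k s|) (hq : ∀ s, Summable fun k => q k s) (a b : ℝ) :
    AbsolutelyContinuousOnInterval (fun s => ∑' k, q k s) a b := by
  set H : ℝ → ℝ := fun s => ∑' k, D k s with hH
  have hfin : ∫⁻ s, ∑' k, ‖D k s‖ₑ ≠ ⊤ := by
    rw [lintegral_tsum (fun k => (hD k).measurable.enorm.aemeasurable)]
    have h1 : ∀ k, ∫⁻ s, ‖D k s‖ₑ = ENNReal.ofReal (∫ s, |D k s|) := by
      intro k
      rw [← ofReal_integral_norm_eq_lintegral_enorm (hint k)]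
      rfl
    simp only [h1]
    rw [← ENNReal.ofReal_tsum_of_nonneg (fun k => integral_nonneg fun _ => abs_nonneg _) hsum]
    exact ENNReal.ofReal_ne_top
  have hHint : Integrable H := by
    have hm : Measurable (fun s => ∑' k, ‖D k s‖ₑ) := by
      apply Measurable.tsum
      intro k
      exact (hD k).measurable.enorm
    have hae : ∀ᵐ s, Summable fun k => D k s := by
      filter_upwards [ae_lt_top hm hfin] with s hs
      have h2 : Summable fun k => ‖D k s‖ := by
        have h3 : (∑' k, ENNReal.ofReal ‖D k s‖) ≠ ⊤ := by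
          simp only [ofReal_norm]
          exact hs.ne
        have h4 := ENNReal.summable_toReal h3
        simpa only [ENNReal.toReal_ofReal (norm_nonneg _)] using h4
      exact h2.of_norm
    constructor
    · apply aestronglyMeasurable_of_tendsto_ae atTop
        (f := fun n : ℕ => fun s => ∑ k ∈ Finset.range n, D k s)
      · intro n
        exact (continuous_finsetSum _ fun k _ => hD k).aestronglyMeasurable
      · filter_upwards [hae] with s hs
        exact hs.hasSum.tendsto_sum_nat
    · rw [hasFiniteIntegral_iff_enorm]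
      refine lt_of_le_of_lt (lintegral_mono fun s => ?_) hfin.lt_top
      exact enorm_tsum_le_tsum_enorm
  have hkey : ∀ a b : ℝ, a ≤ b → (∑' k, q k b) - (∑' k, q k a) = ∫ s in a..b, H s := by
    intro a b hab
    rw [← (hq b).tsum_sub (hq a)]
    have h1 : HasSum (fun k => ∫ s in Ioc a b, D k s) (∫ s in Ioc a b, ∑' k, D k s) := by
      apply hasSum_integral_of_summable_integral_norm
      · intro k
        exact (hint k).integrableOn
      · apply Summable.of_nonneg_of_le (fun k => integral_nonneg fun _ => norm_nonneg _) _ hsum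
        intro k
        exact setIntegral_le_integral (hint k).norm (Eventually.of_forall fun _ => norm_nonneg _)
    rw [intervalIntegral.integral_of_le hab, ← h1.tsum_eq]
    congr 1
    ext k
    rw [hder k a b, intervalIntegral.integral_of_le hab]
  have hkey2 : ∀ s, (∑' k, q k s) = (∑' k, q k 0) + ∫ t in (0:ℝ)..s, H t := by
    intro s
    rcases le_total 0 s with h | h
    · rw [← hkey 0 s h]; ring
    · rw [intervalIntegral.integral_symm, ← hkey s 0 h]; ring
  set R := |a| + |b| with hR
  have hRa : -R ≤ a ∧ a ≤ R := by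
    constructor
    · have := neg_abs_le a; have := abs_nonneg b; linarith
    · have := le_abs_self a; have := abs_nonneg b; linarith
  have hRb : -R ≤ b ∧ b ≤ R := by
    constructor
    · have := neg_abs_le b; have := abs_nonneg a; linarith
    · have := le_abs_self b; have := abs_nonneg a; linarith
  have hR0 : 0 ≤ R := by positivity
  have h1 : AbsolutelyContinuousOnInterval (fun s => ∫ t in (0:ℝ)..s, H t) (-R) R := by
    apply (hHint.intervalIntegrable).absolutelyContinuousOnInterval_intervalIntegral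
    rw [uIcc_of_le (by linarith)]
    constructor <;> linarith
  have h2 : AbsolutelyContinuousOnInterval (fun s => ∫ t in (0:ℝ)..s, H t) a b := by
    apply h1.mono
    apply uIcc_subset_uIcc
    · rw [uIcc_of_le (by linarith)]; exact hRa
    · rw [uIcc_of_le (by linarith)]; exact hRb
  have h3 : AbsolutelyContinuousOnInterval (fun _ : ℝ => ∑' k, q k 0) a b :=
    (LipschitzWith.const _).lipschitzOnWith.absolutelyContinuousOnInterval
  have h4 := h3.fun_add h2
  have h5 : (fun s => ∑' k, q k s) = fun s => (∑' k, q k 0) + ∫ t in (0:ℝ)..s, H t := by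
    ext s
    exact hkey2 s
  rw [h5]
  exact h4

end Crest.Agent.R112
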