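import Crest.Agent.R112.Lines1

/-! R112: one good horizontal line, main lemma. -/

set_option autoImplicit false

namespace Crest.Agent.R112

open MeasureTheory Set Filter Topology Metric
open scoped ENNReal NNReal

theorem line_good {F : ℂ → ℝ} (hF : Integrable F) {φ : ℕ → ℂ → ℝ} (hφ : ∀ n, Nice (φ n))
    (hFφ : Tendsto (fun n => ∫ z, |φ n z - F z|) atTop (𝓝 0)) {K : ℝ}
    (hK : ∀ n, ∫ z, ‖fderiv ℝ (φ n) z‖ ≤ K) (y : ℝ) {w : ℕ → ℝ} (hw : Summable w)
    (hwM : ∀ n s, Mz (fun z => φ (n + 1) z - φ n z) ⟨s, y⟩ ≤ w n)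
    (hJ : Summable fun n => ∫ s : ℝ, |fderiv ℝ (fun z => φ (n + 1) z - φ n z) ⟨s, y⟩ 1|)
    (hV : liminf (fun n => eVariationOn (fun s : ℝ => Mz (φ n) ⟨s, y⟩) univ) atTop < ⊤) :
    (∀ s : ℝ, Mc F ⟨s, y⟩ < ⊤) ∧ GoodLine (fun s => (Mc F ⟨s, y⟩).toReal) ∧
    eVariationOn (fun s => (Mc F ⟨s, y⟩).toReal) univ ≤
      liminf (fun n => eVariationOn (fun s : ℝ => Mz (φ n) ⟨s, y⟩) univ) atTop := by
  have hpi := Real.pi_pos
  set g : ℕ → ℂ → ℝ := fun n z => φ (n + 1) z - φ n z with hgdef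
  have hg : ∀ n, Nice (g n) := fun n => (hφ (n + 1)).sub (hφ n)
  have hw0 : ∀ n, 0 ≤ w n := fun n => (Mz_nonneg (hg n) _).trans (hwM n 0)
  set η : ℕ → ℝ := fun n => ∑' k, w (k + n) with hη
  have hηlim : Tendsto η atTop (𝓝 0) := tendsto_sum_nat_add w
  have hη0 : ∀ n, 0 ≤ η n := fun n => tsum_nonneg fun k => hw0 _
  have hηsum : ∀ n m, ∑ k ∈ Finset.range m, w (k + n) ≤ η n := by
    intro n m
    exact Summable.sum_le_tsum _ (fun k _ => hw0 _) ((summable_nat_add_iff n).2 hw)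
  have hcont : ∀ n, Continuous (φ n) := fun n => (hφ n).continuous
  have hline : Continuous (fun s : ℝ => (⟨s, y⟩ : ℂ)) := by
    have : (fun s : ℝ => (⟨s, y⟩ : ℂ)) = fun s : ℝ => (s : ℂ) + y * Complex.I := by
      ext s
      exact Complex.mk_eq_add_mul_I s y
    rw [this]
    fun_prop
  have hdist : ∀ s t : ℝ, ‖(⟨s, y⟩ : ℂ) - ⟨t, y⟩‖ = |s - t| := by
    intro s t
    have : (⟨s, y⟩ : ℂ) - ⟨t, y⟩ = ((s - t : ℝ) : ℂ) := by
      apply Complex.ext <;> simp
    rw [this, Complex.norm_real, Real.norm_eq_abs]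
  -- (c1)
  have c1 : ∀ n (r : ℝ), 0 < r → ∀ s : ℝ,
      |A (fun w => |F w|) r ⟨s, y⟩ - A (fun w => |φ n w|) r ⟨s, y⟩| ≤ η n := by
    intro n r hr s
    have step : ∀ m, |A (fun w => |φ (m + n) w|) r ⟨s, y⟩ - A (fun w => |φ n w|) r ⟨s, y⟩|
        ≤ ∑ k ∈ Finset.range m, w (k + n) := by
      intro m
      induction m with
      | zero => simp
      | succ m ih =>
        rw [Finset.sum_range_succ]
        have h1 := A_abs_diff (hφ (m + n + 1)).integrable (hφ (m + n)).integrable hr (⟨s, y⟩ : ℂ)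
        have h2 := A_abs_le_Mz (hg (m + n)) hr.le (⟨s, y⟩ : ℂ)
        have h3 := hwM (m + n) s
        have h4 : m + 1 + n = m + n + 1 := by ring
        rw [h4]
        simp only [hgdef] at h2
        have h5 := abs_sub_le (A (fun w => |φ (m + n + 1) w|) r ⟨s, y⟩)
          (A (fun w => |φ (m + n) w|) r ⟨s, y⟩) (A (fun w => |φ n w|) r ⟨s, y⟩)
        linarith
    have h1 : Tendsto (fun m => |A (fun w => |φ (m + n) w|) r ⟨s, y⟩ -
        A (fun w => |φ n w|) r ⟨s, y⟩|) atTop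
        (𝓝 |A (fun w => |F w|) r ⟨s, y⟩ - A (fun w => |φ n w|) r ⟨s, y⟩|) := by
      apply Tendsto.abs
      apply Tendsto.sub _ tendsto_const_nhds
      exact (tendsto_A_abs hF hφ hFφ hr _).comp (tendsto_add_atTop_nat n)
    exact le_of_tendsto' h1 fun m => (step m).trans (hηsum n m)
  -- (c2)
  have c2a : ∀ n s, Mc F ⟨s, y⟩ ≤ ENNReal.ofReal (Mz (φ n) ⟨s, y⟩ + η n) := by
    intro n s
    apply iSup₂_le
    intro r hr
    apply ENNReal.ofReal_le_ofReal
    have h1 := (abs_le.1 (c1 n r hr s)).2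
    have h2 := A_abs_le_Mz (hφ n) hr.le (⟨s, y⟩ : ℂ)
    linarith
  have hfin : ∀ s : ℝ, Mc F ⟨s, y⟩ < ⊤ := fun s =>
    lt_of_le_of_lt (c2a 0 s) ENNReal.ofReal_lt_top
  set v : ℝ → ℝ := fun s => (Mc F ⟨s, y⟩).toReal with hv
  have hv0 : ∀ s, 0 ≤ v s := fun s => ENNReal.toReal_nonneg
  have hAv : ∀ (r : ℝ), 0 < r → ∀ s, A (fun w => |F w|) r ⟨s, y⟩ ≤ v s := by
    intro r hr s
    have h1 : ENNReal.ofReal (A (fun w => |F w|) r ⟨s, y⟩) ≤ Mc F ⟨s, y⟩ :=
      le_iSup₂ (f := fun (r : ℝ) (_ : 0 < r) => ENNReal.ofReal (A (fun w => |F w|) r ⟨s, y⟩)) r hr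
    have h2 := ENNReal.toReal_mono (hfin s).ne h1
    rwa [ENNReal.toReal_ofReal (A_abs_nonneg _ _ _)] at h2
  have hvle : ∀ s B, (∀ r : ℝ, 0 < r → A (fun w => |F w|) r ⟨s, y⟩ ≤ B) → v s ≤ B := by
    intro s B hB
    have hB0 : 0 ≤ B := (A_abs_nonneg F 1 _).trans (hB 1 one_pos)
    apply ENNReal.toReal_le_of_le_ofReal hB0
    apply iSup₂_le
    intro r hr
    exact ENNReal.ofReal_le_ofReal (hB r hr)
  have c2b : ∀ n s, v s ≤ Mz (φ n) ⟨s, y⟩ + η n := by
    intro n s
    apply hvle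
    intro r hr
    have h1 := (abs_le.1 (c1 n r hr s)).2
    have h2 := A_abs_le_Mz (hφ n) hr.le (⟨s, y⟩ : ℂ)
    linarith
  have c2c : ∀ n s, Mz (φ n) ⟨s, y⟩ ≤ v s + η n := by
    intro n s
    obtain ⟨Kn, hKn⟩ := (hφ n).lipschitz
    apply Mz_le
    intro r hr
    rcases hr.eq_or_lt with h0 | h0
    · rw [← h0]
      apply le_of_forall_pos_le_add
      intro ε hε
      set r' : ℝ := ε / (Kn + 1) with hr'
      have hKn0 : (0:ℝ) ≤ Kn := Kn.2
      have hr'0 : 0 < r' := by positivity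
      have h1 := (abs_le.1 (A_abs_sub_le (hφ n) hKn 0 r' (⟨s, y⟩ : ℂ) ⟨s, y⟩)).2
      have h2 := (abs_le.1 (c1 n r' hr'0 s)).1
      have h3 := hAv r' hr'0 s
      rw [sub_self, norm_zero, zero_add, zero_sub, abs_neg, abs_of_pos hr'0] at h1
      have h4 : (Kn : ℝ) * r' ≤ ε := by
        rw [hr']
        have : (Kn : ℝ) * (ε / (Kn + 1)) = ε * (Kn / (Kn + 1)) := by ring
        rw [this]
        apply mul_le_of_le_one_right hε.le
        rw [div_le_one (by positivity)]
        linarith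
      linarith
    · have h2 := (abs_le.1 (c1 n r h0 s)).1
      have h3 := hAv r h0 s
      linarith
  have c2 : ∀ n s, |v s - Mz (φ n) ⟨s, y⟩| ≤ η n := by
    intro n s
    rw [abs_le]
    constructor
    · linarith [c2c n s]
    · linarith [c2b n s]
  -- (c3)
  have hunif : TendstoUniformly (fun n (s : ℝ) => Mz (φ n) ⟨s, y⟩) v atTop := by
    rw [Metric.tendstoUniformly_iff]
    intro ε hε
    filter_upwards [hηlim.eventually (gt_mem_nhds hε)] with n hn s
    rw [Real.dist_eq]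
    exact lt_of_le_of_lt (c2 n s) hn
  have hvc : Continuous v := by
    apply hunif.continuous
    apply Frequently.of_forall
    intro n
    exact (continuous_Mz (hφ n)).comp hline
  have hvlim : Tendsto v atTop (𝓝 0) := by
    rw [Metric.tendsto_nhds]
    intro ε hε
    obtain ⟨n, hn⟩ := (hηlim.eventually (gt_mem_nhds (half_pos hε))).exists
    have h1 := (Mz_tendsto (hφ n) y).eventually (gt_mem_nhds (half_pos hε))
    filter_upwards [h1] with s hs
    rw [Real.dist_eq, sub_zero, abs_of_nonneg (hv0 s)]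
    linarith [c2b n s]
  have hvar : eVariationOn v univ ≤
      liminf (fun n => eVariationOn (fun s : ℝ => Mz (φ n) ⟨s, y⟩) univ) atTop := by
    apply le_of_forall_lt
    intro c hc
    obtain ⟨c', hc', hc''⟩ := exists_between hc
    have h1 : ∀ᶠ n in atTop, c' < eVariationOn (fun s : ℝ => Mz (φ n) ⟨s, y⟩) univ := by
      apply eVariationOn.lowerSemicontinuous_aux _ hc''
      intro s _
      exact hunif.tendsto_at s
    refine lt_of_lt_of_le hc' ?_
    apply le_liminf_of_le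
    · isBoundedDefault
    · filter_upwards [h1] with n hn
      exact hn.le
  refine ⟨hfin, ⟨?_, hvlim⟩, hvar⟩
  -- (c4)
  have hgw : ∀ n (s : ℝ), |g n ⟨s, y⟩| ≤ w n := fun n s => (abs_le_Mz (hg n) _).trans (hwM n s)
  have hsumg : ∀ s : ℝ, Summable fun n => g n ⟨s, y⟩ := by
    intro s
    apply Summable.of_norm_bounded hw
    intro n
    rw [Real.norm_eq_abs]
    exact hgw n s
  set p : ℝ → ℝ := fun s => φ 0 ⟨s, y⟩ + ∑' n, g n ⟨s, y⟩ with hp
  have hpφ : ∀ n s, |p s - φ n ⟨s, y⟩| ≤ η n := by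
    intro n s
    have h1 : φ n ⟨s, y⟩ = φ 0 ⟨s, y⟩ + ∑ k ∈ Finset.range n, g k ⟨s, y⟩ := by
      rw [Finset.sum_range_sub (fun k => φ k ⟨s, y⟩)]
      ring
    have h2 : p s - φ n ⟨s, y⟩ = ∑' k, g (k + n) ⟨s, y⟩ := by
      rw [h1, hp]
      have := (hsumg s).sum_add_tsum_nat_add n
      simp only
      linarith
    rw [h2]
    have h3 : Summable fun k => w (k + n) := (summable_nat_add_iff n).2 hw
    have h4 : Summable fun k => ‖g (k + n) ⟨s, y⟩‖ := by
      apply Summable.of_nonneg_of_le (fun _ => norm_nonneg _) (fun k => ?_) h3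
      exact hgw _ _
    calc |∑' k, g (k + n) ⟨s, y⟩| = ‖∑' k, g (k + n) ⟨s, y⟩‖ := rfl
      _ ≤ ∑' k, ‖g (k + n) ⟨s, y⟩‖ := norm_tsum_le_tsum_norm h4
      _ ≤ ∑' k, w (k + n) := h4.tsum_le_tsum (fun k => hgw _ _) h3
  have hder : ∀ k (a b : ℝ), g k ⟨b, y⟩ - g k ⟨a, y⟩ =
      ∫ s in a..b, fderiv ℝ (g k) ⟨s, y⟩ 1 := by
    intro k a b
    have hd : ∀ s : ℝ, HasDerivAt (fun s : ℝ => g k ⟨s, y⟩) (fderiv ℝ (g k) ⟨s, y⟩ 1) s := by
      intro s
      have h1 : HasDerivAt (fun s : ℝ => (⟨s, y⟩ : ℂ)) 1 s := by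
        have : (fun s : ℝ => (⟨s, y⟩ : ℂ)) = fun s : ℝ => (s : ℂ) + y * Complex.I := by
          ext s
          exact Complex.mk_eq_add_mul_I s y
        rw [this]
        exact (Complex.ofRealCLM.hasDerivAt).add_const _
      exact (((hg k).differentiable _).hasFDerivAt).comp_hasDerivAt s h1
    have hc : Continuous (fun s : ℝ => fderiv ℝ (g k) ⟨s, y⟩ 1) :=
      ((hg k).continuous_fderiv.comp hline).clm_apply continuous_const
    exact (intervalIntegral.integral_eq_sub_of_hasDerivAt (fun t _ => hd t)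
      (hc.intervalIntegrable _ _)).symm
  have hDc : ∀ k, Continuous (fun s : ℝ => fderiv ℝ (g k) ⟨s, y⟩ 1) := fun k =>
    ((hg k).continuous_fderiv.comp hline).clm_apply continuous_const
  have hDint : ∀ k, Integrable (fun s : ℝ => fderiv ℝ (g k) ⟨s, y⟩ 1) := by
    intro k
    apply (hDc k).integrable_of_hasCompactSupport
    obtain ⟨R, hR⟩ := (hg k).hasCompactSupport_fderiv.isCompact.isBounded.subset_ball 0
    apply HasCompactSupport.of_support_subset_isCompact (isCompact_Icc (a := -R) (b := R))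
    intro s hs
    have h1 : fderiv ℝ (g k) ⟨s, y⟩ ≠ 0 := by
      intro h
      apply hs
      simp [h]
    have h2 := hR (subset_tsupport _ h1)
    rw [mem_ball, dist_zero_right] at h2
    have h3 := Complex.abs_re_le_norm (⟨s, y⟩ : ℂ)
    simp only at h3
    rw [mem_Icc, ← abs_le]
    linarith
  have hpac : ∀ a b, AbsolutelyContinuousOnInterval p a b := by
    intro a b
    have h1 := ac_limit (q := fun k s => g k ⟨s, y⟩) (D := fun k s => fderiv ℝ (g k) ⟨s, y⟩ 1)
      hDc hDint hder hJ hsumg a b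
    obtain ⟨K0, hK0⟩ := (hφ 0).lipschitz
    have h2 : LipschitzWith K0 (fun s : ℝ => φ 0 ⟨s, y⟩) := by
      apply LipschitzWith.of_dist_le_mul
      intro s t
      have := hK0.dist_le_mul ⟨s, y⟩ ⟨t, y⟩
      rw [dist_eq_norm, dist_eq_norm, hdist] at this
      rw [Real.dist_eq, Real.dist_eq]
      exact this
    exact (h2.lipschitzOnWith.absolutelyContinuousOnInterval).fun_add h1
  set h : ℝ → ℝ := fun s => |p s| with hh
  have hhac : ∀ a b, AbsolutelyContinuousOnInterval h a b := by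
    intro a b
    have hlip : LipschitzWith 1 (fun x : ℝ => |x|) := by
      intro x y
      rw [edist_dist, edist_dist, ENNReal.coe_one, one_mul]
      apply ENNReal.ofReal_le_ofReal
      rw [Real.dist_eq, Real.dist_eq]
      exact abs_abs_sub_abs_le_abs_sub x y
    have h9 := ac_comp_lip (K := 1) (φ := fun x : ℝ => |x|) (hpac a b) hlip
    exact h9
  have hhφ : ∀ n s, abs (h s - |φ n ⟨s, y⟩|) ≤ η n := by
    intro n s
    exact (abs_abs_sub_abs_le_abs_sub _ _).trans (hpφ n s)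
  have hle : ∀ s, h s ≤ v s := by
    intro s
    have h1 : ∀ n, h s ≤ v s + 2 * η n := by
      intro n
      have := (abs_le.1 (hhφ n s)).2
      have h2 := abs_le_Mz (hφ n) (⟨s, y⟩ : ℂ)
      linarith [c2c n s]
    have h2 : Tendsto (fun n => v s + 2 * η n) atTop (𝓝 (v s + 2 * 0)) :=
      tendsto_const_nhds.add (hηlim.const_mul 2)
    rw [mul_zero, add_zero] at h2
    exact ge_of_tendsto' h2 h1
  have hhc : Continuous h := by
    rw [continuous_iff_continuousAt]
    intro t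
    have := (hhac (t - 1) (t + 1)).continuousOn
    rw [uIcc_of_le (by linarith)] at this
    exact this.continuousAt (Icc_mem_nhds (by linarith) (by linarith))
  have hK0 : 0 ≤ K := (integral_nonneg fun _ => norm_nonneg _).trans (hK 0)
  -- (c5)
  have hloc : ∀ t, h t < v t → ∃ δ > 0, ∃ K' : ℝ≥0, LipschitzOnWith K' v (Icc (t - δ) (t + δ)) := by
    intro t0 ht0
    set γ := (v t0 - h t0) / 8 with hγ
    have hγ0 : 0 < γ := by rw [hγ]; linarith
    obtain ⟨n, hn⟩ := (hηlim.eventually (gt_mem_nhds hγ0)).exists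
    obtain ⟨Kn, hKn⟩ := (hφ n).lipschitz
    have hKn0 : (0:ℝ) ≤ Kn := Kn.2
    set r0 : ℝ := γ / (Kn + 1) with hr0
    have hr00 : 0 < r0 := by positivity
    have hKr : ∀ r, 0 < r → r < r0 → (Kn : ℝ) * r ≤ γ := by
      intro r _ hr
      have h1 : (Kn : ℝ) * r ≤ Kn * r0 := by gcongr
      have h2 : (Kn : ℝ) * r0 ≤ γ := by
        rw [hr0]
        have : (Kn : ℝ) * (γ / (Kn + 1)) = γ * (Kn / (Kn + 1)) := by ring
        rw [this]
        apply mul_le_of_le_one_right hγ0.le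
        rw [div_le_one (by positivity)]
        linarith
      linarith
    have hc1 := Metric.continuous_iff.1 hvc t0 γ hγ0
    have hc2 := Metric.continuous_iff.1 hhc t0 γ hγ0
    obtain ⟨δ1, hδ1, hd1⟩ := hc1
    obtain ⟨δ2, hδ2, hd2⟩ := hc2
    set δ := min δ1 δ2 / 2 with hδ
    have hδ0 : 0 < δ := by positivity
    have hnear : ∀ t ∈ Icc (t0 - δ) (t0 + δ), h t + 3 * γ ≤ v t - 2 * γ := by
      intro t ht
      have h1 : dist t t0 ≤ δ := by
        rw [Real.dist_eq, abs_le]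
        constructor <;> linarith [ht.1, ht.2]
      have h2 := hd1 t (lt_of_le_of_lt h1 (by
        rw [hδ]; have := min_le_left δ1 δ2; linarith))
      have h3 := hd2 t (lt_of_le_of_lt h1 (by
        rw [hδ]; have := min_le_right δ1 δ2; linarith))
      rw [Real.dist_eq, abs_lt] at h2 h3
      have h4 : v t0 - h t0 = 8 * γ := by rw [hγ]; ring
      linarith [h2.1, h3.2]
    set K' : ℝ := (1 / (Real.pi * r0 ^ 2)) * K with hK'
    have hK'0 : 0 ≤ K' := by positivity
    have hmain : ∀ t ∈ Icc (t0 - δ) (t0 + δ), ∀ t' : ℝ, v t ≤ v t' + K' * |t - t'| := by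
      intro t ht t'
      have h1 : v t ≤ max (v t - 2 * γ) (v t' + K' * |t - t'|) := by
        apply hvle
        intro r hr
        rcases lt_or_ge r r0 with h | h'
        · apply le_max_of_le_left
          refine le_trans ?_ (hnear t ht)
          have e1 := (abs_le.1 (c1 n r hr t)).2
          have e2 := (abs_le.1 (A_abs_sub_le (hφ n) hKn r 0 (⟨t, y⟩ : ℂ) ⟨t, y⟩)).2
          rw [sub_self, norm_zero, zero_add, sub_zero, abs_of_pos hr, A_zero] at e2
          have e3 := hKr r hr h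
          have e4 := (abs_le.1 (hhφ n t)).1
          linarith
        · apply le_max_of_le_right
          have e1 := (abs_le.1 (A_abs_shift_lim hF hφ hFφ hK hr (⟨t, y⟩ : ℂ) ⟨t', y⟩)).2
          rw [hdist] at e1
          have e2 := hAv r hr t'
          have e3 : |t - t'| * (1 / (Real.pi * r ^ 2) * K) ≤ K' * |t - t'| := by
            rw [mul_comm, hK']
            gcongr
          linarith
      rcases le_max_iff.1 h1 with h2 | h2
      · linarith
      · exact h2
    refine ⟨δ, hδ0, K'.toNNReal, ?_⟩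
    apply LipschitzOnWith.of_dist_le_mul
    intro t ht t' ht'
    rw [Real.coe_toNNReal _ hK'0, Real.dist_eq, Real.dist_eq, abs_le]
    have h1 := hmain t ht t'
    have h2 := hmain t' ht' t
    rw [abs_sub_comm] at h2
    constructor <;> linarith
  -- (c6)
  have hbv : BoundedVariationOn v univ := (lt_of_le_of_lt hvar hV).ne
  have hint : ∀ a b, IntervalIntegrable (deriv v) volume a b := fun a b =>
    (hbv.mono (subset_univ _)).intervalIntegrable_deriv
  exact ac_upgrade hvc hhac hle hloc hint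

end Crest.Agent.R112
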