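import Crest.Agent.R112.AttPlane
import Crest.Agent.R112.Basic
import Crest.Agent.R112.Detached
import Crest.Agent.R112.Interface

/-!
Row 112 (S0147), module Local: locally detached points in the plane (unit scale, direction `1`).
-/

set_option autoImplicit false

namespace Crest.Agent.R112

open MeasureTheory Set Filter Topology
open scoped NNReal ENNReal

/-- one horizontal line -/
theorem local_line {f : ℂ → ℝ} (hf : Nice f) (τ y : ℝ) {S : Set ℝ}
    (hS1 : S ⊆ Icc (-1) 1)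
    (hS2 : ∀ x ∈ S, ¬ AttR 14 1 f (U f τ) ⟨x, y⟩) :
    (∫⁻ s in S, ENNReal.ofReal (deriv (fun s : ℝ => U f τ (⟨s, y⟩ : ℂ)) s)) +
      ∫⁻ s in Icc (-1 : ℝ) 1, ENNReal.ofReal (-(deriv (fun s : ℝ => U f τ (⟨s, y⟩ : ℂ)) s)) ≤
    2 * (∫⁻ s in Icc (-1 : ℝ) 15,
      ENNReal.ofReal (-(deriv (fun s : ℝ => U f τ (⟨s, y⟩ : ℂ)) s))) +
    ∫⁻ s in Icc (11 : ℝ) 12, ENNReal.ofReal (U f τ (⟨1, y⟩ : ℂ) - f (⟨s, y⟩ : ℂ)) := by
  obtain ⟨K, hK⟩ := hf.lipschitz
  have hU : LipschitzWith K (fun s : ℝ => U f τ (⟨s, y⟩ : ℂ)) := by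
    simpa [Function.comp_def] using (lipschitz_U hf hK τ).comp (line_lipschitz y)
  set P := ∫⁻ s in Icc (-1 : ℝ) 15,
      ENNReal.ofReal (-(deriv (fun s : ℝ => U f τ (⟨s, y⟩ : ℂ)) s)) with hP
  have h2 : ∫⁻ s in Icc (-1 : ℝ) 1,
      ENNReal.ofReal (-(deriv (fun s : ℝ => U f τ (⟨s, y⟩ : ℂ)) s)) ≤ P :=
    lintegral_mono_set (Icc_subset_Icc_right (by norm_num))
  have h1 : ∀ s' ∈ Icc (11 : ℝ) 12,
      ∫⁻ s in S, ENNReal.ofReal (deriv (fun s : ℝ => U f τ (⟨s, y⟩ : ℂ)) s) ≤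
        P + ENNReal.ofReal (U f τ (⟨1, y⟩ : ℂ) - f (⟨s', y⟩ : ℂ)) := by
    intro s' hs'
    have key := locally_detached (U := fun s : ℝ => U f τ (⟨s, y⟩ : ℂ))
      (f := fun s : ℝ => f (⟨s, y⟩ : ℂ)) hU (a := -1) (b := 1) (s := s') (c := 15) (T := 14)
      (by norm_num) (by linarith [hs'.1]) (by linarith [hs'.2]) (by linarith [hs'.2])
    refine le_trans (lintegral_mono_set ?_) key
    intro x hx
    refine ⟨hS1 hx, ?_⟩
    rintro ⟨σ, h1, h2, h3⟩
    apply hS2 x hx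
    have e1 : ∀ t : ℝ, (⟨x, y⟩ : ℂ) + (t : ℂ) * 1 = ⟨x + t, y⟩ := by
      intro t; apply Complex.ext <;> simp
    refine ⟨σ, h1, ?_, fun t ht => ?_⟩
    · rw [e1]; exact h2
    · rw [e1]; exact h3 t ht
  have h3 : ∫⁻ s in S, ENNReal.ofReal (deriv (fun s : ℝ => U f τ (⟨s, y⟩ : ℂ)) s) ≤
      P + ∫⁻ s in Icc (11 : ℝ) 12, ENNReal.ofReal (U f τ (⟨1, y⟩ : ℂ) - f (⟨s, y⟩ : ℂ)) := by
    have hv : volume (Icc (11 : ℝ) 12) = 1 := by
      rw [Real.volume_Icc]; norm_num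
    set X := ∫⁻ s in S, ENNReal.ofReal (deriv (fun s : ℝ => U f τ (⟨s, y⟩ : ℂ)) s) with hX
    calc X = ∫⁻ _s in Icc (11 : ℝ) 12, X := by
          rw [setLIntegral_const, hv, mul_one]
      _ ≤ ∫⁻ s in Icc (11 : ℝ) 12,
          (P + ENNReal.ofReal (U f τ (⟨1, y⟩ : ℂ) - f (⟨s, y⟩ : ℂ))) :=
          setLIntegral_mono' measurableSet_Icc h1
      _ = _ := by
          rw [lintegral_add_left measurable_const, setLIntegral_const, hv, mul_one]
  calc _ ≤ (P + ∫⁻ s in Icc (11 : ℝ) 12,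
        ENNReal.ofReal (U f τ (⟨1, y⟩ : ℂ) - f (⟨s, y⟩ : ℂ))) + P := add_le_add h3 h2
    _ = _ := by rw [two_mul]; ring

/-- locally detached points in the plane -/
theorem LOCAL {f : ℂ → ℝ} (hf : Nice f) (τ : ℝ) {S : Set ℂ} (hS : MeasurableSet S)
    (hS1 : S ⊆ Metric.ball 0 1) (hS2 : ∀ z ∈ S, ¬ AttR 14 1 f (U f τ) z) :
    (∫⁻ z in S, ENNReal.ofReal (fderiv ℝ (U f τ) z 1)) +
      ∫⁻ z in Metric.ball (0 : ℂ) 1, ENNReal.ofReal (-(fderiv ℝ (U f τ) z 1)) ≤ Q τ f := by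
  have hD : Measurable fun z => fderiv ℝ (U f τ) z 1 := measurable_fderiv_apply_const ℝ _ _
  have hB : MeasurableSet (Metric.ball (0 : ℂ) 1) := measurableSet_ball
  have hm1 : Measurable (S.indicator fun z => ENNReal.ofReal (fderiv ℝ (U f τ) z 1)) :=
    hD.ennreal_ofReal.indicator hS
  have hm2 : Measurable ((Metric.ball (0 : ℂ) 1).indicator
      fun z => ENNReal.ofReal (-(fderiv ℝ (U f τ) z 1))) :=
    hD.neg.ennreal_ofReal.indicator hB
  have hm3 : Measurable fun z : ℂ =>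
      S.indicator (fun z => ENNReal.ofReal (fderiv ℝ (U f τ) z 1)) z +
        (Metric.ball (0 : ℂ) 1).indicator
          (fun z => ENNReal.ofReal (-(fderiv ℝ (U f τ) z 1))) z := hm1.add hm2
  rw [← lintegral_indicator hS, ← lintegral_indicator hB, ← lintegral_add_left hm1,
    lint_slice hm3]
  unfold Q
  rw [← lintegral_indicator (μ := volume) (s := Icc (-1 : ℝ) 1) measurableSet_Icc]
  apply lintegral_mono
  intro y
  by_cases hy : y ∈ Icc (-1 : ℝ) 1
  · simp only [indicator_of_mem hy]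
    have hline : Measurable fun s : ℝ => (⟨s, y⟩ : ℂ) := (line_lipschitz y).continuous.measurable
    have hball : ∀ s : ℝ, (⟨s, y⟩ : ℂ) ∈ Metric.ball (0 : ℂ) 1 → s ∈ Icc (-1 : ℝ) 1 := by
      intro s hs
      rw [mem_ball_zero_iff] at hs
      have h3 : |s| ≤ ‖(⟨s, y⟩ : ℂ)‖ := Complex.abs_re_le_norm ⟨s, y⟩
      have := abs_le.mp (h3.trans hs.le)
      exact ⟨this.1, this.2⟩
    have key := local_line hf τ y (S := {s : ℝ | (⟨s, y⟩ : ℂ) ∈ S})
      (fun s hs => hball s (hS1 hs)) (fun s hs => hS2 _ hs)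
    refine le_trans ?_ key
    have hm4 : Measurable fun s : ℝ =>
        S.indicator (fun z => ENNReal.ofReal (fderiv ℝ (U f τ) z 1)) ⟨s, y⟩ := hm1.comp hline
    rw [lintegral_add_left hm4]
    apply add_le_add
    · have hSy : MeasurableSet {s : ℝ | (⟨s, y⟩ : ℂ) ∈ S} := hline hS
      rw [← lintegral_indicator hSy]
      apply lintegral_mono
      intro s
      by_cases hs : (⟨s, y⟩ : ℂ) ∈ S
      · simp only [indicator_of_mem hs]
        rw [indicator_of_mem (show s ∈ {s : ℝ | (⟨s, y⟩ : ℂ) ∈ S} from hs)]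
        exact ofReal_fderiv_one_le _ s y
      · simp only [indicator_of_notMem hs]
        exact bot_le
    · rw [← lintegral_indicator measurableSet_Icc]
      apply lintegral_mono
      intro s
      by_cases hs : (⟨s, y⟩ : ℂ) ∈ Metric.ball (0 : ℂ) 1
      · simp only [indicator_of_mem hs]
        rw [indicator_of_mem (hball s hs)]
        exact ofReal_neg_fderiv_one_le _ s y
      · simp only [indicator_of_notMem hs]
        exact bot_le
  · rw [indicator_of_notMem hy]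
    have hz : ∀ s : ℝ, (⟨s, y⟩ : ℂ) ∉ Metric.ball (0 : ℂ) 1 := by
      intro s hs
      apply hy
      rw [mem_ball_zero_iff] at hs
      have h3 : |y| ≤ ‖(⟨s, y⟩ : ℂ)‖ := Complex.abs_im_le_norm ⟨s, y⟩
      have := abs_le.mp (h3.trans hs.le)
      exact ⟨this.1, this.2⟩
    have : ∀ s : ℝ, (S.indicator (fun z => ENNReal.ofReal (fderiv ℝ (U f τ) z 1)) ⟨s, y⟩ +
        (Metric.ball (0 : ℂ) 1).indicator
          (fun z => ENNReal.ofReal (-(fderiv ℝ (U f τ) z 1))) ⟨s, y⟩) = 0 := by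
      intro s
      rw [indicator_of_notMem (fun h => hz s (hS1 h)), indicator_of_notMem (hz s), add_zero]
    simp only [this, lintegral_zero, le_refl]

end Crest.Agent.R112
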