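import Crest.Agent.R112.UnitPk

/-! R112, section 3, L2: comparison of `U f (1,y)` and `f (s,y)`, `s ∈ [11,12]`. -/

set_option autoImplicit false

namespace Crest.Agent.R112

open MeasureTheory Metric Set Filter Topology

/-- drop along a segment -/
theorem pt_drop {g : ℂ → ℝ} (hg : Nice g) {t c : ℝ} {z ξ : ℂ} (ht : 0 ≤ t) (hc : 0 ≤ c)
    (hc' : c ≤ 9 / 10) (hξ : ‖ξ‖ ≤ 1) :
    g z - g (z + t * (1 + c * ξ)) ≤
      ∫ u in (0 : ℝ)..1, t * bb (fderiv ℝ g (z + u * (t * (1 + c * ξ)))) := by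
  set h : ℂ := t * (1 + c * ξ) with hh
  have hcf := hg.continuous_fderiv
  have hbc : Continuous fun u : ℝ => bb (fderiv ℝ g (z + u * h)) :=
    hg.continuous_bb_fderiv.comp (by fun_prop)
  have hder : ∀ u ∈ uIcc (0 : ℝ) 1, HasDerivAt (fun u : ℝ => -g (z + u * h))
      (-(fderiv ℝ g (z + u * h) h)) u := by
    intro u _
    have a1 : HasDerivAt (fun u : ℝ => z + (u : ℂ) * h) h u := by
      have a0 : HasDerivAt (fun t : ℝ => (t : ℂ)) 1 u := Complex.ofRealCLM.hasDerivAt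
      have := (a0.mul_const h).const_add z
      rw [one_mul] at this
      exact this
    exact ((hg.differentiable _).hasFDerivAt.comp_hasDerivAt u a1).neg
  have hc1 : Continuous fun u : ℝ => -(fderiv ℝ g (z + u * h) h) := by fun_prop
  have h1 := intervalIntegral.integral_eq_sub_of_hasDerivAt hder (hc1.intervalIntegrable _ _)
  simp only [Complex.ofReal_one, one_mul, Complex.ofReal_zero, zero_mul, add_zero] at h1
  have h2 : ∫ u in (0 : ℝ)..1, -(fderiv ℝ g (z + u * h) h) ≤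
      ∫ u in (0 : ℝ)..1, t * bb (fderiv ℝ g (z + u * h)) := by
    apply intervalIntegral.integral_mono_on zero_le_one (hc1.intervalIntegrable _ _)
      ((continuous_const.mul hbc).intervalIntegrable _ _)
    intro u _
    have h3 := mul_le_mul_of_nonneg_left
      (neg_apply_le' (fderiv ℝ g (z + u * h)) hξ hc hc') ht
    have h4 : fderiv ℝ g (z + u * h) h = t * fderiv ℝ g (z + u * h) (1 + c * ξ) := by
      rw [← apply_real_mul, ← hh]
    rw [h4]
    show _ ≤ t * bb (fderiv ℝ g (z + u * h))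
    linarith
  linarith

/-- the measure used in averaging: disc × [0,1] -/
noncomputable def avm : Measure (ℂ × ℝ) :=
  ((volume : Measure ℂ).restrict (ball 0 1)).prod ((volume : Measure ℝ).restrict (Icc 0 1))

instance : IsFiniteMeasure ((volume : Measure ℂ).restrict (ball (0 : ℂ) 1)) :=
  ⟨by rw [Measure.restrict_apply_univ]; exact measure_ball_lt_top⟩

instance : IsFiniteMeasure avm := by unfold avm; infer_instance

theorem avm_univ : avm univ = ENNReal.ofReal Real.pi := by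
  unfold avm
  rw [← univ_prod_univ, Measure.prod_prod, Measure.restrict_apply_univ,
    Measure.restrict_apply_univ, volume_unitBall, Real.volume_Icc]
  norm_num

/-- `A g s z - g (z + 2 s)` is bounded by an average of `bb`. -/
theorem avg_drop {g : ℂ → ℝ} (hg : Nice g) {s : ℝ} (hs : 0 ≤ s) (z : ℂ) :
    ENNReal.ofReal (A g s z - g (z + (2 * s : ℝ))) ≤
    ∫⁻ p : ℂ × ℝ, ENNReal.ofReal (2 * s / Real.pi *
      bb (fderiv ℝ g (z + (s * p.1 + p.2 * ((2 * s : ℝ) * (1 + ((1 / 2 : ℝ) : ℂ) * (-p.1))))))) ∂avm := by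
  obtain ⟨K, hK0, hK⟩ := hg.exists_bound_fderiv
  have hcf := hg.continuous_fderiv
  have hc := hg.continuous
  have hpi := Real.pi_pos
  have hbc : Continuous fun p : ℂ × ℝ => 2 * s / Real.pi *
      bb (fderiv ℝ g (z + (s * p.1 + p.2 * ((2 * s : ℝ) * (1 + ((1 / 2 : ℝ) : ℂ) * (-p.1)))))) :=
    continuous_const.mul (hg.continuous_bb_fderiv.comp (by fun_prop))
  have hbd : ∀ p : ℂ × ℝ, ‖2 * s / Real.pi *
      bb (fderiv ℝ g (z + (s * p.1 + p.2 * ((2 * s : ℝ) * (1 + ((1 / 2 : ℝ) : ℂ) * (-p.1))))))‖ ≤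
      2 * s / Real.pi * (2 * K) := by
    intro p
    rw [Real.norm_eq_abs, abs_of_nonneg (mul_nonneg (by positivity) (bb_nonneg _))]
    apply mul_le_mul_of_nonneg_left _ (by positivity)
    exact le_trans (bb_le _) (by linarith [hK (z + (s * p.1 + p.2 * ((2 * s : ℝ) *
      (1 + ((1 / 2 : ℝ) : ℂ) * (-p.1)))))])
  have hint : Integrable (fun p : ℂ × ℝ => 2 * s / Real.pi *
      bb (fderiv ℝ g (z + (s * p.1 + p.2 * ((2 * s : ℝ) * (1 + ((1 / 2 : ℝ) : ℂ) * (-p.1)))))))
      avm := Integrable.of_bound hbc.aestronglyMeasurable _ (Eventually.of_forall hbd)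
  rw [← ofReal_integral_eq_lintegral_ofReal hint (Eventually.of_forall fun p =>
    mul_nonneg (by positivity) (bb_nonneg _))]
  apply ENNReal.ofReal_le_ofReal
  have hint' := hint
  unfold avm at hint' ⊢
  rw [integral_prod _ hint']
  have h1 : A g s z - g (z + (2 * s : ℝ)) =
      ∫ θ in ball (0 : ℂ) 1, (1 / Real.pi) * (g (z + s * θ) - g (z + (2 * s : ℝ))) := by
    rw [integral_const_mul, integral_sub (integrableOn_disc (by fun_prop))
      (integrableOn_disc (by fun_prop)), mul_sub, disc_const]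
    rfl
  rw [h1]
  apply setIntegral_mono_on (integrableOn_disc (by fun_prop)) hint'.integral_prod_left
    measurableSet_ball
  intro θ hθ
  have h2 := pt_drop hg (t := 2 * s) (c := 1 / 2) (z := z + s * θ) (ξ := -θ) (by linarith)
    (by norm_num) (by norm_num) (by rw [norm_neg]; exact (mem_ball_zero_iff.mp hθ).le)
  have h3 : z + s * θ + ((2 * s : ℝ) : ℂ) * (1 + ((1 / 2 : ℝ) : ℂ) * (-θ)) =
      z + (2 * s : ℝ) := by
    push_cast
    ring
  rw [h3, intervalIntegral.integral_of_le zero_le_one, ← integral_Icc_eq_integral_Ioc] at h2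
  have h4 := mul_le_mul_of_nonneg_left h2 (show 0 ≤ 1 / Real.pi by positivity)
  refine le_trans h4 (le_of_eq ?_)
  rw [← integral_const_mul]
  apply integral_congr_ae
  refine Eventually.of_forall fun u => ?_
  simp only
  rw [← mul_assoc]
  congr 1
  · ring
  · rw [add_assoc]

/-- translation in the plane -/
theorem lint_plane_shift_le (F : ℂ → ENNReal) {R B : Set ℂ} {v : ℂ}
    (h : ∀ z ∈ R, z + v ∈ B) : ∫⁻ z in R, F (z + v) ≤ ∫⁻ z in B, F z := by
  have h1 := (measurePreserving_add_right (volume : Measure ℂ) v).setLIntegral_comp_preimage_emb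
    (measurableEmbedding_addRight v) F B
  rw [← h1]
  exact lintegral_mono_set h

/-- iterated integrals over rectangles -/
theorem lint_rect {F : ℂ → ENNReal} (hF : Measurable F) (a b c d : ℝ) :
    ∫⁻ y in Icc c d, ∫⁻ x in Icc a b, F ⟨x, y⟩ =
    ∫⁻ z in (Complex.measurableEquivRealProd ⁻¹' (Icc a b ×ˢ Icc c d)), F z := by
  have h1 := Complex.volume_preserving_equiv_real_prod.setLIntegral_comp_preimage_emb
    Complex.measurableEquivRealProd.measurableEmbedding
    (fun p : ℝ × ℝ => F ⟨p.1, p.2⟩) (Icc a b ×ˢ Icc c d)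
  have h2 : ∀ z : ℂ, F ⟨(Complex.measurableEquivRealProd z).1,
    (Complex.measurableEquivRealProd z).2⟩ = F z := fun z => rfl
  simp only [h2] at h1
  rw [h1]
  have h3 : (volume : Measure (ℝ × ℝ)).restrict (Icc a b ×ˢ Icc c d) =
      ((volume : Measure ℝ).restrict (Icc a b)).prod ((volume : Measure ℝ).restrict (Icc c d)) := by
    rw [Measure.prod_restrict]
    rfl
  rw [h3, lintegral_prod_symm]
  exact (hF.comp Complex.measurableEquivRealProd.symm.measurable).aemeasurable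

/-- the integrated one step drop -/
theorem step_drop {g : ℂ → ℝ} (hg : Nice g) {s S : ℝ} (hs : 0 ≤ s) (hs' : s ≤ 1) (hS : 0 ≤ S)
    (hS' : S ≤ 1) :
    ∫⁻ y in Icc (-1 : ℝ) 1, ∫⁻ x in Icc (11 : ℝ) 12,
      ENNReal.ofReal (A g s (⟨x, y⟩ - ((S + 2 * s : ℝ) : ℂ)) - g (⟨x, y⟩ - (S : ℂ))) ≤
    ENNReal.ofReal (2 * s * BB g) := by
  have hcf := hg.continuous_fderiv
  have hc := hg.continuous
  have hcA := continuous_A_right hg s
  have hpi := Real.pi_pos
  rw [lint_rect (F := fun z : ℂ => ENNReal.ofReal (A g s (z - ((S + 2 * s : ℝ) : ℂ)) -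
    g (z - (S : ℂ)))) (by
      apply Measurable.ennreal_ofReal
      apply Continuous.measurable
      fun_prop)]
  set R : Set ℂ := Complex.measurableEquivRealProd ⁻¹' (Icc (11 : ℝ) 12 ×ˢ Icc (-1 : ℝ) 1) with hR
  have hRm : MeasurableSet R :=
    Complex.measurableEquivRealProd.measurable (measurableSet_Icc.prod measurableSet_Icc)
  have hRn : ∀ z ∈ R, ‖z‖ ≤ 13 := by
    intro z hz
    have h1 : z.re ∈ Icc (11 : ℝ) 12 ∧ z.im ∈ Icc (-1 : ℝ) 1 := hz
    have h2 := norm_mk_le (s := z.re) (y := z.im) (a := 12) (b := 1)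
      (abs_le.mpr ⟨by linarith [h1.1.1], h1.1.2⟩) (abs_le.mpr ⟨by linarith [h1.2.1], h1.2.2⟩)
    linarith
  have hLB : ∫⁻ z in ball (0 : ℂ) 40, ENNReal.ofReal (bb (fderiv ℝ g z)) =
      ENNReal.ofReal (BB g) := by
    unfold BB
    rw [ofReal_integral_eq_lintegral_ofReal hg.integrable_bb.integrableOn
      (Eventually.of_forall fun _ => bb_nonneg _)]
  have hwn : ∀ p : ℂ × ℝ, p ∈ ball (0 : ℂ) 1 ×ˢ Icc (0 : ℝ) 1 →
      ‖-((S + 2 * s : ℝ) : ℂ) + (s * p.1 + p.2 * ((2 * s : ℝ) * (1 + ((1 / 2 : ℝ) : ℂ) * (-p.1))))‖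
      ≤ 8 := by
    rintro ⟨θ, u⟩ ⟨hθ, hu⟩
    simp only at hθ hu ⊢
    have hθ1 := (mem_ball_zero_iff.mp hθ).le
    have h1 : ‖((S + 2 * s : ℝ) : ℂ)‖ ≤ 3 := by
      rw [Complex.norm_real, Real.norm_eq_abs, abs_of_nonneg (by positivity)]; linarith
    have h2 : ‖(s : ℂ) * θ‖ ≤ 1 := by
      rw [norm_mul, Complex.norm_real, Real.norm_eq_abs, abs_of_nonneg hs]
      nlinarith [norm_nonneg θ]
    have h3 : ‖(1 : ℂ) + ((1 / 2 : ℝ) : ℂ) * (-θ)‖ ≤ 2 := by
      refine le_trans (norm_add_le _ _) ?_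
      rw [norm_one, norm_mul, Complex.norm_real, norm_neg, Real.norm_eq_abs,
        abs_of_nonneg (by norm_num)]
      linarith
    have h4 : ‖(u : ℂ) * ((2 * s : ℝ) * (1 + ((1 / 2 : ℝ) : ℂ) * (-θ)))‖ ≤ 4 := by
      rw [norm_mul, norm_mul, Complex.norm_real, Complex.norm_real, Real.norm_eq_abs,
        Real.norm_eq_abs, abs_of_nonneg hu.1, abs_of_nonneg (by positivity)]
      calc u * (2 * s * ‖(1 : ℂ) + ((1 / 2 : ℝ) : ℂ) * (-θ)‖) ≤ 1 * (2 * 1 * 2) := by
            apply mul_le_mul hu.2 _ (by positivity) zero_le_one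
            apply mul_le_mul (by linarith) h3 (norm_nonneg _) (by norm_num)
        _ = 4 := by norm_num
    calc _ ≤ ‖-((S + 2 * s : ℝ) : ℂ)‖ + ‖(s : ℂ) * θ +
          (u : ℂ) * ((2 * s : ℝ) * (1 + ((1 / 2 : ℝ) : ℂ) * (-θ)))‖ := norm_add_le _ _
      _ ≤ ‖-((S + 2 * s : ℝ) : ℂ)‖ + (‖(s : ℂ) * θ‖ +
          ‖(u : ℂ) * ((2 * s : ℝ) * (1 + ((1 / 2 : ℝ) : ℂ) * (-θ)))‖) := by
          gcongr; exact norm_add_le _ _
      _ ≤ 8 := by rw [norm_neg]; linarith
  calc ∫⁻ z in R, ENNReal.ofReal (A g s (z - ((S + 2 * s : ℝ) : ℂ)) - g (z - (S : ℂ)))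
      ≤ ∫⁻ z in R, ∫⁻ p : ℂ × ℝ, ENNReal.ofReal (2 * s / Real.pi *
      bb (fderiv ℝ g (z + (-((S + 2 * s : ℝ) : ℂ) +
        (s * p.1 + p.2 * ((2 * s : ℝ) * (1 + ((1 / 2 : ℝ) : ℂ) * (-p.1)))))))) ∂avm := by
        apply lintegral_mono
        intro z
        have h1 := avg_drop hg hs (z - ((S + 2 * s : ℝ) : ℂ))
        have h2 : z - ((S + 2 * s : ℝ) : ℂ) + ((2 * s : ℝ) : ℂ) = z - (S : ℂ) := by
          push_cast; ring
        rw [h2] at h1
        refine le_trans h1 (le_of_eq ?_)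
        congr 1
        funext p
        congr 4
        ring
    _ = ∫⁻ p : ℂ × ℝ, (∫⁻ z in R, ENNReal.ofReal (2 * s / Real.pi *
      bb (fderiv ℝ g (z + (-((S + 2 * s : ℝ) : ℂ) +
        (s * p.1 + p.2 * ((2 * s : ℝ) * (1 + ((1 / 2 : ℝ) : ℂ) * (-p.1))))))))) ∂avm := by
        apply lintegral_lintegral_swap
        apply Measurable.aemeasurable
        apply Measurable.ennreal_ofReal
        apply Continuous.measurable
        exact continuous_const.mul (hg.continuous_bb_fderiv.comp (by fun_prop))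
    _ ≤ ∫⁻ p : ℂ × ℝ, ENNReal.ofReal (2 * s / Real.pi) * ENNReal.ofReal (BB g) ∂avm := by
        apply lintegral_mono_ae
        have hae : ∀ᵐ p ∂avm, p ∈ ball (0 : ℂ) 1 ×ˢ Icc (0 : ℝ) 1 := by
          unfold avm
          rw [Measure.prod_restrict]
          exact ae_restrict_mem (measurableSet_ball.prod measurableSet_Icc)
        filter_upwards [hae] with p hp
        rw [← hLB]
        simp only [ENNReal.ofReal_mul (show 0 ≤ 2 * s / Real.pi by positivity)]
        rw [lintegral_const_mul' _ _ ENNReal.ofReal_ne_top]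
        refine mul_le_mul' le_rfl ?_
        apply lint_plane_shift_le (fun z => ENNReal.ofReal (bb (fderiv ℝ g z)))
        intro z hz
        rw [mem_ball_zero_iff]
        have h1 := hwn p hp
        have h2 := hRn z hz
        exact lt_of_le_of_lt (norm_add_le _ _) (by linarith)
    _ = _ := by
        rw [lintegral_const, avm_univ, ← ENNReal.ofReal_mul (by positivity),
          ← ENNReal.ofReal_mul (mul_nonneg (by positivity) (BB_nonneg g))]
        congr 1
        field_simp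

/-- sup bound for `bb` of the last chain function -/
theorem bb_last {f : ℂ → ℝ} (hf : Nice f) {N : ℕ} (hN : 1 ≤ N) {z : ℂ} (hz : ‖z‖ ≤ 39) :
    bb (fderiv ℝ (chain f N N) z) ≤ 4 ^ 13 * WW f N := by
  obtain ⟨M, rfl⟩ : ∃ M, N = M + 1 := ⟨N - 1, by omega⟩
  have hW := WW_nonneg f (M + 1)
  have hpi := Real.pi_gt_three
  have h1 := bb_fderiv_A_le (nice_chain hf (M + 1) M) (stp (M + 1) M) z
  rw [chain_succ f (by omega : M < M + 1)]
  have e : stp (M + 1) M = (1 / 4) ^ 6 := by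
    unfold stp
    congr 1
    omega
  have hsp := stp_pos (M + 1) M
  have h2 := disc_bb_le (nice_chain hf (M + 1) M) hsp (x := z) (by
    intro w hw
    rw [mem_ball, dist_eq_norm] at hw
    rw [mem_ball_zero_iff]
    have : w = (w - z) + z := by ring
    rw [this]
    refine lt_of_le_of_lt (norm_add_le _ _) ?_
    rw [e] at hw
    norm_num at hw
    linarith)
  have h3 := BB_chain_le f (N := M + 1) (j := M) (by omega)
  have e2 : M + 1 - M = 1 := by omega
  rw [e2, pow_one] at h3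
  refine le_trans h1 (le_trans h2 ?_)
  have h4 : 1 / (Real.pi * stp (M + 1) M ^ 2) ≤ 4 ^ 12 / 3 := by
    rw [e, div_le_div_iff₀ (by positivity) (by norm_num)]
    norm_num
    nlinarith
  calc _ ≤ (4 ^ 12 / 3 : ℝ) * (4 / 3 * WW f (M + 1)) :=
        mul_le_mul h4 h3 (BB_nonneg _) (by norm_num)
    _ ≤ _ := by nlinarith

/-- the far comparison for the last chain function -/
theorem far_cmp {f : ℂ → ℝ} (hf : Nice f) {N : ℕ} (hN : 1 ≤ N) {τ : ℝ}
    (hτ : τ ∈ Icc (1 : ℝ) 2) {x y s : ℝ} (hx : x ∈ Icc (1 : ℝ) (1 + 1 / 100))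
    (hy : y ∈ Icc (-1 : ℝ) 1) (hs : s ∈ Icc (10 : ℝ) 12) (hxs : x + 9 ≤ s) :
    U (chain f N N) τ ⟨x, y⟩ - chain f N N ⟨s, y⟩ ≤ 11 * (4 ^ 13 * WW f N) := by
  have hW := WW_nonneg f N
  set g := chain f N N with hg
  have hng : Nice g := nice_chain hf N N
  rw [sub_le_iff_le_add]
  apply U_le
  intro u hu
  apply A_le_of_le hng.continuous
  intro ξ hξ
  have hξ1 := (mem_ball_zero_iff.mp hξ).le
  set r : ℝ := τ * u with hr
  have hr1 : 0 ≤ r := mul_nonneg (by linarith [hτ.1]) (by linarith [hu.1])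
  have hr8 : r ≤ 8 := by nlinarith [hτ.1, hτ.2, hu.1, hu.2]
  set σ : ℝ := s - x with hσ
  have hσ9 : 9 ≤ σ := by rw [hσ]; linarith
  have hσ11 : σ ≤ 11 := by rw [hσ]; linarith [hs.2, hx.1]
  have hσ0 : σ ≠ 0 := by linarith
  have h1 := pt_drop hng (t := σ) (c := r / σ) (z := ⟨x, y⟩ + r * ξ) (ξ := -ξ) (by linarith)
    (by positivity) (by rw [div_le_iff₀ (by linarith)]; linarith) (by rwa [norm_neg])
  have e1 : (σ : ℂ) * (1 + ((r / σ : ℝ) : ℂ) * (-ξ)) = σ - r * ξ := by
    have : (σ : ℂ) ≠ 0 := by exact_mod_cast hσ0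
    push_cast
    field_simp
    ring
  rw [e1] at h1
  have e2 : (⟨x, y⟩ : ℂ) + r * ξ + (σ - r * ξ) = ⟨s, y⟩ := by
    have : (⟨x, y⟩ : ℂ) + r * ξ + (σ - r * ξ) = ⟨x, y⟩ + (σ : ℂ) := by ring
    rw [this, mk_add_real, hσ]
    congr 1
    ring
  rw [e2] at h1
  have h2 : ∫ u in (0 : ℝ)..1, σ * bb (fderiv ℝ g (⟨x, y⟩ + r * ξ + u * (σ - r * ξ))) ≤
      ∫ u in (0 : ℝ)..1, 11 * (4 ^ 13 * WW f N) := by
    have hbc : Continuous fun u : ℝ => σ * bb (fderiv ℝ g (⟨x, y⟩ + r * ξ + u * (σ - r * ξ))) :=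
      continuous_const.mul (hng.continuous_bb_fderiv.comp (by fun_prop))
    apply intervalIntegral.integral_mono_on zero_le_one (hbc.intervalIntegrable _ _)
      (continuous_const.intervalIntegrable _ _)
    intro u hu
    have h3 : ‖(⟨x, y⟩ : ℂ) + r * ξ + u * (σ - r * ξ)‖ ≤ 39 := by
      have a1 : ‖(⟨x, y⟩ : ℂ)‖ ≤ 2 + 1 := norm_mk_le
        (abs_le.mpr ⟨by linarith [hx.1], by linarith [hx.2]⟩) (abs_le.mpr ⟨hy.1, hy.2⟩)
      have a2 : ‖(r : ℂ) * ξ‖ ≤ 8 := by
        rw [norm_mul, Complex.norm_real, Real.norm_eq_abs, abs_of_nonneg hr1]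
        nlinarith [norm_nonneg ξ]
      have a3 : ‖(u : ℂ) * (σ - r * ξ)‖ ≤ 19 := by
        rw [norm_mul, Complex.norm_real, Real.norm_eq_abs, abs_of_nonneg hu.1]
        have a4 : ‖(σ : ℂ) - r * ξ‖ ≤ 19 := by
          refine le_trans (norm_sub_le _ _) ?_
          rw [Complex.norm_real, Real.norm_eq_abs, abs_of_nonneg (by linarith)]
          linarith
        nlinarith [norm_nonneg ((σ : ℂ) - r * ξ), hu.1, hu.2]
      have a5 := norm_add_le ((⟨x, y⟩ : ℂ) + r * ξ) (u * (σ - r * ξ))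
      have a6 := norm_add_le (⟨x, y⟩ : ℂ) (r * ξ)
      linarith
    have h4 := bb_last hf hN h3
    exact mul_le_mul hσ11 h4 (bb_nonneg _) (by norm_num)
  rw [intervalIntegral.integral_const, sub_zero, one_smul] at h2
  linarith

theorem lint_const_rect (c : ENNReal) :
    ∫⁻ _y in Icc (-1 : ℝ) 1, ∫⁻ _x in Icc (11 : ℝ) 12, c = c * 2 := by
  rw [setLIntegral_const, Real.volume_Icc, setLIntegral_const, Real.volume_Icc]
  norm_num

/-- sum of the shifted steps -/
theorem chain_drop {f : ℂ → ℝ} (hf : Nice f) (N : ℕ) : ∀ j, j ≤ N →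
    ∫⁻ y in Icc (-1 : ℝ) 1, ∫⁻ x in Icc (11 : ℝ) 12,
      ENNReal.ofReal (chain f N j (⟨x, y⟩ - (shf N j : ℂ)) - f ⟨x, y⟩) ≤
    ENNReal.ofReal (prr f N j)
  | 0, _ => by
    have : ∀ z : ℂ, chain f N 0 (z - (shf N 0 : ℂ)) - f z = 0 := by
      intro z
      show f (z - ((0 : ℝ) : ℂ)) - f z = 0
      simp
    simp [this]
  | (j + 1), hj => by
    have ih := chain_drop hf N j (by omega)
    have hng := nice_chain hf N j
    have hs := (stp_pos N j).le
    have hs' := stp_le (N := N) (j := j) (by omega)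
    have hS := shf_nonneg N j
    have hS' := shf_le' (N := N) (j := j) (by omega)
    have h1 := step_drop hng hs (by linarith) hS (by linarith)
    have hc1 := (nice_chain hf N j).continuous
    have hc2 := hf.continuous
    have hc3 := continuous_A_right hng (stp N j)
    rw [chain_succ f (by omega : j < N)]
    have e : shf N (j + 1) = shf N j + 2 * stp N j := rfl
    rw [e]
    calc ∫⁻ y in Icc (-1 : ℝ) 1, ∫⁻ x in Icc (11 : ℝ) 12, ENNReal.ofReal
          (A (chain f N j) (stp N j) (⟨x, y⟩ - ((shf N j + 2 * stp N j : ℝ) : ℂ)) - f ⟨x, y⟩)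
        ≤ ∫⁻ y in Icc (-1 : ℝ) 1, ∫⁻ x in Icc (11 : ℝ) 12, (ENNReal.ofReal
          (A (chain f N j) (stp N j) (⟨x, y⟩ - ((shf N j + 2 * stp N j : ℝ) : ℂ)) -
            chain f N j (⟨x, y⟩ - (shf N j : ℂ))) +
          ENNReal.ofReal (chain f N j (⟨x, y⟩ - (shf N j : ℂ)) - f ⟨x, y⟩)) := by
          apply lintegral_mono
          intro y
          apply lintegral_mono
          intro x
          refine le_trans (ENNReal.ofReal_le_ofReal (le_of_eq ?_)) ENNReal.ofReal_add_le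
          ring
      _ = (∫⁻ y in Icc (-1 : ℝ) 1, ∫⁻ x in Icc (11 : ℝ) 12, ENNReal.ofReal
          (A (chain f N j) (stp N j) (⟨x, y⟩ - ((shf N j + 2 * stp N j : ℝ) : ℂ)) -
            chain f N j (⟨x, y⟩ - (shf N j : ℂ)))) +
          ∫⁻ y in Icc (-1 : ℝ) 1, ∫⁻ x in Icc (11 : ℝ) 12,
          ENNReal.ofReal (chain f N j (⟨x, y⟩ - (shf N j : ℂ)) - f ⟨x, y⟩) := by
          have hcc : Continuous (fun p : ℝ × ℝ => (A (chain f N j) (stp N j)
            ((⟨p.2, p.1⟩ : ℂ) - ((shf N j + 2 * stp N j : ℝ) : ℂ)) -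
            chain f N j ((⟨p.2, p.1⟩ : ℂ) - (shf N j : ℂ)))) := by
            have hm : Continuous fun p : ℝ × ℝ => (⟨p.2, p.1⟩ : ℂ) :=
              continuous_cmk continuous_snd continuous_fst
            fun_prop
          have m1 : Measurable (fun p : ℝ × ℝ => ENNReal.ofReal (A (chain f N j) (stp N j)
            ((⟨p.2, p.1⟩ : ℂ) - ((shf N j + 2 * stp N j : ℝ) : ℂ)) -
            chain f N j ((⟨p.2, p.1⟩ : ℂ) - (shf N j : ℂ)))) := hcc.measurable.ennreal_ofReal
          rw [← lintegral_add_left m1.lintegral_prod_right']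
          congr 1
          funext y
          exact lintegral_add_left (m1.comp measurable_prodMk_left) _
      _ ≤ ENNReal.ofReal (2 * stp N j * BB (chain f N j)) + ENNReal.ofReal (prr f N j) :=
          add_le_add h1 ih
      _ = _ := by
          rw [← ENNReal.ofReal_add (mul_nonneg (by positivity) (BB_nonneg _)) (prr_nonneg f N j),
            add_comm]
          rfl

theorem UNIT_L2 {f : ℂ → ℝ} (hf : Nice f) {N : ℕ} (hN : 1 ≤ N) {τ : ℝ}
    (hτ : τ ∈ Icc (1 : ℝ) 2) :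
    ∫⁻ y in Icc (-1 : ℝ) 1, ∫⁻ s in Icc (11 : ℝ) 12,
      ENNReal.ofReal (U f τ (⟨1, y⟩ : ℂ) - f (⟨s, y⟩ : ℂ)) ≤
    ENNReal.ofReal (4 ^ 16 * WW f N) := by
  have hW := WW_nonneg f N
  have hS := shf_nonneg N N
  have hS' := shf_le' (N := N) (j := N) le_rfl
  have hP := prr_le f N N le_rfl
  rw [Nat.sub_self, pow_zero, mul_one] at hP
  have hP0 := prr_nonneg f N N
  have h1 := chain_drop hf N N le_rfl
  calc ∫⁻ y in Icc (-1 : ℝ) 1, ∫⁻ s in Icc (11 : ℝ) 12,
      ENNReal.ofReal (U f τ (⟨1, y⟩ : ℂ) - f (⟨s, y⟩ : ℂ))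
      ≤ ∫⁻ y in Icc (-1 : ℝ) 1, ∫⁻ s in Icc (11 : ℝ) 12,
      (ENNReal.ofReal (12 * (4 ^ 13 * WW f N)) +
        ENNReal.ofReal (chain f N N (⟨s, y⟩ - (shf N N : ℂ)) - f ⟨s, y⟩)) := by
        apply setLIntegral_mono' measurableSet_Icc
        intro y hy
        apply setLIntegral_mono' measurableSet_Icc
        intro s hs
        refine le_trans (ENNReal.ofReal_le_ofReal ?_) ENNReal.ofReal_add_le
        have a1 := cmp_chain1 hf (N := N) hτ (y := ⟨1, y⟩)
          (le_trans (norm_mk_le (a := 16) (b := 1) (abs_le.mpr ⟨by norm_num, by norm_num⟩)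
            (abs_le.mpr ⟨hy.1, hy.2⟩)) (by norm_num)) N le_rfl
        rw [mk_add_real] at a1
        have e1 : (⟨s, y⟩ : ℂ) - (shf N N : ℂ) = ⟨s - shf N N, y⟩ := by
          apply Complex.ext <;> simp
        rw [e1]
        have a2 := far_cmp hf hN hτ (x := 1 + shf N N) (y := y) (s := s - shf N N)
          ⟨by linarith, by linarith⟩ hy ⟨by linarith [hs.1], by linarith [hs.2]⟩
          (by linarith [hs.1])
        norm_num at hP
        nlinarith
    _ = ENNReal.ofReal (12 * (4 ^ 13 * WW f N)) * 2 + ∫⁻ y in Icc (-1 : ℝ) 1,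
        ∫⁻ s in Icc (11 : ℝ) 12,
        ENNReal.ofReal (chain f N N (⟨s, y⟩ - (shf N N : ℂ)) - f ⟨s, y⟩) := by
        simp only [lintegral_add_left measurable_const]
        rw [lint_const_rect]
    _ ≤ ENNReal.ofReal (24 * (4 ^ 13 * WW f N)) + ENNReal.ofReal (WW f N) := by
        refine add_le_add (le_of_eq ?_) (le_trans h1 (ENNReal.ofReal_le_ofReal ?_))
        · have : (2 : ENNReal) = ENNReal.ofReal 2 := by norm_num
          rw [this, ← ENNReal.ofReal_mul (by positivity)]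
          congr 1
          ring
        · norm_num at hP
          linarith
    _ ≤ _ := by
        rw [← ENNReal.ofReal_add (by positivity) (by positivity)]
        apply ENNReal.ofReal_le_ofReal
        nlinarith

end Crest.Agent.R112
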