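import Crest.Agent.R112.UnitL1
import Crest.Agent.R112.UnitL2

/-! R112, section 3: the unit scale theorem (conditional on the K_b proposition `KbProp`). -/

set_option autoImplicit false

namespace Crest.Agent.R112

open MeasureTheory Metric Set Filter Topology

theorem lint_bb_eq {g : ℂ → ℝ} (hg : Nice g) :
    ∫⁻ z in ball (0 : ℂ) 40, ENNReal.ofReal (bb (fderiv ℝ g z)) = ENNReal.ofReal (BB g) := by
  unfold BB
  rw [ofReal_integral_eq_lintegral_ofReal hg.integrable_bb.integrableOn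
    (Eventually.of_forall fun _ => bb_nonneg _)]

theorem WW_ofReal {f : ℂ → ℝ} (hf : Nice f) (N : ℕ) :
    ENNReal.ofReal (WW f N) = ∑ j ∈ Finset.range (N + 1), (3 / 4 : ENNReal) ^ (N - j) *
      ∫⁻ z in ball (0 : ℂ) 40, ENNReal.ofReal (bb (fderiv ℝ (chain f N j) z)) := by
  unfold WW
  rw [ENNReal.ofReal_sum_of_nonneg fun j _ => mul_nonneg (by positivity) (BB_nonneg _)]
  apply Finset.sum_congr rfl
  intro j _
  rw [ENNReal.ofReal_mul (by positivity), lint_bb_eq (nice_chain hf N j),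
    ENNReal.ofReal_pow (by norm_num), ENNReal.ofReal_div_of_pos (by norm_num)]
  norm_num

/-- The unit scale theorem, given `K_b`. -/
theorem UNIT_of_Kb {C : ℝ} (hC : 0 ≤ C) (hK : KbProp C) : ∃ C : NNReal, ∀ f : ℂ → ℝ, Nice f →
    ∀ N : ℕ, 1 ≤ N → ∫⁻ τ in Icc (1 : ℝ) 2, Q τ f ≤
      C * ∑ j ∈ Finset.range (N + 1), (3 / 4 : ENNReal) ^ (N - j) *
      ∫⁻ z in ball (0 : ℂ) 40, ENNReal.ofReal (bb (fderiv ℝ (chain f N j) z)) := by
  refine ⟨Real.toNNReal (2 * (18 * C + 300) + 4 ^ 16), ?_⟩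
  intro f hf N hN
  have hW := WW_nonneg f N
  rw [← WW_ofReal hf N]
  have h1 := UNIT_L1 hC hK hf N
  have hmeas : ∀ τ : ℝ, Measurable fun y : ℝ => ∫⁻ s in Icc (11 : ℝ) 12,
      ENNReal.ofReal (U f τ (⟨1, y⟩ : ℂ) - f (⟨s, y⟩ : ℂ)) := by
    intro τ
    have hc : Continuous fun p : ℝ × ℝ => U f τ (⟨1, p.1⟩ : ℂ) - f (⟨p.2, p.1⟩ : ℂ) :=
      ((continuous_U_right hf τ).comp (continuous_cmk continuous_const continuous_fst)).sub
        (hf.continuous.comp (continuous_cmk continuous_snd continuous_fst))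
    exact (hc.measurable.ennreal_ofReal).lintegral_prod_right'
  calc ∫⁻ τ in Icc (1 : ℝ) 2, Q τ f
      ≤ ∫⁻ τ in Icc (1 : ℝ) 2, (2 * (∫⁻ y in Icc (-1 : ℝ) 1, ∫⁻ s in Icc (-1 : ℝ) 15,
        ENNReal.ofReal (-(deriv (fun s : ℝ => U f τ (⟨s, y⟩ : ℂ)) s))) +
          ENNReal.ofReal (4 ^ 16 * WW f N)) := by
        apply setLIntegral_mono' measurableSet_Icc
        intro τ hτ
        unfold Q
        rw [lintegral_add_right _ (hmeas τ), lintegral_const_mul' _ _ (by norm_num)]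
        exact add_le_add le_rfl (UNIT_L2 hf hN hτ)
    _ = 2 * (∫⁻ τ in Icc (1 : ℝ) 2, ∫⁻ y in Icc (-1 : ℝ) 1, ∫⁻ s in Icc (-1 : ℝ) 15,
        ENNReal.ofReal (-(deriv (fun s : ℝ => U f τ (⟨s, y⟩ : ℂ)) s))) +
          ENNReal.ofReal (4 ^ 16 * WW f N) := by
        rw [lintegral_add_right _ measurable_const, lintegral_const_mul' _ _ (by norm_num),
          setLIntegral_const, Real.volume_Icc]
        norm_num
    _ ≤ 2 * ENNReal.ofReal ((18 * C + 300) * WW f N) + ENNReal.ofReal (4 ^ 16 * WW f N) :=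
        add_le_add (mul_le_mul' le_rfl h1) le_rfl
    _ = _ := by
        have : (2 : ENNReal) = ENNReal.ofReal 2 := by norm_num
        rw [this, ← ENNReal.ofReal_mul (by positivity), ← ENNReal.ofReal_add (by positivity)
          (by positivity)]
        show _ = ENNReal.ofReal (2 * (18 * C + 300) + 4 ^ 16) * _
        rw [← ENNReal.ofReal_mul (by positivity)]
        congr 1
        ring

end Crest.Agent.R112
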