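import Crest.Agent.R112.UnitCmp
import Crest.Agent.R112.OneDim

/-! R112, section 3: comparison of peaks, iterated integrals. -/

set_option autoImplicit false

namespace Crest.Agent.R112

open MeasureTheory Metric Set Filter Topology

theorem continuous_cmk {X : Type*} [TopologicalSpace X] {a b : X → ℝ} (ha : Continuous a)
    (hb : Continuous b) : Continuous fun p => (⟨a p, b p⟩ : ℂ) :=
  Complex.equivRealProdCLM.symm.continuous.comp (ha.prodMk hb)

theorem mk_add_real (s y S : ℝ) : (⟨s, y⟩ : ℂ) + (S : ℂ) = ⟨s + S, y⟩ := by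
  apply Complex.ext <;> simp

theorem norm_mk_le {s y a b : ℝ} (hs : |s| ≤ a) (hy : |y| ≤ b) : ‖(⟨s, y⟩ : ℂ)‖ ≤ a + b := by
  have := Complex.norm_le_abs_re_add_abs_im ⟨s, y⟩
  simp only at this
  linarith

/-- joint continuity of the peak functional -/
theorem continuous_Pk_U {g : ℂ → ℝ} (hg : Nice g) (lo hi : ℝ) :
    Continuous (fun p : ℝ × ℝ × ℝ => Pk (fun s => U g p.1 ⟨s, p.2.1⟩) lo hi p.2.2) := by
  unfold Pk
  have h1 : Continuous (fun p : ℝ × ℝ × ℝ => U g p.1 ⟨p.2.2, p.2.1⟩) :=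
    (continuous_U hg).comp (Continuous.prodMk (by fun_prop) (continuous_cmk (by fun_prop)
      (by fun_prop)))
  have h2 : Continuous (fun q : (ℝ × ℝ × ℝ) × ℝ => U g q.1.1 ⟨q.1.2.2 - q.2, q.1.2.1⟩) :=
    (continuous_U hg).comp (Continuous.prodMk (by fun_prop) (continuous_cmk (by fun_prop)
      (by fun_prop)))
  have h3 : Continuous (fun q : (ℝ × ℝ × ℝ) × ℝ => U g q.1.1 ⟨q.1.2.2 + q.2, q.1.2.1⟩) :=
    (continuous_U hg).comp (Continuous.prodMk (by fun_prop) (continuous_cmk (by fun_prop)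
      (by fun_prop)))
  refine continuous_const.max (h1.sub (Continuous.max ?_ ?_))
  · exact isCompact_Icc.continuous_sInf
      (f := fun (p : ℝ × ℝ × ℝ) (t : ℝ) => U g p.1 ⟨p.2.2 - t, p.2.1⟩) h2
  · exact isCompact_Icc.continuous_sInf
      (f := fun (p : ℝ × ℝ × ℝ) (t : ℝ) => U g p.1 ⟨p.2.2 + t, p.2.1⟩) h3

theorem Pk_le_of_cmp {h h1 : ℝ → ℝ} (hh1 : Continuous h1) {lo hi lo' hi' S P s : ℝ}
    (hS : 0 ≤ S) (hlh : lo ≤ hi) (hlo : lo' + 2 * S ≤ lo) (hhi : hi + 2 * S ≤ hi')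
    (hP : 0 ≤ P) (hlo0 : 0 ≤ lo)
    (c1 : h s ≤ h1 (s + S) + P)
    (c2 : ∀ t, |t - s| ≤ hi → h1 (t - S) ≤ h t + P) :
    Pk h lo hi s ≤ Pk h1 lo' hi' (s + S) + 2 * P := by
  have hne : (Icc lo hi).Nonempty := nonempty_Icc.mpr hlh
  have bdd1 : BddBelow ((fun t => h1 (s + S - t)) '' Icc lo' hi') :=
    (isCompact_Icc.image (by fun_prop)).bddBelow
  have bdd2 : BddBelow ((fun t => h1 (s + S + t)) '' Icc lo' hi') :=
    (isCompact_Icc.image (by fun_prop)).bddBelow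
  have e1 : sInf ((fun t => h1 (s + S - t)) '' Icc lo' hi') - P ≤
      sInf ((fun t => h (s - t)) '' Icc lo hi) := by
    apply le_csInf (hne.image _)
    rintro _ ⟨t, ht, rfl⟩
    have h2 := c2 (s - t) (by
      rw [sub_sub_cancel_left, abs_neg, abs_of_nonneg (le_trans hlo0 ht.1)]; exact ht.2)
    have h3 : sInf ((fun t => h1 (s + S - t)) '' Icc lo' hi') ≤ h1 (s + S - (t + 2 * S)) :=
      csInf_le bdd1 ⟨t + 2 * S, ⟨by linarith [ht.1], by linarith [ht.2]⟩, rfl⟩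
    have h4 : s + S - (t + 2 * S) = s - t - S := by ring
    rw [h4] at h3
    show _ ≤ h (s - t)
    linarith
  have e2 : sInf ((fun t => h1 (s + S + t)) '' Icc lo' hi') - P ≤
      sInf ((fun t => h (s + t)) '' Icc lo hi) := by
    apply le_csInf (hne.image _)
    rintro _ ⟨t, ht, rfl⟩
    have h2 := c2 (s + t) (by
      rw [add_sub_cancel_left, abs_of_nonneg (le_trans hlo0 ht.1)]; exact ht.2)
    have h3 : sInf ((fun t => h1 (s + S + t)) '' Icc lo' hi') ≤ h1 (s + S + (t - 2 * S)) :=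
      csInf_le bdd2 ⟨t - 2 * S, ⟨by linarith [ht.1], by linarith [ht.2]⟩, rfl⟩
    have h4 : s + S + (t - 2 * S) = s + t - S := by ring
    rw [h4] at h3
    show _ ≤ h (s + t)
    linarith
  unfold Pk
  apply max_le
  · have := le_max_left 0 (h1 (s + S) - max (sInf ((fun t => h1 (s + S - t)) '' Icc lo' hi'))
      (sInf ((fun t => h1 (s + S + t)) '' Icc lo' hi')))
    linarith
  · have h5 := le_max_right 0 (h1 (s + S) - max (sInf ((fun t => h1 (s + S - t)) '' Icc lo' hi'))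
      (sInf ((fun t => h1 (s + S + t)) '' Icc lo' hi')))
    have h6 : max (sInf ((fun t => h1 (s + S - t)) '' Icc lo' hi'))
      (sInf ((fun t => h1 (s + S + t)) '' Icc lo' hi')) - P ≤
      max (sInf ((fun t => h (s - t)) '' Icc lo hi)) (sInf ((fun t => h (s + t)) '' Icc lo hi)) := by
      rw [← max_sub_sub_right]
      exact max_le_max e1 e2
    linarith

/-! ### iterated integrals of continuous functions -/

theorem lint_eq1 {F : ℝ → ℝ} (hF : Continuous F) (h0 : ∀ x, 0 ≤ F x) {a b : ℝ} (hab : a ≤ b) :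
    ∫⁻ x in Icc a b, ENNReal.ofReal (F x) = ENNReal.ofReal (∫ x in a..b, F x) := by
  rw [intervalIntegral.integral_of_le hab, ← integral_Icc_eq_integral_Ioc,
    ofReal_integral_eq_lintegral_ofReal]
  · exact hF.continuousOn.integrableOn_compact isCompact_Icc
  · exact Eventually.of_forall h0

theorem continuous_int1 {X : Type*} [TopologicalSpace X]
    {F : X × ℝ → ℝ} (hF : Continuous F) (a b : ℝ) :
    Continuous (fun x : X => ∫ t in a..b, F (x, t)) :=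
  intervalIntegral.continuous_parametric_intervalIntegral_of_continuous'
    (f := fun x t => F (x, t)) hF a b

theorem int_nonneg {F : ℝ → ℝ} (h0 : ∀ x, 0 ≤ F x) {a b : ℝ} (hab : a ≤ b) :
    0 ≤ ∫ x in a..b, F x := intervalIntegral.integral_nonneg hab fun x _ => h0 x

theorem lint_eq3 {F : ℝ × ℝ × ℝ → ℝ} (hF : Continuous F) (h0 : ∀ x, 0 ≤ F x)
    {a₁ b₁ a₂ b₂ a₃ b₃ : ℝ} (h1 : a₁ ≤ b₁) (h2 : a₂ ≤ b₂) (h3 : a₃ ≤ b₃) :
    ∫⁻ τ in Icc a₁ b₁, ∫⁻ y in Icc a₂ b₂, ∫⁻ s in Icc a₃ b₃, ENNReal.ofReal (F (τ, y, s)) =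
    ENNReal.ofReal (∫ τ in a₁..b₁, ∫ y in a₂..b₂, ∫ s in a₃..b₃, F (τ, y, s)) := by
  have c1 : Continuous fun p : ℝ × ℝ => ∫ s in a₃..b₃, F (p.1, p.2, s) :=
    continuous_int1 (F := fun q : (ℝ × ℝ) × ℝ => F (q.1.1, q.1.2, q.2)) (by fun_prop) _ _
  have c2 : Continuous fun τ : ℝ => ∫ y in a₂..b₂, ∫ s in a₃..b₃, F (τ, y, s) :=
    continuous_int1 (F := fun p : ℝ × ℝ => ∫ s in a₃..b₃, F (p.1, p.2, s)) c1 _ _
  have e1 : ∀ τ y, ∫⁻ s in Icc a₃ b₃, ENNReal.ofReal (F (τ, y, s)) =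
      ENNReal.ofReal (∫ s in a₃..b₃, F (τ, y, s)) := fun τ y =>
    lint_eq1 (by fun_prop) (fun s => h0 _) h3
  have e2 : ∀ τ, ∫⁻ y in Icc a₂ b₂, ENNReal.ofReal (∫ s in a₃..b₃, F (τ, y, s)) =
      ENNReal.ofReal (∫ y in a₂..b₂, ∫ s in a₃..b₃, F (τ, y, s)) := fun τ =>
    lint_eq1 (by fun_prop) (fun y => int_nonneg (fun s => h0 _) h3) h2
  simp only [e1, e2]
  exact lint_eq1 c2 (fun τ => int_nonneg (fun y => int_nonneg (fun s => h0 _) h3) h2) h1

theorem lint_shift_le (F : ℝ → ENNReal) {a b a' b' S : ℝ} (ha : a' ≤ a + S) (hb : b + S ≤ b') :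
    ∫⁻ s in Icc a b, F (s + S) ≤ ∫⁻ s in Icc a' b', F s := by
  have h1 := (measurePreserving_add_right (volume : Measure ℝ) S).setLIntegral_comp_preimage_emb
    (measurableEmbedding_addRight S) F (Icc (a + S) (b + S))
  rw [preimage_add_const_Icc, add_sub_cancel_right, add_sub_cancel_right] at h1
  rw [h1]
  exact lintegral_mono_set (Icc_subset_Icc ha hb)

end Crest.Agent.R112
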