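import Crest.Agent.R112.Basic

/-! # R112: vector facts (V4), (V5) -/

set_option autoImplicit false

namespace Crest.Agent.R112

open Set Metric

/-- `b` in the direction `e` -/
noncomputable def bbe (e : ℂ) (L : ℂ →L[ℝ] ℝ) : ℝ := max 0 (9 / 10 * ‖L‖ - L e)

theorem bbe_one (L : ℂ →L[ℝ] ℝ) : bbe 1 L = bb L := rfl

theorem bbe_nonneg (e : ℂ) (L : ℂ →L[ℝ] ℝ) : 0 ≤ bbe e L := le_max_left _ _

theorem continuous_bbe (e : ℂ) : Continuous (bbe e) := by
  unfold bbe
  fun_prop

theorem clm_apply (L : ℂ →L[ℝ] ℝ) (v : ℂ) : L v = L 1 * v.re + L Complex.I * v.im := by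
  have h : v = v.re • (1 : ℂ) + v.im • Complex.I := by
    apply Complex.ext <;> simp
  conv_lhs => rw [h]
  rw [map_add, map_smul, map_smul, smul_eq_mul, smul_eq_mul]
  ring

theorem clm_norm_sq (L : ℂ →L[ℝ] ℝ) : ‖L‖ ^ 2 = (L 1) ^ 2 + (L Complex.I) ^ 2 := by
  apply le_antisymm
  · have h1 : ‖L‖ ≤ Real.sqrt ((L 1) ^ 2 + (L Complex.I) ^ 2) := by
      apply ContinuousLinearMap.opNorm_le_bound _ (Real.sqrt_nonneg _)
      intro v
      rw [Complex.norm_eq_sqrt_sq_add_sq, ← Real.sqrt_mul (by positivity), Real.norm_eq_abs]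
      apply Real.abs_le_sqrt
      rw [clm_apply L v]
      nlinarith [sq_nonneg (L 1 * v.im - L Complex.I * v.re)]
    calc ‖L‖ ^ 2 ≤ (Real.sqrt ((L 1) ^ 2 + (L Complex.I) ^ 2)) ^ 2 := by gcongr
      _ = _ := Real.sq_sqrt (by positivity)
  · have h2 := L.le_opNorm ⟨L 1, L Complex.I⟩
    rw [clm_apply L ⟨L 1, L Complex.I⟩, Complex.norm_eq_sqrt_sq_add_sq] at h2
    simp only at h2
    set s := (L 1) ^ 2 + (L Complex.I) ^ 2 with hs
    have hs0 : 0 ≤ s := by positivity
    have h3 : L 1 * L 1 + L Complex.I * L Complex.I = s := by rw [hs]; ring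
    rw [h3, Real.norm_eq_abs, abs_of_nonneg hs0] at h2
    have h4 : s = Real.sqrt s * Real.sqrt s := (Real.mul_self_sqrt hs0).symm
    have h5 : Real.sqrt s ≤ ‖L‖ := by
      rcases (Real.sqrt_nonneg s).eq_or_lt with h | h
      · rw [← h]; exact norm_nonneg _
      · apply le_of_mul_le_mul_right _ h
        rw [← h4]
        exact h2
    calc s = (Real.sqrt s) ^ 2 := (Real.sq_sqrt hs0).symm
      _ ≤ ‖L‖ ^ 2 := by gcongr

private theorem vec_ineq {n p q c s : ℝ} (hn : 0 ≤ n) (h2 : p ^ 2 + q ^ 2 = n ^ 2)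
    (h1 : c ^ 2 + s ^ 2 = 1) (hc : 23 / 25 ≤ c) :
    9 / 10 * n - (p * c + q * s) ≤ 25 * (n - p) := by
  have hpn : p ≤ n := (abs_le.mp (abs_le_of_sq_le_sq (by nlinarith [sq_nonneg q]) hn)).2
  have hc1 : c ≤ 1 := (abs_le.mp (abs_le_of_sq_le_sq (by nlinarith [sq_nonneg s])
    zero_le_one)).2
  have hs : |s| ≤ 1 / 2 := abs_le_of_sq_le_sq' (by nlinarith) (by norm_num) |> abs_le.mpr
  have hqn : |q| ≤ n := abs_le_of_sq_le_sq' (by nlinarith [sq_nonneg p]) hn |> abs_le.mpr
  have hqs : -(q * s) ≤ 1 / 2 * |q| := by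
    have h6 : |q * s| ≤ |q| * (1 / 2) := by
      rw [abs_mul]; gcongr
    have := (abs_le.mp h6).1
    linarith
  have hq2 : |q| ^ 2 = (n - p) * (n + p) := by
    rw [sq_abs]; linarith
  have hd : 0 ≤ n - p := by linarith
  rcases le_or_gt p 0 with hp0 | hp0
  · have h7 : -(p * c) ≤ -p := by
      have : 0 ≤ -p * (1 - c) := mul_nonneg (by linarith) (by linarith)
      linarith
    linarith
  · have h7 : 23 / 25 * p ≤ p * c := by
      have : 0 ≤ p * (c - 23 / 25) := mul_nonneg hp0.le (by linarith)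
      linarith
    have h8 : 1 / 2 * |q| ≤ 1 / 50 * n + 20 * (n - p) := by
      have h10 : 0 ≤ 1 / 50 * n + 20 * (n - p) := by linarith
      have h11 : (1 / 2 * |q|) ^ 2 ≤ (1 / 50 * n + 20 * (n - p)) ^ 2 := by
        rw [mul_pow, hq2]
        have h12 : 0 ≤ n * (n - p) := mul_nonneg hn hd
        have h13 : (n - p) * (n + p) ≤ 2 * (n * (n - p)) := by nlinarith
        nlinarith [sq_nonneg n, sq_nonneg (n - p)]
      have := abs_le_of_sq_le_sq' h11 h10
      exact this.2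
    linarith

/-- (V4): if `e` makes a small angle with the gradient `G` then there is a unit vector `φ`
(the direction of `G`) with `G φ = ‖G‖` and `b_e(L) ≤ 25 (‖L‖ - L φ)` for all `L`. -/
theorem exists_dir {e : ℂ} (he : ‖e‖ = 1) {G : ℂ →L[ℝ] ℝ} (hG : 23 / 25 * ‖G‖ ≤ G e) :
    ∃ φ : ℂ, ‖φ‖ = 1 ∧ G φ = ‖G‖ ∧ ∀ L : ℂ →L[ℝ] ℝ, bbe e L ≤ 25 * (‖L‖ - L φ) := by
  have key : ∀ φ : ℂ, ‖φ‖ = 1 → 23 / 25 ≤ e.re * φ.re + e.im * φ.im →
      ∀ L : ℂ →L[ℝ] ℝ, bbe e L ≤ 25 * (‖L‖ - L φ) := by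
    intro φ hφ hd L
    have hφ2 : φ.re ^ 2 + φ.im ^ 2 = 1 := by
      have := Complex.sq_norm φ
      rw [hφ, Complex.normSq_apply] at this
      nlinarith
    have he2 : e.re ^ 2 + e.im ^ 2 = 1 := by
      have := Complex.sq_norm e
      rw [he, Complex.normSq_apply] at this
      nlinarith
    have hn := clm_norm_sq L
    have hn0 := norm_nonneg L
    rw [bbe]
    apply max_le
    · have := (abs_le.mp (abs_apply_le L (ξ := φ) hφ.le)).2
      nlinarith
    · rw [clm_apply L e, clm_apply L φ]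
      set a := L 1
      set b := L Complex.I
      set n := ‖L‖
      -- coordinates relative to φ
      set c := e.re * φ.re + e.im * φ.im with hc
      set s := e.im * φ.re - e.re * φ.im with hs
      set p := a * φ.re + b * φ.im with hp
      set q := b * φ.re - a * φ.im with hq
      have h1 : c ^ 2 + s ^ 2 = 1 := by
        have : c ^ 2 + s ^ 2 = (e.re ^ 2 + e.im ^ 2) * (φ.re ^ 2 + φ.im ^ 2) := by
          rw [hc, hs]; ring
        rw [this, he2, hφ2, one_mul]
      have h2 : p ^ 2 + q ^ 2 = n ^ 2 := by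
        have : p ^ 2 + q ^ 2 = (a ^ 2 + b ^ 2) * (φ.re ^ 2 + φ.im ^ 2) := by
          rw [hp, hq]; ring
        rw [this, hφ2, mul_one, hn]
      have h3 : a * e.re + b * e.im = p * c + q * s := by
        have : p * c + q * s = (a * e.re + b * e.im) * (φ.re ^ 2 + φ.im ^ 2) := by
          rw [hp, hc, hq, hs]; ring
        rw [this, hφ2, mul_one]
      rw [h3]
      exact vec_ineq hn0 h2 h1 hd
  rcases eq_or_ne ‖G‖ 0 with h0 | h0
  · refine ⟨e, he, ?_, key e he ?_⟩
    · have : G = 0 := norm_eq_zero.mp h0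
      rw [this]; simp
    · have := Complex.sq_norm e
      rw [he, Complex.normSq_apply] at this
      nlinarith
  · have hpos : 0 < ‖G‖ := lt_of_le_of_ne (norm_nonneg _) (Ne.symm h0)
    have hn := clm_norm_sq G
    refine ⟨⟨G 1 / ‖G‖, G Complex.I / ‖G‖⟩, ?_, ?_, key _ ?_ ?_⟩
    · rw [Complex.norm_eq_sqrt_sq_add_sq]
      simp only
      rw [div_pow, div_pow, ← add_div, ← hn, div_self (by positivity), Real.sqrt_one]
    · rw [clm_apply]
      simp only
      field_simp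
      linarith
    · rw [Complex.norm_eq_sqrt_sq_add_sq]
      simp only
      rw [div_pow, div_pow, ← add_div, ← hn, div_self (by positivity), Real.sqrt_one]
    · simp only
      rw [clm_apply G e] at hG
      have : e.re * (G 1 / ‖G‖) + e.im * (G Complex.I / ‖G‖) = 
        (G 1 * e.re + G Complex.I * e.im) / ‖G‖ := by ring
      rw [this, le_div_iff₀ hpos]
      exact hG

end Crest.Agent.R112
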