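import Mathlib

/-!
# R112 (S0147), module WeakA: one-dimensional facts for functions of bounded variation
* `lintegral_abs_deriv_le_eVariationOn` : `∫ |h'| ≤ Var h`.
* `abs_le_eVariationOn_of_tendsto` : `|h| ≤ Var h` if `h → 0` at `+∞`.
-/

set_option autoImplicit false

namespace Crest.Agent.R112

open MeasureTheory Set Filter Topology
open scoped ENNReal NNReal

/-- for a function of bounded variation `∫_a^b |h'| ≤ Var(h, [a,b])` (total variation form) -/
theorem lintegral_Icc_abs_deriv_le {h : ℝ → ℝ} (hbv : BoundedVariationOn h univ) {a b : ℝ}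
    (hab : a ≤ b) :
    ∫⁻ s in Icc a b, ENNReal.ofReal |deriv h s| ≤ eVariationOn h univ := by
  have hl : LocallyBoundedVariationOn h univ := hbv.locallyBoundedVariationOn
  set V : ℝ → ℝ := variationOnFromTo h univ a with hV
  have hmon : Monotone V := fun x y hxy =>
    variationOnFromTo.monotoneOn hl (mem_univ a) (mem_univ x) (mem_univ y) hxy
  have hd : ∀ᵐ s : ℝ, |deriv h s| ≤ deriv V s := by
    filter_upwards [hl.ae_differentiableAt, hmon.ae_differentiableAt] with s h1 h2
    have t1 : Tendsto (fun t => |slope h s t|) (𝓝[>] s) (𝓝 |deriv h s|) :=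
      ((h1.hasDerivAt.tendsto_slope).mono_left
        (nhdsWithin_mono _ (fun t ht => (ne_of_gt ht : t ≠ s)))).abs
    have t2 : Tendsto (fun t => slope V s t) (𝓝[>] s) (𝓝 (deriv V s)) :=
      (h2.hasDerivAt.tendsto_slope).mono_left
        (nhdsWithin_mono _ (fun t ht => (ne_of_gt ht : t ≠ s)))
    refine le_of_tendsto_of_tendsto t1 t2 ?_
    filter_upwards [self_mem_nhdsWithin] with t ht
    have ht' : s < t := ht
    have hpos : 0 < t - s := sub_pos.mpr ht'
    rw [slope_def_field, slope_def_field, abs_div, abs_of_pos hpos]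
    exact div_le_div_of_nonneg_right
      (variationOnFromTo.abs_sub_le_sub_of_le hl (mem_univ a) (mem_univ s) (mem_univ t) ht'.le)
      hpos.le
  have hVm : MonotoneOn V (uIcc a b) := hmon.monotoneOn _
  have hint : IntervalIntegrable (deriv V) volume a b := hVm.intervalIntegrable_deriv
  have hint' : IntegrableOn (deriv V) (Icc a b) :=
    (intervalIntegrable_iff_integrableOn_Icc_of_le hab).mp hint
  have hnn : ∀ᵐ s ∂(volume.restrict (Icc a b)), 0 ≤ deriv V s :=
    ae_restrict_of_ae (hd.mono fun s hs => le_trans (abs_nonneg _) hs)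
  calc ∫⁻ s in Icc a b, ENNReal.ofReal |deriv h s|
      ≤ ∫⁻ s in Icc a b, ENNReal.ofReal (deriv V s) := by
        apply lintegral_mono_ae
        exact ae_restrict_of_ae (hd.mono fun s hs => ENNReal.ofReal_le_ofReal hs)
    _ = ENNReal.ofReal (∫ s in Icc a b, deriv V s) :=
        (ofReal_integral_eq_lintegral_ofReal hint' hnn).symm
    _ ≤ ENNReal.ofReal (V b - V a) := by
        apply ENNReal.ofReal_le_ofReal
        have := hVm.intervalIntegral_deriv_mem_uIcc
        rw [uIcc_of_le (sub_nonneg.mpr (hmon hab))] at this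
        rw [integral_Icc_eq_integral_Ioc, ← intervalIntegral.integral_of_le hab]
        exact this.2
    _ ≤ eVariationOn h univ := by
        have hVa : V a = 0 := variationOnFromTo.self _ _ _
        rw [hVa, sub_zero, hV, variationOnFromTo.eq_of_le h univ hab]
        refine le_trans ENNReal.ofReal_toReal_le ?_
        exact eVariationOn.mono _ inter_subset_left

theorem lintegral_abs_deriv_le_eVariationOn (h : ℝ → ℝ) :
    ∫⁻ s, ENNReal.ofReal |deriv h s| ≤ eVariationOn h univ := by
  by_cases hbv : eVariationOn h univ = ⊤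
  · rw [hbv]; exact le_top
  have hbv' : BoundedVariationOn h univ := hbv
  have hcov : ∫⁻ s, ENNReal.ofReal |deriv h s| =
      ⨆ n : ℕ, ∫⁻ s in Icc (-(n : ℝ)) n, ENNReal.ofReal |deriv h s| := by
    have h1 := setLIntegral_iUnion_of_directed (μ := volume)
      (fun s => ENNReal.ofReal |deriv h s|) (s := fun n : ℕ => Icc (-(n : ℝ)) n) ?_
    · rw [← h1]
      have : (⋃ n : ℕ, Icc (-(n : ℝ)) n) = univ := by
        apply eq_univ_of_forall
        intro x
        obtain ⟨n, hn⟩ := exists_nat_ge |x|
        exact mem_iUnion.mpr ⟨n, by rw [mem_Icc]; exact ⟨by linarith [neg_abs_le x], by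
          linarith [le_abs_self x]⟩⟩
      rw [this, Measure.restrict_univ]
    · apply Monotone.directed_le
      intro m n hmn x hx
      have : (m : ℝ) ≤ n := by exact_mod_cast hmn
      exact ⟨by linarith [hx.1], by linarith [hx.2]⟩
  rw [hcov]
  apply iSup_le
  intro n
  exact lintegral_Icc_abs_deriv_le hbv' (by linarith [Nat.cast_nonneg (α := ℝ) n])

theorem ofReal_abs_le_eVariationOn_of_tendsto {h : ℝ → ℝ} (h0 : Tendsto h atTop (𝓝 0)) (s : ℝ) :
    ENNReal.ofReal |h s| ≤ eVariationOn h univ := by
  have h1 : Tendsto (fun t => ENNReal.ofReal |h s - h t|) atTop (𝓝 (ENNReal.ofReal |h s|)) := by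
    have : Tendsto (fun t => |h s - h t|) atTop (𝓝 |h s - 0|) := (tendsto_const_nhds.sub h0).abs
    rw [sub_zero] at this
    exact (ENNReal.continuous_ofReal.tendsto _).comp this
  refine le_of_tendsto h1 (Eventually.of_forall fun t => ?_)
  have := eVariationOn.edist_le h (mem_univ s) (mem_univ t)
  rwa [edist_dist, Real.dist_eq] at this

end Crest.Agent.R112
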